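import Vale.Agent.P312.LSBasic

/-!
# P312: library of `LS` functions
-/

namespace Vale.Agent.P312

open Finset

variable {α : Type} {n : ℕ}

/-! ### Polynomial bounds -/

/-- Polynomially bounded functions. -/
def PB (f : List α → (Fin n → ℕ) → ℕ) : Prop :=
  ∃ C : ℕ, ∀ w v b, (∀ i, v i ≤ b) → f w v ≤ (w.length + b + 2) ^ C

theorem LS.pb {f : List α → (Fin n → ℕ) → ℕ} (hf : LS f) : PB f := by
  obtain ⟨C, K, h, _⟩ := hf
  exact ⟨C, fun w v b hb => by have := h w v b hb; omega⟩

theorem PB.mono {f g : List α → (Fin n → ℕ) → ℕ} (hg : PB g) (h : ∀ w v, f w v ≤ g w v) :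
    PB f := by
  obtain ⟨C, hC⟩ := hg
  exact ⟨C, fun w v b hb => (h w v).trans (hC w v b hb)⟩

theorem PB.const (c : ℕ) : PB (fun (_ : List α) (_ : Fin n → ℕ) => c) := by
  refine ⟨c, fun w v b _ => ?_⟩
  calc c ≤ 2 ^ c := (Nat.lt_two_pow_self).le
    _ ≤ (w.length + b + 2) ^ c := Nat.pow_le_pow_left (by omega) c

theorem PB.mul {f g : List α → (Fin n → ℕ) → ℕ} (hf : PB f) (hg : PB g) :
    PB (fun w v => f w v * g w v) := by
  obtain ⟨C, hC⟩ := hf
  obtain ⟨D, hD⟩ := hg
  refine ⟨C + D, fun w v b hb => ?_⟩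
  rw [pow_add]
  exact Nat.mul_le_mul (hC w v b hb) (hD w v b hb)

theorem PB.add {f g : List α → (Fin n → ℕ) → ℕ} (hf : PB f) (hg : PB g) :
    PB (fun w v => f w v + g w v) := by
  obtain ⟨C, hC⟩ := hf
  obtain ⟨D, hD⟩ := hg
  refine ⟨C + D + 1, fun w v b hb => ?_⟩
  have h1 := hC w v b hb
  have h2 := hD w v b hb
  have hx : 1 ≤ w.length + b + 2 := by omega
  have h3 : (w.length + b + 2) ^ C ≤ (w.length + b + 2) ^ (C + D) :=
    Nat.pow_le_pow_right hx (by omega)
  have h4 : (w.length + b + 2) ^ D ≤ (w.length + b + 2) ^ (C + D) :=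
    Nat.pow_le_pow_right hx (by omega)
  calc f w v + g w v ≤ (w.length + b + 2) ^ (C + D) * 2 := by omega
    _ ≤ (w.length + b + 2) ^ (C + D) * (w.length + b + 2) :=
      Nat.mul_le_mul_left _ (by omega)
    _ = _ := (pow_succ _ _).symm

/-- Substitution of polynomially bounded functions. -/
theorem PB.comp {k : ℕ} {f : List α → (Fin k → ℕ) → ℕ} (hf : PB f)
    {g : Fin k → List α → (Fin n → ℕ) → ℕ} {G : List α → (Fin n → ℕ) → ℕ} (hG : PB G)
    (hg : ∀ i w v, g i w v ≤ G w v) : PB (fun w v => f w (fun i => g i w v)) := by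
  obtain ⟨C, hC⟩ := hf
  obtain ⟨D, hD⟩ := hG
  refine ⟨(D + 2) * C, fun w v b hb => ?_⟩
  have h1 := hC w (fun i => g i w v) ((w.length + b + 2) ^ D)
    (fun i => (hg i w v).trans (hD w v b hb))
  refine h1.trans ?_
  rw [pow_mul]
  apply Nat.pow_le_pow_left
  have hx : 1 ≤ w.length + b + 2 := by omega
  have h2 : 1 ≤ (w.length + b + 2) ^ D := Nat.one_le_pow _ _ (by omega)
  rw [pow_add, pow_two]
  calc w.length + (w.length + b + 2) ^ D + 2
      ≤ (w.length + b + 2) ^ D * (w.length + 2) + (w.length + b + 2) ^ D * 1 := by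
        have := Nat.mul_le_mul_right (w.length + 2) h2
        omega
    _ = (w.length + b + 2) ^ D * (w.length + 3) := by ring
    _ ≤ (w.length + b + 2) ^ D * ((w.length + b + 2) * (w.length + b + 2)) := by
        apply Nat.mul_le_mul_left
        nlinarith

/-! ### Basic tools -/

theorem LS.congr {f g : List α → (Fin n → ℕ) → ℕ} (hf : LS f) (h : ∀ w v, f w v = g w v) :
    LS g := by
  have : f = g := by funext w v; exact h w v
  rwa [← this]

/-- Ignore the first `m` variables. -/
theorem LS.lift {f : List α → (Fin n → ℕ) → ℕ} (hf : LS f) (m : ℕ) :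
    LS (fun w (u : Fin (m + n) → ℕ) => f w (fun i => u (Fin.natAdd m i))) :=
  hf.comp (fun i => LS.var (Fin.natAdd m i))

/-- Ignore the first variable. -/
theorem LS.tail {f : List α → (Fin n → ℕ) → ℕ} (hf : LS f) :
    LS (fun w (u : Fin (n + 1) → ℕ) => f w (fun i => u i.succ)) :=
  hf.comp (fun i => LS.var i.succ)

/-- Substitute for the first variable. -/
theorem LS.subst {F : List α → (Fin (n + 1) → ℕ) → ℕ} (hF : LS F)
    {f : List α → (Fin n → ℕ) → ℕ} (hf : LS f) : LS (fun w v => F w (Fin.cons (f w v) v)) := by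
  have h := hF.comp (g := Fin.cons f (fun i w v => v i)) (by
    intro i
    refine Fin.cases ?_ (fun j => ?_) i
    · simpa using hf
    · simpa using LS.var j)
  refine h.congr (fun w v => ?_)
  congr 1
  funext i
  refine Fin.cases ?_ (fun j => ?_) i
  · simp
  · simp

theorem LS.app1 {F : ℕ → ℕ} (hF : LS (fun (_ : List α) (u : Fin 1 → ℕ) => F (u 0)))
    {f : List α → (Fin n → ℕ) → ℕ} (hf : LS f) : LS (fun w v => F (f w v)) :=
  hF.comp (g := fun _ => f) (fun _ => hf)

theorem LS.app2 {F : ℕ → ℕ → ℕ}
    (hF : LS (fun (_ : List α) (u : Fin 2 → ℕ) => F (u 0) (u 1)))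
    {f g : List α → (Fin n → ℕ) → ℕ} (hf : LS f) (hg : LS g) :
    LS (fun w v => F (f w v) (g w v)) := by
  have h := hF.comp (g := ![f, g]) (by
    intro i
    fin_cases i
    · exact hf
    · exact hg)
  exact h.congr (fun w v => by simp)

/-! ### Primitive recursion -/

/-- Primitive recursion: `F` has the index as variable `0` and the previous value as
variable `1`. -/
def recF (init : List α → (Fin n → ℕ) → ℕ) (F : List α → (Fin (n + 1 + 1) → ℕ) → ℕ)
    (w : List α) (v : Fin n → ℕ) : ℕ → ℕ
  | 0 => init w v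
  | j + 1 => F w (Fin.cons j (Fin.cons (recF init F w v j) v))

theorem LS.prec {init : List α → (Fin n → ℕ) → ℕ} {F : List α → (Fin (n + 1 + 1) → ℕ) → ℕ}
    {cnt : List α → (Fin n → ℕ) → ℕ} (hinit : LS init) (hF : LS F) (hcnt : LS cnt)
    (hb : ∃ g : List α → (Fin n → ℕ) → ℕ, PB g ∧
      ∀ w v, ∀ j ≤ cnt w v, recF init F w v j ≤ g w v) :
    LS (fun w v => recF init F w v (cnt w v)) := by
  obtain ⟨g, hg, hgb⟩ := hb
  -- the step function for the second component
  have hstep1 : LS (fun w (u : Fin (2 + n) → ℕ) =>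
      F w (Fin.cons (u (Fin.castAdd n 0)) (Fin.cons (u (Fin.castAdd n 1))
        (fun i => u (Fin.natAdd 2 i))))) := by
    have h := hF.comp (n := 2 + n)
      (g := Fin.cons (fun _ u => u (Fin.castAdd n 0)) (Fin.cons
        (fun _ u => u (Fin.castAdd n 1)) (fun i _ u => u (Fin.natAdd 2 i)))) (by
        intro i
        refine Fin.cases ?_ (fun j => ?_) i
        · simpa using LS.var (α := α) (Fin.castAdd n (0 : Fin 2))
        · refine Fin.cases ?_ (fun j => ?_) j
          · simpa using LS.var (α := α) (Fin.castAdd n (1 : Fin 2))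
          · simpa using LS.var (α := α) (Fin.natAdd 2 j))
    refine h.congr (fun w v => ?_)
    congr 1
    funext i
    refine Fin.cases ?_ (fun j => ?_) i
    · simp
    · refine Fin.cases ?_ (fun j => ?_) j
      · simp
      · simp
  let st : Fin 2 → List α → (Fin (2 + n) → ℕ) → ℕ := ![fun _ u => u (Fin.castAdd n 0) + 1,
    fun w u => F w (Fin.cons (u (Fin.castAdd n 0)) (Fin.cons (u (Fin.castAdd n 1))
        (fun i => u (Fin.natAdd 2 i))))]
  let ini : Fin 2 → List α → (Fin n → ℕ) → ℕ := ![fun _ _ => 0, init]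
  have key : ∀ w v j, iterVec ini st w v j = ![j, recF init F w v j] := by
    intro w v j
    induction j with
    | zero =>
      funext i
      fin_cases i <;> rfl
    | succ j ih =>
      have e : iterVec ini st w v (j + 1) =
          fun i => st i w (Fin.append (iterVec ini st w v j) v) := by
        unfold iterVec
        rw [Function.iterate_succ_apply']
      rw [e, ih]
      funext i
      fin_cases i
      · simp [st]
      · simp [st, recF]
  have h := LS.iterate (init := ini) (step := st) (cnt := cnt) (by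
    intro i
    fin_cases i
    · exact LS.const 0
    · exact hinit) (by
    intro i
    fin_cases i
    · exact (LS.var _).succ
    · exact hstep1) hcnt (by
    obtain ⟨C, hC⟩ := PB.add hcnt.pb hg
    refine ⟨C, fun w v b hb j hj i => ?_⟩
    rw [key]
    have h1 : cnt w v + g w v ≤ (w.length + b + 2) ^ C := hC w v b hb
    have h2 := hgb w v j hj
    fin_cases i
    · change j ≤ _; omega
    · change recF init F w v j ≤ _; omega) 1
  refine h.congr (fun w v => ?_)
  rw [key]
  simp

section
variable {f g h q : List α → (Fin n → ℕ) → ℕ}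

/-! ### Arithmetic -/

theorem LS.add (hf : LS f) (hg : LS g) : LS (fun w v => f w v + g w v) := by
  have key : ∀ w v j, recF f (fun (_ : List α) (u : Fin (n + 1 + 1) → ℕ) => u 1 + 1) w v j =
      f w v + j := by
    intro w v j
    induction j with
    | zero => rfl
    | succ j ih =>
      rw [recF, ih]
      simp [Fin.cons_one]
      rfl
  have h := LS.prec (F := fun (_ : List α) (u : Fin (n + 1 + 1) → ℕ) => u 1 + 1) hf
    (LS.var 1).succ hg ⟨fun w v => f w v + g w v, PB.add hf.pb hg.pb, by
      intro w v j hj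
      rw [key]; beta_reduce; omega⟩
  exact h.congr (fun w v => key w v _)

theorem LS.pred (hf : LS f) : LS (fun w v => f w v - 1) := by
  have key : ∀ w v j, recF (fun (_ : List α) (_ : Fin n → ℕ) => 0)
      (fun (_ : List α) (u : Fin (n + 1 + 1) → ℕ) => u 0) w v j = j - 1 := by
    intro w v j
    cases j with
    | zero => rfl
    | succ j => rw [recF]; simp
  have h := LS.prec (F := fun (_ : List α) (u : Fin (n + 1 + 1) → ℕ) => u 0) (LS.const 0)
    (LS.var 0) hf ⟨f, hf.pb, by
      intro w v j hj
      rw [key]; omega⟩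
  exact h.congr (fun w v => key w v _)

theorem LS.sub (hf : LS f) (hg : LS g) : LS (fun w v => f w v - g w v) := by
  have key : ∀ w v j, recF f (fun (_ : List α) (u : Fin (n + 1 + 1) → ℕ) => u 1 - 1) w v j =
      f w v - j := by
    intro w v j
    induction j with
    | zero => rfl
    | succ j ih =>
      rw [recF, ih]
      simp [Fin.cons_one]
      omega
  have h := LS.prec (F := fun (_ : List α) (u : Fin (n + 1 + 1) → ℕ) => u 1 - 1) hf
    (LS.var 1).pred hg ⟨f, hf.pb, by
      intro w v j hj
      rw [key]; omega⟩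
  exact h.congr (fun w v => key w v _)

/-- Ignore the first two variables. -/
theorem LS.tail2 {f : List α → (Fin n → ℕ) → ℕ} (hf : LS f) :
    LS (fun w (u : Fin (n + 1 + 1) → ℕ) => f w (fun i => u i.succ.succ)) :=
  hf.comp (fun i => LS.var i.succ.succ)

theorem LS.mul (hf : LS f) (hg : LS g) : LS (fun w v => f w v * g w v) := by
  have key : ∀ w v j, recF (fun (_ : List α) (_ : Fin n → ℕ) => 0)
      (fun (w : List α) (u : Fin (n + 1 + 1) → ℕ) => u 1 + f w (fun i => u i.succ.succ)) w v j =
      f w v * j := by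
    intro w v j
    induction j with
    | zero => rfl
    | succ j ih =>
      rw [recF, ih]
      simp [Fin.cons_one, Nat.mul_succ]
  have h := LS.prec
    (F := fun (w : List α) (u : Fin (n + 1 + 1) → ℕ) => u 1 + f w (fun i => u i.succ.succ))
    (LS.const 0) ((LS.var 1).add hf.tail2) hg ⟨fun w v => f w v * g w v, PB.mul hf.pb hg.pb, by
      intro w v j hj
      rw [key]
      exact Nat.mul_le_mul_left _ hj⟩
  exact h.congr (fun w v => key w v _)

theorem LS.min (hf : LS f) (hg : LS g) : LS (fun w v => min (f w v) (g w v)) :=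
  (hf.sub (hf.sub hg)).congr (fun w v => by omega)

theorem LS.max (hf : LS f) (hg : LS g) : LS (fun w v => max (f w v) (g w v)) :=
  (hf.add (hg.sub hf)).congr (fun w v => by omega)

/-! ### Predicates -/

/-- `LS` predicates. -/
def LSP (p : List α → (Fin n → ℕ) → Prop) : Prop :=
  ∃ χ : List α → (Fin n → ℕ) → ℕ, LS χ ∧
    ∀ w v, (p w v → χ w v = 1) ∧ (¬ p w v → χ w v = 0)

theorem LSP.congr {p p' : List α → (Fin n → ℕ) → Prop} (hp : LSP p)
    (h : ∀ w v, p w v ↔ p' w v) : LSP p' := by
  have : p = p' := by funext w v; exact propext (h w v)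
  rwa [← this]

theorem LSP.le (hf : LS f) (hg : LS g) : LSP (fun w v => f w v ≤ g w v) :=
  ⟨_, (LS.const 1).sub (hf.sub hg), fun w v => ⟨fun h => by omega, fun h => by omega⟩⟩

theorem LSP.lt (hf : LS f) (hg : LS g) : LSP (fun w v => f w v < g w v) :=
  LSP.le hf.succ hg

theorem LSP.not {p : List α → (Fin n → ℕ) → Prop} (hp : LSP p) : LSP (fun w v => ¬ p w v) := by
  obtain ⟨χ, hχ, h⟩ := hp
  refine ⟨_, (LS.const 1).sub hχ, fun w v => ⟨fun h' => ?_, fun h' => ?_⟩⟩
  · rw [(h w v).2 h']
  · rw [(h w v).1 (not_not.mp h')]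

theorem LSP.and {p p' : List α → (Fin n → ℕ) → Prop} (hp : LSP p) (hp' : LSP p') :
    LSP (fun w v => p w v ∧ p' w v) := by
  obtain ⟨χ, hχ, h⟩ := hp
  obtain ⟨χ', hχ', h'⟩ := hp'
  refine ⟨_, hχ.mul hχ', fun w v => ⟨fun h1 => ?_, fun h1 => ?_⟩⟩
  · rw [(h w v).1 h1.1, (h' w v).1 h1.2]
  · rcases not_and_or.mp h1 with h2 | h2
    · rw [(h w v).2 h2, zero_mul]
    · rw [(h' w v).2 h2, mul_zero]

theorem LSP.or {p p' : List α → (Fin n → ℕ) → Prop} (hp : LSP p) (hp' : LSP p') :
    LSP (fun w v => p w v ∨ p' w v) :=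
  (hp.not.and hp'.not).not.congr (fun w v => by tauto)

theorem LSP.eq (hf : LS f) (hg : LS g) : LSP (fun w v => f w v = g w v) :=
  ((LSP.le hf hg).and (LSP.le hg hf)).congr (fun w v => by omega)

theorem LSP.ne (hf : LS f) (hg : LS g) : LSP (fun w v => f w v ≠ g w v) :=
  (LSP.eq hf hg).not

theorem LS.ite {p : List α → (Fin n → ℕ) → Prop} [∀ w v, Decidable (p w v)] (hp : LSP p)
    (hf : LS f) (hg : LS g) : LS (fun w v => if p w v then f w v else g w v) := by
  obtain ⟨χ, hχ, h⟩ := hp
  refine ((hχ.mul hf).add (((LS.const 1).sub hχ).mul hg)).congr (fun w v => ?_)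
  by_cases hpv : p w v
  · rw [if_pos hpv, (h w v).1 hpv]; simp
  · rw [if_neg hpv, (h w v).2 hpv]; simp

/-! ### Division -/

theorem LS.mod (hf : LS f) (hg : LS g) : LS (fun w v => f w v % g w v) := by
  have key : ∀ w v j, recF (fun (_ : List α) (_ : Fin n → ℕ) => 0)
      (fun (w : List α) (u : Fin (n + 1 + 1) → ℕ) =>
        if u 1 + 1 = g w (fun i => u i.succ.succ) then 0 else u 1 + 1) w v j =
      j % g w v := by
    intro w v j
    induction j with
    | zero => simp [recF]
    | succ j ih =>
      rw [recF, ih]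
      simp only [Fin.cons_one, Fin.cons_succ, Fin.cons_zero]
      rcases Nat.eq_zero_or_pos (g w v) with h0 | h0
      · rw [h0]; simp
      · have hlt := Nat.mod_lt j h0
        have e1 : (j + 1) % g w v = (j % g w v + 1) % g w v := (Nat.mod_add_mod j (g w v) 1).symm
        split_ifs with h1
        · change j % g w v + 1 = g w v at h1
          rw [e1, h1, Nat.mod_self]
        · change ¬ j % g w v + 1 = g w v at h1
          have e2 : (j % g w v + 1) % g w v = j % g w v + 1 := Nat.mod_eq_of_lt (by omega)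
          rw [e1, e2]
  have h := LS.prec
    (F := fun (w : List α) (u : Fin (n + 1 + 1) → ℕ) =>
        if u 1 + 1 = g w (fun i => u i.succ.succ) then 0 else u 1 + 1)
    (LS.const 0) (LS.ite (LSP.eq (LS.var 1).succ hg.tail2) (LS.const 0) (LS.var 1).succ) hf
    ⟨f, hf.pb, by
      intro w v j hj
      rw [key]
      exact (Nat.mod_le _ _).trans hj⟩
  exact h.congr (fun w v => key w v _)

theorem LS.div (hf : LS f) (hg : LS g) : LS (fun w v => f w v / g w v) := by
  have key : ∀ w v j, recF (fun (_ : List α) (_ : Fin n → ℕ) => 0)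
      (fun (w : List α) (u : Fin (n + 1 + 1) → ℕ) =>
        if u 0 % g w (fun i => u i.succ.succ) + 1 = g w (fun i => u i.succ.succ) then u 1 + 1
        else u 1) w v j = j / g w v := by
    intro w v j
    induction j with
    | zero => simp [recF]
    | succ j ih =>
      rw [recF, ih]
      simp only [Fin.cons_one, Fin.cons_succ, Fin.cons_zero]
      rcases Nat.eq_zero_or_pos (g w v) with h0 | h0
      · rw [h0]; simp
      · have hlt := Nat.mod_lt j h0
        have hdm := Nat.div_add_mod j (g w v)
        symm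
        split_ifs with h1
        · change j % g w v + 1 = g w v at h1
          rw [Nat.div_eq_iff h0]
          constructor
          · have : (j / g w v + 1) * g w v = g w v * (j / g w v) + g w v := by ring
            omega
          · have : (j / g w v + 1) * g w v = g w v * (j / g w v) + g w v := by ring
            omega
        · change ¬ j % g w v + 1 = g w v at h1
          rw [Nat.div_eq_iff h0]
          have : (j / g w v) * g w v = g w v * (j / g w v) := by ring
          constructor
          · omega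
          · omega
  have h := LS.prec
    (F := fun (w : List α) (u : Fin (n + 1 + 1) → ℕ) =>
        if u 0 % g w (fun i => u i.succ.succ) + 1 = g w (fun i => u i.succ.succ) then u 1 + 1
        else u 1)
    (LS.const 0) (LS.ite (LSP.eq ((LS.var 0).mod hg.tail2).succ hg.tail2) (LS.var 1).succ
      (LS.var 1)) hf
    ⟨f, hf.pb, by
      intro w v j hj
      rw [key]
      exact (Nat.div_le_self _ _).trans hj⟩
  exact h.congr (fun w v => key w v _)

/-! ### Sums, products, powers -/

/-- Insert the accumulator as a dummy variable `1`. -/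
theorem LS.skip1 {F : List α → (Fin (n + 1) → ℕ) → ℕ} (hF : LS F) :
    LS (fun w (u : Fin (n + 1 + 1) → ℕ) => F w (Fin.cons (u 0) (fun i => u i.succ.succ))) := by
  have h := hF.comp (n := n + 1 + 1)
    (g := Fin.cons (fun _ u => u 0) (fun i _ u => u i.succ.succ)) (by
      intro i
      refine Fin.cases ?_ (fun j => ?_) i
      · simpa using LS.var (α := α) (0 : Fin (n + 1 + 1))
      · simpa using LS.var (α := α) j.succ.succ)
  refine h.congr (fun w v => ?_)
  congr 1
  funext i
  refine Fin.cases ?_ (fun j => ?_) i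
  · simp
  · simp

theorem LS.sum {F : List α → (Fin (n + 1) → ℕ) → ℕ} (hF : LS F) (hf : LS f) :
    LS (fun w v => ∑ a ∈ range (f w v), F w (Fin.cons a v)) := by
  have key : ∀ w v j, recF (fun (_ : List α) (_ : Fin n → ℕ) => 0)
      (fun (w : List α) (u : Fin (n + 1 + 1) → ℕ) =>
        u 1 + F w (Fin.cons (u 0) (fun i => u i.succ.succ))) w v j =
      ∑ a ∈ range j, F w (Fin.cons a v) := by
    intro w v j
    induction j with
    | zero => rfl
    | succ j ih =>
      rw [recF, ih, Finset.sum_range_succ]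
      simp [Fin.cons_one]
  have h := LS.prec (F := fun (w : List α) (u : Fin (n + 1 + 1) → ℕ) =>
        u 1 + F w (Fin.cons (u 0) (fun i => u i.succ.succ)))
    (LS.const 0) ((LS.var 1).add hF.skip1) hf (by
      obtain ⟨C, hC⟩ := hF.pb
      obtain ⟨D, hD⟩ := hf.pb
      refine ⟨fun w v => ∑ a ∈ range (f w v), F w (Fin.cons a v), ?_, ?_⟩
      · refine ⟨(D + 1 + 1) * C + D, fun w v b hb => ?_⟩
        have h1 := hD w v b hb
        have hx : 1 ≤ w.length + b + 2 := by omega
        have h2 : ∀ a ∈ range (f w v), F w (Fin.cons a v) ≤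
            (w.length + b + 2) ^ ((D + 1 + 1) * C) := by
          intro a ha
          have ha' := Finset.mem_range.mp ha
          have hbd : ∀ i, (Fin.cons a v : Fin (n + 1) → ℕ) i ≤ (w.length + b + 2) ^ (D + 1) := by
            intro i
            refine Fin.cases ?_ (fun j => ?_) i
            · simp only [Fin.cons_zero]
              exact (ha'.le.trans h1).trans (Nat.pow_le_pow_right hx (by omega))
            · simp only [Fin.cons_succ]
              refine (hb j).trans ?_
              calc b ≤ (w.length + b + 2) ^ 1 := by rw [pow_one]; omega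
                _ ≤ _ := Nat.pow_le_pow_right hx (by omega)
          refine (hC w _ _ hbd).trans ?_
          rw [pow_mul]
          apply Nat.pow_le_pow_left
          have h3 : 1 ≤ (w.length + b + 2) ^ D := Nat.one_le_pow _ _ (by omega)
          have e1 : (w.length + b + 2) ^ (D + 1) = (w.length + b + 2) ^ D * (w.length + b + 2) :=
            pow_succ _ _
          have e2 : (w.length + b + 2) ^ (D + 1 + 1) =
            (w.length + b + 2) ^ (D + 1) * (w.length + b + 2) := pow_succ _ _
          have h4 : w.length + b + 2 ≤ (w.length + b + 2) ^ (D + 1) := by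
            rw [e1]; exact Nat.le_mul_of_pos_left _ h3
          rw [e2]
          calc w.length + (w.length + b + 2) ^ (D + 1) + 2
              ≤ (w.length + b + 2) ^ (D + 1) + (w.length + b + 2) ^ (D + 1) := by omega
            _ = (w.length + b + 2) ^ (D + 1) * 2 := by ring
            _ ≤ _ := Nat.mul_le_mul_left _ (by omega)
        calc ∑ a ∈ range (f w v), F w (Fin.cons a v)
            ≤ ∑ a ∈ range (f w v), (w.length + b + 2) ^ ((D + 1 + 1) * C) :=
              Finset.sum_le_sum h2
          _ = f w v * (w.length + b + 2) ^ ((D + 1 + 1) * C) := by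
              rw [Finset.sum_const, Finset.card_range, smul_eq_mul]
          _ ≤ (w.length + b + 2) ^ D * (w.length + b + 2) ^ ((D + 1 + 1) * C) :=
              Nat.mul_le_mul_right _ h1
          _ = _ := by rw [← pow_add, Nat.add_comm D]
      · intro w v j hj
        rw [key]
        exact Finset.sum_le_sum_of_subset (Finset.range_mono hj))
  exact h.congr (fun w v => key w v _)

theorem LS.prodMod {F : List α → (Fin (n + 1) → ℕ) → ℕ} (hF : LS F) (hf : LS f) (hq : LS q)
    (hq0 : ∀ w v, 0 < q w v) :
    LS (fun w v => (∏ a ∈ range (f w v), F w (Fin.cons a v)) % q w v) := by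
  have key : ∀ w v j, recF (fun w v => 1 % q w v)
      (fun (w : List α) (u : Fin (n + 1 + 1) → ℕ) =>
        u 1 * F w (Fin.cons (u 0) (fun i => u i.succ.succ)) % q w (fun i => u i.succ.succ))
        w v j = (∏ a ∈ range j, F w (Fin.cons a v)) % q w v := by
    intro w v j
    induction j with
    | zero => rfl
    | succ j ih =>
      rw [recF, ih, Finset.prod_range_succ]
      simp only [Fin.cons_one, Fin.cons_succ, Fin.cons_zero]
      rw [Nat.mod_mul_mod]
  have h := LS.prec (F := fun (w : List α) (u : Fin (n + 1 + 1) → ℕ) =>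
        u 1 * F w (Fin.cons (u 0) (fun i => u i.succ.succ)) % q w (fun i => u i.succ.succ))
    ((LS.const 1).mod hq) (((LS.var 1).mul hF.skip1).mod hq.tail2) hf
    ⟨q, hq.pb, by
      intro w v j hj
      rw [key]
      exact (Nat.mod_lt _ (hq0 w v)).le⟩
  exact h.congr (fun w v => key w v _)

theorem LS.powMod (hf : LS f) (hg : LS g) (hq : LS q) (hq0 : ∀ w v, 0 < q w v) :
    LS (fun w v => (f w v ^ g w v) % q w v) := by
  have h := LS.prodMod (F := fun w (u : Fin (n + 1) → ℕ) => f w (fun i => u i.succ)) hf.tail hg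
    hq hq0
  refine h.congr (fun w v => ?_)
  simp

theorem LS.powClamp (hf : LS f) (hg : LS g) (hh : LS h) :
    LS (fun w v => Min.min (f w v ^ g w v) (h w v)) := by
  have key : ∀ w v j, recF (fun w v => Min.min 1 (h w v))
      (fun (w : List α) (u : Fin (n + 1 + 1) → ℕ) =>
        Min.min (u 1 * f w (fun i => u i.succ.succ)) (h w (fun i => u i.succ.succ)))
        w v j = Min.min (f w v ^ j) (h w v) := by
    intro w v j
    induction j with
    | zero => simp [recF]
    | succ j ih =>
      rw [recF, ih]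
      simp only [Fin.cons_one, Fin.cons_succ, Fin.cons_zero]
      rcases le_total (f w v ^ j) (h w v) with h1 | h1
      · rw [min_eq_left h1, pow_succ]
      · rw [min_eq_right h1]
        rcases Nat.eq_zero_or_pos (f w v) with h2 | h2
        · rw [h2]; simp
        · rw [min_eq_right (Nat.le_mul_of_pos_right _ h2), min_eq_right]
          rw [pow_succ]
          exact h1.trans (Nat.le_mul_of_pos_right _ h2)
  have hh' := LS.prec (F := fun (w : List α) (u : Fin (n + 1 + 1) → ℕ) =>
        Min.min (u 1 * f w (fun i => u i.succ.succ)) (h w (fun i => u i.succ.succ)))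
    ((LS.const 1).min hh) (((LS.var 1).mul hf.tail2).min hh.tail2) hg
    ⟨h, hh.pb, by
      intro w v j hj
      rw [key]
      exact min_le_right _ _⟩
  exact hh'.congr (fun w v => key w v _)

theorem LS.divPow (hf : LS f) (hg : LS g) (hh : LS h) :
    LS (fun w v => f w v / g w v ^ h w v) := by
  have key : ∀ w v j, recF f
      (fun (w : List α) (u : Fin (n + 1 + 1) → ℕ) => u 1 / g w (fun i => u i.succ.succ))
        w v j = f w v / g w v ^ j := by
    intro w v j
    induction j with
    | zero => simp [recF]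
    | succ j ih =>
      rw [recF, ih]
      simp only [Fin.cons_one, Fin.cons_succ, Fin.cons_zero]
      rw [Nat.div_div_eq_div_mul, pow_succ]
  have hh' := LS.prec (F := fun (w : List α) (u : Fin (n + 1 + 1) → ℕ) =>
        u 1 / g w (fun i => u i.succ.succ)) hf ((LS.var 1).div hg.tail2) hh
    ⟨f, hf.pb, by
      intro w v j hj
      rw [key]
      exact Nat.div_le_self _ _⟩
  exact hh'.congr (fun w v => key w v _)

/-! ### Quantifiers and search -/

theorem LSP.subst {F : List α → (Fin (n + 1) → ℕ) → Prop} (hF : LSP F) (hf : LS f) :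
    LSP (fun w v => F w (Fin.cons (f w v) v)) := by
  obtain ⟨χ, hχ, h⟩ := hF
  exact ⟨_, hχ.subst hf, fun w v => h w _⟩

theorem LSP.ball {F : List α → (Fin (n + 1) → ℕ) → Prop} (hF : LSP F) (hf : LS f) :
    LSP (fun w v => ∀ a < f w v, F w (Fin.cons a v)) := by
  obtain ⟨χ, hχ, h⟩ := hF
  have h1 : LS (fun (w : List α) (u : Fin (n + 1) → ℕ) => 1 - χ w u) := (LS.const 1).sub hχ
  refine (LSP.eq (LS.sum h1 hf) (LS.const 0)).congr (fun w v => ?_)
  rw [Finset.sum_eq_zero_iff]
  constructor
  · intro h2 a ha
    by_contra h3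
    have := h2 a (Finset.mem_range.mpr ha)
    rw [(h w _).2 h3] at this
    omega
  · intro h2 a ha
    have := (h w _).1 (h2 a (Finset.mem_range.mp ha))
    omega

/-- Least `a < N` with the property, `N` if there is none. -/
theorem LS.mu {F : List α → (Fin (n + 1) → ℕ) → Prop} [∀ w v, Decidable (F w v)] (hF : LSP F)
    (hf : LS f) :
    LS (fun w v => sInf ({a | a < f w v ∧ F w (Fin.cons a v)} ∪ {f w v})) := by
  -- predicate: no `a' ≤ a` has the property
  have hP : LSP (fun w (u : Fin (n + 1) → ℕ) =>
      ∀ a' < u 0 + 1, ¬ F w (Fin.cons a' (fun i => u i.succ))) := by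
    have hF' : LSP (fun w (x : Fin (n + 1 + 1) → ℕ) =>
        ¬ F w (Fin.cons (x 0) (fun i => x i.succ.succ))) := by
      obtain ⟨χ, hχ, h⟩ := hF.not
      exact ⟨_, hχ.skip1, fun w v => h w _⟩
    have := LSP.ball hF' (LS.var (0 : Fin (n + 1))).succ
    exact this.congr (fun w v => by simp)
  obtain ⟨χ, hχ, hχ'⟩ := hP
  refine (LS.sum hχ hf).congr (fun w v => ?_)
  set S : Set ℕ := {a | a < f w v ∧ F w (Fin.cons a v)} ∪ {f w v} with hS
  have hne : S.Nonempty := ⟨f w v, Or.inr rfl⟩
  have hle : sInf S ≤ f w v := Nat.sInf_le (Or.inr rfl)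
  have e : ∀ a ∈ range (f w v), χ w (Fin.cons a v) = if a < sInf S then 1 else 0 := by
    intro a ha
    have ha' := Finset.mem_range.mp ha
    split_ifs with h1
    · apply (hχ' w _).1
      intro a' ha'' hF'
      simp only [Fin.cons_zero, Fin.cons_succ] at ha'' hF'
      have : sInf S ≤ a' := Nat.sInf_le (Or.inl ⟨by omega, hF'⟩)
      omega
    · apply (hχ' w _).2
      intro hcon
      have hmem := Nat.sInf_mem hne
      rcases hmem with hm | hm
      · exact hcon (sInf S) (by simp only [Fin.cons_zero]; omega)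
          (by simpa only [Fin.cons_succ] using hm.2)
      · have : sInf S = f w v := hm
        omega
  rw [Finset.sum_congr rfl e, Finset.sum_ite, Finset.sum_const_zero, add_zero,
    Finset.sum_const, smul_eq_mul, mul_one]
  have : (range (f w v)).filter (fun a => a < sInf S) = range (sInf S) := by
    ext a
    simp only [Finset.mem_filter, Finset.mem_range]
    omega
  rw [this, Finset.card_range]

/-- Binary logarithm. -/
theorem LS.log2 (hf : LS f) : LS (fun w v => Nat.log 2 (f w v)) := by
  have hP : LSP (fun (w : List α) (u : Fin (n + 1) → ℕ) =>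
      Min.min (2 ^ (u 0 + 1)) (f w (fun i => u i.succ) + 1) ≤ f w (fun i => u i.succ)) :=
    LSP.le (LS.powClamp (LS.const 2) (LS.var 0).succ hf.tail.succ) hf.tail
  obtain ⟨χ, hχ, h⟩ := hP
  refine (LS.sum hχ hf).congr (fun w v => ?_)
  have e : ∀ a ∈ range (f w v), χ w (Fin.cons a v) =
      if a < Nat.log 2 (f w v) then 1 else 0 := by
    intro a ha
    have ha' := Finset.mem_range.mp ha
    have hiff := (Nat.le_log_iff_pow_le (b := 2) (x := a + 1) (y := f w v) (by norm_num)
      (by omega)).symm
    split_ifs with h1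
    · apply (h w _).1
      simp only [Fin.cons_zero, Fin.cons_succ]
      have := hiff.mpr h1
      exact (min_le_left _ _).trans this
    · apply (h w _).2
      simp only [Fin.cons_zero, Fin.cons_succ]
      have h2 : ¬ 2 ^ (a + 1) ≤ f w v := fun h3 => h1 (hiff.mp h3)
      push Not at h2
      rw [not_le, lt_min_iff]
      exact ⟨h2, Nat.lt_succ_self _⟩
  rw [Finset.sum_congr rfl e, Finset.sum_ite, Finset.sum_const_zero, add_zero,
    Finset.sum_const, smul_eq_mul, mul_one]
  have hlog := Nat.log_le_self 2 (f w v)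
  have : (range (f w v)).filter (fun a => a < Nat.log 2 (f w v)) =
      range (Nat.log 2 (f w v)) := by
    ext a
    simp only [Finset.mem_filter, Finset.mem_range]
    omega
  rw [this, Finset.card_range]

theorem LSP.dvd (hf : LS f) (hg : LS g) : LSP (fun w v => f w v ∣ g w v) :=
  (LSP.eq (hg.mod hf) (LS.const 0)).congr (fun w v => (Nat.dvd_iff_mod_eq_zero).symm)

theorem LSP.prime (hf : LS f) : LSP (fun w v => (f w v).Prime) := by
  have h1 : LSP (fun (w : List α) (u : Fin (n + 1) → ℕ) =>
      ¬ (u 0 ∣ f w (fun i => u i.succ)) ∨ u 0 = 1) :=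
    (LSP.dvd (LS.var 0) hf.tail).not.or (LSP.eq (LS.var 0) (LS.const 1))
  have h2 := (LSP.le (LS.const 2) hf).and (LSP.ball h1 hf)
  refine h2.congr (fun w v => ?_)
  rw [Nat.prime_def_lt]
  simp only [Fin.cons_zero, Fin.cons_succ]
  constructor
  · rintro ⟨h3, h4⟩
    exact ⟨h3, fun m hm hd => (h4 m hm).resolve_left (fun h => h hd)⟩
  · rintro ⟨h3, h4⟩
    refine ⟨h3, fun m hm => ?_⟩
    by_cases hd : m ∣ f w v
    · exact Or.inr (h4 m hm hd)
    · exact Or.inl hd

theorem leastPrime_eq (x : ℕ) :
    leastPrime x = x + sInf ({a | a < x + 2 ∧ (x + a).Prime} ∪ {x + 2}) := by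
  have hne : {p | x ≤ p ∧ p.Prime}.Nonempty := by
    obtain ⟨p, h1, h2⟩ := Nat.exists_infinite_primes x
    exact ⟨p, h1, h2⟩
  set S : Set ℕ := {a | a < x + 2 ∧ (x + a).Prime} ∪ {x + 2} with hS
  have hmem := Nat.sInf_mem (s := S) ⟨x + 2, Or.inr rfl⟩
  have hmem2 := Nat.sInf_mem hne
  have hle : leastPrime x ≤ x + sInf S := by
    rcases hmem with h | h
    · exact Nat.sInf_le ⟨by omega, h.2⟩
    · have h' : sInf S = x + 2 := h
      rw [h']
      rcases Nat.eq_zero_or_pos x with h0 | h0
      · subst h0
        exact Nat.sInf_le ⟨by omega, Nat.prime_two⟩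
      · obtain ⟨p, hp, h1, h2⟩ := Nat.exists_prime_lt_and_le_two_mul x (by omega)
        have : leastPrime x ≤ p := Nat.sInf_le ⟨h1.le, hp⟩
        omega
  have hge : x + sInf S ≤ leastPrime x := by
    obtain ⟨h1, h2⟩ : x ≤ leastPrime x ∧ (leastPrime x).Prime := hmem2
    obtain ⟨a, ha⟩ := Nat.exists_eq_add_of_le h1
    by_cases hlt : a < x + 2
    · have : sInf S ≤ a := Nat.sInf_le (Or.inl ⟨hlt, by rw [← ha]; exact h2⟩)
      omega
    · have : sInf S ≤ x + 2 := Nat.sInf_le (Or.inr rfl)
      omega
  exact le_antisymm hle hge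

theorem LS.leastPrime (hf : LS f) : LS (fun w v => leastPrime (f w v)) := by
  classical
  have h1 : LSP (fun (w : List α) (u : Fin (n + 1) → ℕ) =>
      (f w (fun i => u i.succ) + u 0).Prime) := LSP.prime (hf.tail.add (LS.var 0))
  have h2 := LS.mu h1 (hf.add (LS.const 2))
  refine (hf.add h2).congr (fun w v => ?_)
  rw [leastPrime_eq]
  simp

/-! ### Tables -/

theorem LS.finsum (N : ℕ) (F : ℕ → List α → (Fin n → ℕ) → ℕ) (hF : ∀ k < N, LS (F k)) :
    LS (fun w v => ∑ k ∈ range N, F k w v) := by
  induction N with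
  | zero => exact (LS.const 0).congr (fun w v => by simp)
  | succ N ih =>
    exact ((ih (fun k hk => hF k (by omega))).add (hF N (by omega))).congr
      (fun w v => by rw [Finset.sum_range_succ])

theorem LS.table1 (T : ℕ → ℕ) (N : ℕ) (hT : ∀ x, N ≤ x → T x = 0) (hf : LS f) :
    LS (fun w v => T (f w v)) := by
  refine (LS.finsum N (fun k w v => if f w v = k then T k else 0)
    (fun k _ => LS.ite (LSP.eq hf (LS.const k)) (LS.const (T k)) (LS.const 0))).congr
    (fun _ _ => ?_)
  rw [Finset.sum_ite_eq]
  split_ifs with h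
  · rfl
  · rw [hT _ (by simpa using h)]

theorem LS.table2 (T : ℕ → ℕ → ℕ) (N : ℕ) (hT : ∀ x y, N ≤ x ∨ N ≤ y → T x y = 0) (hf : LS f)
    (hg : LS g) : LS (fun w v => T (f w v) (g w v)) := by
  refine (LS.finsum N (fun k w v => if f w v = k then T k (g w v) else 0)
    (fun k _ => LS.ite (LSP.eq hf (LS.const k))
      (LS.table1 (T k) N (fun x hx => hT k x (Or.inr hx)) hg) (LS.const 0))).congr
    (fun w v => ?_)
  rw [Finset.sum_ite_eq]
  split_ifs with h
  · rfl
  · rw [hT _ _ (Or.inl (by simpa using h))]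

/-! ### Clamped iteration -/

/-- Clamped simultaneous iteration: no growth condition, every component is clamped by `h`. -/
theorem LS.iterClamp {m : ℕ} {init : Fin m → List α → (Fin n → ℕ) → ℕ}
    {step : Fin m → List α → (Fin (m + n) → ℕ) → ℕ} {cnt : List α → (Fin n → ℕ) → ℕ}
    (hinit : ∀ i, LS (init i)) (hstep : ∀ i, LS (step i)) (hcnt : LS cnt) (hh : LS h)
    (out : Fin m) :
    LS (fun w v => (fun st i => Min.min (step i w (Fin.append st v)) (h w v))^[cnt w v]
      (fun i => Min.min (init i w v) (h w v)) out) := by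
  have key : ∀ w v j, iterVec (fun i w v => Min.min (init i w v) (h w v))
      (fun i w (u : Fin (m + n) → ℕ) => Min.min (step i w u)
        (h w (fun i => u (Fin.natAdd m i)))) w v j =
      (fun st i => Min.min (step i w (Fin.append st v)) (h w v))^[j]
        (fun i => Min.min (init i w v) (h w v)) := by
    intro w v j
    unfold iterVec
    simp only [Fin.append_right]
  have hle : ∀ w v j i, iterVec (fun i w v => Min.min (init i w v) (h w v))
      (fun i w (u : Fin (m + n) → ℕ) => Min.min (step i w u)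
        (h w (fun i => u (Fin.natAdd m i)))) w v j i ≤ h w v := by
    intro w v j i
    rw [key]
    cases j with
    | zero => exact min_le_right _ _
    | succ j =>
      rw [Function.iterate_succ_apply']
      exact min_le_right _ _
  have := LS.iterate (init := fun i w v => Min.min (init i w v) (h w v))
    (step := fun i w (u : Fin (m + n) → ℕ) => Min.min (step i w u)
        (h w (fun i => u (Fin.natAdd m i)))) (cnt := cnt)
    (fun i => (hinit i).min hh) (fun i => (hstep i).min (hh.lift m)) hcnt (by
      obtain ⟨C, hC⟩ := hh.pb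
      exact ⟨C, fun w v b hb j _ i => (hle w v j i).trans (hC w v b hb)⟩) out
  refine this.congr (fun w v => ?_)
  rw [key]

end

end Vale.Agent.P312
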