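import Vale.Agent.P312.Cmd

/-!
# P312: compilation of counter commands to multitape machines (package A)

Tape `r` holds counter `r`: a mark in cell `0`, the binary digits (least significant digit first,
no superfluous top digits) in the cells `1, 2, …`, all other cells blank.
-/

namespace Vale.Agent.P312

namespace Compile

/-- Work symbols. -/
inductive Sy where
  | blank
  | mark
  | zero
  | one

instance : Finite Sy := by
  refine Finite.of_injective (β := Fin 4)
    (fun s => match s with | .blank => 0 | .mark => 1 | .zero => 2 | .one => 3) ?_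
  intro a b h
  cases a <;> cases b <;> simp_all

/-- The digit symbol belonging to the number `m = n / 2 ^ i`. -/
def dg (m : ℕ) : Sy :=
  if m = 0 then .blank else if m % 2 = 1 then .one else .zero

theorem dg_ne_mark (m : ℕ) : dg m ≠ .mark := by
  unfold dg; split_ifs <;> simp

theorem dg_zero : dg 0 = .blank := rfl

theorem dg_odd {m : ℕ} (h : m % 2 = 1) : dg m = .one := by
  unfold dg; rw [if_neg (by omega), if_pos h]

theorem dg_even {m : ℕ} (h : m % 2 = 0) (h0 : m ≠ 0) : dg m = .zero := by
  unfold dg; rw [if_neg h0, if_neg (by omega)]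

/-- The tape contents representing the number `n`. -/
def enc (n : ℕ) (x : ℤ) : Sy :=
  if x = 0 then .mark else if 0 < x then dg (n / 2 ^ (x - 1).toNat) else .blank

theorem enc_zero (n : ℕ) : enc n 0 = .mark := rfl

theorem enc_pos (n i : ℕ) : enc n (1 + (i : ℤ)) = dg (n / 2 ^ i) := by
  unfold enc
  rw [if_neg (by omega), if_pos (by omega)]
  congr 3
  omega

theorem enc_neg (n : ℕ) {x : ℤ} (hx : x < 0) : enc n x = .blank := by
  unfold enc
  rw [if_neg (by omega), if_neg (by omega)]

theorem enc_one (n : ℕ) : enc n 1 = dg n := by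
  have := enc_pos n 0
  simpa using this

/-! ## One-tape routines -/

/-- A routine working on one tape. -/
structure Mic where
  Q : Type
  fin : Finite Q
  entry : Q
  tr : Q → Sy → Option Q × Sy × Move

/-- `m.Exits N q p T p' T'`: started in state `q` at position `p` on the tape `T` the routine exits
at position `p'` with tape `T'`, all scanned positions being in `[0, N]`. -/
inductive Mic.Exits (m : Mic) (N : ℤ) : m.Q → ℤ → (ℤ → Sy) → ℤ → (ℤ → Sy) → Prop where
  | done {q p T} (h0 : 0 ≤ p) (hN : p ≤ N) (h : (m.tr q (T p)).1 = none) :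
      Mic.Exits m N q p T (p + (m.tr q (T p)).2.2.toInt)
        (Function.update T p (m.tr q (T p)).2.1)
  | step {q q' p T p' T'} (h0 : 0 ≤ p) (hN : p ≤ N) (h : (m.tr q (T p)).1 = some q')
      (h' : Mic.Exits m N q' (p + (m.tr q (T p)).2.2.toInt)
        (Function.update T p (m.tr q (T p)).2.1) p' T') : Mic.Exits m N q p T p' T'

theorem Mic.Exits.done' {m : Mic} {N : ℤ} {q : m.Q} {p : ℤ} {T : ℤ → Sy} (s s' : Sy) (mv : Move)
    {p' : ℤ} {T' : ℤ → Sy} (h0 : 0 ≤ p) (hN : p ≤ N) (hs : T p = s)
    (h : m.tr q s = (none, s', mv)) (hp : p' = p + mv.toInt) (hT : T' = Function.update T p s') :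
    m.Exits N q p T p' T' := by
  have := Mic.Exits.done (m := m) (N := N) (q := q) (p := p) (T := T) h0 hN (by rw [hs, h])
  rw [hs, h] at this
  rw [hp, hT]
  exact this

theorem Mic.Exits.step' {m : Mic} {N : ℤ} {q : m.Q} {p : ℤ} {T : ℤ → Sy} (s s' : Sy) (mv : Move)
    (q' : m.Q)
    {p' : ℤ} {T' : ℤ → Sy} (h0 : 0 ≤ p) (hN : p ≤ N) (hs : T p = s)
    (h : m.tr q s = (some q', s', mv))
    (h' : m.Exits N q' (p + mv.toInt) (Function.update T p s') p' T') :
    m.Exits N q p T p' T' := by
  refine Mic.Exits.step (q' := q') h0 hN (by rw [hs, h]) ?_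
  rw [hs, h]
  exact h'

/-! ### Increment -/

/-- Control states of the increment routine. -/
inductive IncQ where
  | i0
  | i1
  | i2

instance : Finite IncQ := by
  refine Finite.of_injective (β := Fin 3) (fun s => match s with | .i0 => 0 | .i1 => 1 | .i2 => 2) ?_
  intro a b h
  cases a <;> cases b <;> simp_all

/-- The increment routine. -/
def incMic : Mic where
  Q := IncQ
  fin := inferInstance
  entry := .i0
  tr := fun q s =>
    match q, s with
    | .i0, s => (some .i1, s, .right)
    | .i1, .one => (some .i1, .zero, .right)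
    | .i1, _ => (some .i2, .one, .left)
    | .i2, .mark => (none, .mark, .stay)
    | .i2, s => (some .i2, s, .left)

/-- The carry phase. -/
theorem inc_tail (N : ℤ) : ∀ (t m : ℕ) (p : ℤ) (T : ℤ → Sy), 0 ≤ p → m + 1 < 2 ^ t →
    p + t ≤ N + 1 → (∀ i : ℕ, T (p + i) = dg (m / 2 ^ i)) →
    ∃ (T' : ℤ → Sy) (e : ℤ), p - 1 ≤ e ∧ e ≤ N ∧
      (∀ i : ℕ, T' (p + i) = dg ((m + 1) / 2 ^ i)) ∧ (∀ x < p, T' x = T x) ∧
      ∀ p'' T'', incMic.Exits N IncQ.i2 e T' p'' T'' → incMic.Exits N IncQ.i1 p T p'' T'' := by
  intro t
  induction t with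
  | zero => intro m p T _ h; simp at h
  | succ t ih =>
    intro m p T hp hm hN hT
    have hTp : T p = dg m := by simpa using hT 0
    rcases Nat.mod_two_eq_zero_or_one m with h2 | h2
    · refine ⟨Function.update T p .one, p - 1, le_refl _, by push_cast at hN; omega, ?_, ?_, ?_⟩
      · intro i
        rcases i with _ | i
        · simp only [Nat.cast_zero, add_zero, Function.update_self, pow_zero, Nat.div_one]
          rw [dg_odd (by omega)]
        · rw [Function.update_of_ne (by omega), hT (i + 1), pow_succ', ← Nat.div_div_eq_div_mul,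
            ← Nat.div_div_eq_div_mul]
          congr 2
          omega
      · intro x hx
        rw [Function.update_of_ne (by omega)]
      · intro p'' T'' hE
        rcases Nat.eq_zero_or_pos m with h0 | h0
        · exact Mic.Exits.step' .blank .one .left IncQ.i2 hp (by push_cast at hN; omega)
            (by rw [hTp, h0, dg_zero]) rfl hE
        · exact Mic.Exits.step' .zero .one .left IncQ.i2 hp (by push_cast at hN; omega)
            (by rw [hTp, dg_even h2 (by omega)]) rfl hE
    · have hm' : m / 2 + 1 < 2 ^ t := by rw [pow_succ] at hm; omega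
      obtain ⟨T', e, he1, he2, hT', hT'', hE⟩ := ih (m / 2) (p + 1) (Function.update T p .zero)
        (by omega) hm' (by push_cast at hN ⊢; omega) (by
          intro i
          rw [Function.update_of_ne (by omega)]
          have := hT (i + 1)
          push_cast at this
          rw [show p + 1 + (i : ℤ) = p + (i + 1) by ring, this, pow_succ',
            ← Nat.div_div_eq_div_mul])
      refine ⟨T', e, by omega, he2, ?_, ?_, ?_⟩
      · intro i
        rcases i with _ | i
        · simp only [Nat.cast_zero, add_zero, pow_zero, Nat.div_one]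
          rw [hT'' p (by omega), Function.update_self, dg_even (by omega) (by omega)]
        · have := hT' i
          push_cast
          rw [show p + ((i : ℤ) + 1) = p + 1 + i by ring, this, pow_succ',
            ← Nat.div_div_eq_div_mul]
          congr 2
          omega
      · intro x hx
        rw [hT'' x (by omega), Function.update_of_ne (by omega)]
      · intro p'' T'' hE'
        exact Mic.Exits.step' .one .zero .right IncQ.i1 hp (by push_cast at hN; omega)
          (by rw [hTp, dg_odd h2]) rfl (hE p'' T'' hE')

/-- The return phase. -/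
theorem inc_return (N : ℤ) (T : ℤ → Sy) (h0 : T 0 = .mark) :
    ∀ e : ℕ, (e : ℤ) ≤ N → (∀ i : ℕ, 1 ≤ i → i ≤ e → T i ≠ .mark) →
      incMic.Exits N IncQ.i2 e T 0 T := by
  intro e
  induction e with
  | zero =>
    intro hN _
    exact Mic.Exits.done' .mark .mark .stay (by simp) hN (by simpa using h0) rfl (by simp [Move.toInt])
      (by rw [Nat.cast_zero, ← h0, Function.update_eq_self])
  | succ e ih =>
    intro hN hT
    have hne := hT (e + 1) (by omega) (le_refl _)
    refine Mic.Exits.step' (T ((e + 1 : ℕ) : ℤ)) (T ((e + 1 : ℕ) : ℤ)) .left IncQ.i2 (by omega) hN rfl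
      ?_ ?_
    · revert hne
      generalize T ((e + 1 : ℕ) : ℤ) = s
      intro hne
      cases s <;> first | rfl | exact absurd rfl hne
    · rw [Function.update_eq_self]
      have := ih (by push_cast at hN; omega) (fun i h1 h2 => hT i h1 (by omega))
      have he : (((e + 1 : ℕ) : ℤ) + Move.left.toInt) = e := by simp [Move.toInt]
      rw [he]
      exact this

theorem enc_eq_of (n : ℕ) (T : ℤ → Sy) (h1 : ∀ i : ℕ, T (1 + i) = dg (n / 2 ^ i))
    (h2 : ∀ x < 1, T x = enc n x) : T = enc n := by
  funext x
  rcases lt_or_ge x 1 with h | h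
  · exact h2 x h
  · obtain ⟨i, hi⟩ : ∃ i : ℕ, x = 1 + i := ⟨(x - 1).toNat, by omega⟩
    rw [hi, h1, enc_pos]

theorem enc_lt_one (n n' : ℕ) {x : ℤ} (hx : x < 1) : enc n x = enc n' x := by
  rcases lt_or_eq_of_le (Int.lt_add_one_iff.mp (by omega : x < 0 + 1)) with h | h
  · rw [enc_neg n h, enc_neg n' h]
  · rw [h, enc_zero, enc_zero]

theorem enc_ne_mark (n : ℕ) (i : ℕ) (hi : 1 ≤ i) : enc n i ≠ .mark := by
  obtain ⟨j, rfl⟩ : ∃ j, i = 1 + j := ⟨i - 1, by omega⟩
  push_cast
  rw [enc_pos]
  exact dg_ne_mark _

theorem inc_exits (N : ℤ) (n t : ℕ) (hn : n + 1 < 2 ^ t) (hN : (t : ℤ) ≤ N) :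
    incMic.Exits N incMic.entry 0 (enc n) 0 (enc (n + 1)) := by
  obtain ⟨T', e, he1, he2, hT', hT'', hE⟩ := inc_tail N t n 1 (enc n) (by omega) hn (by omega)
    (fun i => enc_pos n i)
  have hTT : T' = enc (n + 1) := enc_eq_of _ _ hT' (fun x hx => by
    rw [hT'' x hx]; exact enc_lt_one _ _ hx)
  have h := Mic.Exits.step' (m := incMic) (N := N) (q := IncQ.i0) (p := 0) (T := enc n)
    .mark .mark .right IncQ.i1 (le_refl _) (by omega) (enc_zero n) rfl
    (p' := 0) (T' := enc (n + 1)) (by
      have h1 : (0 : ℤ) + Move.right.toInt = 1 := rfl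
      have h2 : Function.update (enc n) 0 Sy.mark = enc n := by
        rw [← enc_zero n, Function.update_eq_self]
      rw [h1, h2]
      apply hE
      rw [hTT]
      obtain ⟨e', rfl⟩ : ∃ e' : ℕ, e = e' := ⟨e.toNat, by omega⟩
      exact inc_return N _ (enc_zero _) e' he2 (fun i hi _ => enc_ne_mark _ i hi))
  exact h

/-! ### Decrement -/

/-- Control states of the decrement routine. -/
inductive DecQ where
  | d0
  | d1
  | d2
  | d3
  | d4

instance : Finite DecQ := by
  refine Finite.of_injective (β := Fin 5)
    (fun s => match s with | .d0 => 0 | .d1 => 1 | .d2 => 2 | .d3 => 3 | .d4 => 4) ?_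
  intro a b h
  cases a <;> cases b <;> simp_all

/-- The decrement routine. -/
def decMic : Mic where
  Q := DecQ
  fin := inferInstance
  entry := .d0
  tr := fun q s =>
    match q, s with
    | .d0, s => (some .d1, s, .right)
    | .d1, .blank => (some .d2, .blank, .left)
    | .d1, .one => (some .d3, .zero, .right)
    | .d1, _ => (some .d1, .one, .right)
    | .d2, .mark => (none, .mark, .stay)
    | .d2, s => (some .d2, s, .left)
    | .d3, .blank => (some .d4, .blank, .left)
    | .d3, s => (some .d2, s, .left)
    | .d4, _ => (some .d2, .blank, .left)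

/-- The borrow phase. -/
theorem dec_tail (N : ℤ) : ∀ (t m : ℕ) (p : ℤ) (T : ℤ → Sy), 0 ≤ p → m < 2 ^ t → m ≠ 0 →
    p + t ≤ N → (∀ i : ℕ, T (p + i) = dg (m / 2 ^ i)) →
    ∃ (T' : ℤ → Sy) (e : ℤ), p - 1 ≤ e ∧ e ≤ N ∧
      (∀ i : ℕ, T' (p + i) = dg ((m - 1) / 2 ^ i)) ∧ (∀ x < p, T' x = T x) ∧
      ∀ p'' T'', decMic.Exits N DecQ.d2 e T' p'' T'' → decMic.Exits N DecQ.d1 p T p'' T'' := by
  intro t
  induction t with
  | zero => intro m p T _ h h'; simp at h; omega
  | succ t ih =>
    intro m p T hp hm hm0 hN hT
    have hTp : T p = dg m := by simpa using hT 0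
    have hTp1 : T (p + 1) = dg (m / 2) := by simpa using hT 1
    push_cast at hN
    rcases Nat.mod_two_eq_zero_or_one m with h2 | h2
    · have hm' : m / 2 < 2 ^ t := by rw [pow_succ] at hm; omega
      obtain ⟨T', e, he1, he2, hT', hT'', hE⟩ := ih (m / 2) (p + 1) (Function.update T p .one)
        (by omega) hm' (by omega) (by omega) (by
          intro i
          rw [Function.update_of_ne (by omega)]
          have := hT (i + 1)
          push_cast at this
          rw [show p + 1 + (i : ℤ) = p + (i + 1) by ring, this, pow_succ',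
            ← Nat.div_div_eq_div_mul])
      refine ⟨T', e, by omega, he2, ?_, ?_, ?_⟩
      · intro i
        rcases i with _ | i
        · simp only [Nat.cast_zero, add_zero, pow_zero, Nat.div_one]
          rw [hT'' p (by omega), Function.update_self, dg_odd (by omega)]
        · have := hT' i
          push_cast
          rw [show p + ((i : ℤ) + 1) = p + 1 + i by ring, this, pow_succ',
            ← Nat.div_div_eq_div_mul]
          congr 2
          omega
      · intro x hx
        rw [hT'' x (by omega), Function.update_of_ne (by omega)]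
      · intro p'' T'' hE'
        exact Mic.Exits.step' .zero .one .right DecQ.d1 hp (by omega)
          (by rw [hTp, dg_even h2 hm0]) rfl (hE p'' T'' hE')
    · by_cases hm1 : m / 2 = 0
      · refine ⟨Function.update T p .blank, p - 1, le_refl _, by omega, ?_, ?_, ?_⟩
        · intro i
          rcases i with _ | i
          · simp only [Nat.cast_zero, add_zero, Function.update_self, pow_zero, Nat.div_one]
            rw [show m - 1 = 0 by omega, dg_zero]
          · rw [Function.update_of_ne (by omega), hT (i + 1), pow_succ',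
              ← Nat.div_div_eq_div_mul, ← Nat.div_div_eq_div_mul, hm1,
              show (m - 1) / 2 = 0 by omega]
        · intro x hx
          rw [Function.update_of_ne (by omega)]
        · intro p'' T'' hE
          refine Mic.Exits.step' .one .zero .right DecQ.d3 hp (by omega)
            (by rw [hTp, dg_odd h2]) rfl ?_
          refine Mic.Exits.step' .blank .blank .left DecQ.d4 (by simp [Move.toInt]; omega)
            (by simp [Move.toInt]; omega) ?_ rfl ?_
          · have : p + Move.right.toInt = p + 1 := rfl
            rw [this, Function.update_of_ne (by omega), hTp1, hm1, dg_zero]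
          · have h1 : p + Move.right.toInt = p + 1 := rfl
            have h2 : p + 1 + Move.left.toInt = p := by simp [Move.toInt]
            rw [h1, h2]
            have h3 : Function.update (Function.update T p Sy.zero) (p + 1) Sy.blank =
                Function.update T p Sy.zero := by
              have : (Function.update T p Sy.zero) (p + 1) = Sy.blank := by
                rw [Function.update_of_ne (by omega), hTp1, hm1, dg_zero]
              rw [← this, Function.update_eq_self]
            rw [h3]
            refine Mic.Exits.step' .zero .blank .left DecQ.d2 hp (by omega)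
              (by rw [Function.update_self]) rfl ?_
            rw [Function.update_idem]
            exact hE
      · refine ⟨Function.update T p .zero, p, by omega, by omega, ?_, ?_, ?_⟩
        · intro i
          rcases i with _ | i
          · simp only [Nat.cast_zero, add_zero, Function.update_self, pow_zero, Nat.div_one]
            rw [dg_even (by omega) (by omega)]
          · rw [Function.update_of_ne (by omega), hT (i + 1), pow_succ',
              ← Nat.div_div_eq_div_mul, ← Nat.div_div_eq_div_mul]
            congr 2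
            omega
        · intro x hx
          rw [Function.update_of_ne (by omega)]
        · intro p'' T'' hE
          refine Mic.Exits.step' .one .zero .right DecQ.d3 hp (by omega)
            (by rw [hTp, dg_odd h2]) rfl ?_
          have h1 : p + Move.right.toInt = p + 1 := rfl
          have h2 : p + 1 + Move.left.toInt = p := by simp [Move.toInt]
          rw [h1]
          have h3 : (Function.update T p Sy.zero) (p + 1) = dg (m / 2) := by
            rw [Function.update_of_ne (by omega), hTp1]
          refine Mic.Exits.step' (dg (m / 2)) (dg (m / 2)) .left DecQ.d2 (by omega)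
            (by omega) h3 ?_ ?_
          · rcases Nat.mod_two_eq_zero_or_one (m / 2) with h4 | h4
            · rw [dg_even h4 hm1]; rfl
            · rw [dg_odd h4]; rfl
          · rw [h2, ← h3, Function.update_eq_self]
            exact hE

/-- The return phase. -/
theorem dec_return (N : ℤ) (T : ℤ → Sy) (h0 : T 0 = .mark) :
    ∀ e : ℕ, (e : ℤ) ≤ N → (∀ i : ℕ, 1 ≤ i → i ≤ e → T i ≠ .mark) →
      decMic.Exits N DecQ.d2 e T 0 T := by
  intro e
  induction e with
  | zero =>
    intro hN _
    exact Mic.Exits.done' .mark .mark .stay (by simp) hN (by simpa using h0) rfl (by simp [Move.toInt])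
      (by rw [Nat.cast_zero, ← h0, Function.update_eq_self])
  | succ e ih =>
    intro hN hT
    have hne := hT (e + 1) (by omega) (le_refl _)
    refine Mic.Exits.step' (T ((e + 1 : ℕ) : ℤ)) (T ((e + 1 : ℕ) : ℤ)) .left DecQ.d2 (by omega) hN rfl
      ?_ ?_
    · revert hne
      generalize T ((e + 1 : ℕ) : ℤ) = s
      intro hne
      cases s <;> first | rfl | exact absurd rfl hne
    · rw [Function.update_eq_self]
      have := ih (by push_cast at hN; omega) (fun i h1 h2 => hT i h1 (by omega))
      have he : (((e + 1 : ℕ) : ℤ) + Move.left.toInt) = e := by simp [Move.toInt]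
      rw [he]
      exact this

theorem dec_exits (N : ℤ) (n t : ℕ) (hn : n < 2 ^ t) (hN : (t : ℤ) + 1 ≤ N) :
    decMic.Exits N decMic.entry 0 (enc n) 0 (enc (n - 1)) := by
  have h1 : (0 : ℤ) + Move.right.toInt = 1 := rfl
  have h2 : Function.update (enc n) 0 Sy.mark = enc n := by
    rw [← enc_zero n, Function.update_eq_self]
  refine Mic.Exits.step' (m := decMic) (N := N) (q := DecQ.d0) (p := 0) (T := enc n)
    .mark .mark .right DecQ.d1 (le_refl _) (by omega) (enc_zero n) rfl
    (p' := 0) (T' := enc (n - 1)) ?_
  rw [h1, h2]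
  by_cases hn0 : n = 0
  · subst hn0
    have h3 : enc 0 1 = Sy.blank := by rw [enc_one, dg_zero]
    refine Mic.Exits.step' .blank .blank .left DecQ.d2 (by omega) (by omega) h3 rfl ?_
    have h4 : (1 : ℤ) + Move.left.toInt = ((0 : ℕ) : ℤ) := rfl
    rw [h4, ← h3, Function.update_eq_self]
    exact dec_return N _ (enc_zero _) 0 (by omega) (fun i h1 h2 => by omega)
  · obtain ⟨T', e, he1, he2, hT', hT'', hE⟩ := dec_tail N t n 1 (enc n) (by omega) hn hn0
      (by omega) (fun i => enc_pos n i)
    have hTT : T' = enc (n - 1) := enc_eq_of _ _ hT' (fun x hx => by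
      rw [hT'' x hx]; exact enc_lt_one _ _ hx)
    apply hE
    rw [hTT]
    obtain ⟨e', rfl⟩ : ∃ e' : ℕ, e = e' := ⟨e.toNat, by omega⟩
    exact dec_return N _ (enc_zero _) e' he2 (fun i hi _ => enc_ne_mark _ i hi)

/-! ## Multitape components -/

/-- Tape configuration: input head, work heads, tapes. -/
structure TC (k : ℕ) where
  inp : ℕ
  pos : Fin k → ℤ
  tape : Fin k → ℤ → Sy

/-- The effect of an action. -/
def act {k : ℕ} (n : ℕ) (x : TC k) (r : Move × (Fin k → Sy × Move)) : TC k where
  inp := moveInput n x.inp r.1
  pos := fun i => x.pos i + (r.2 i).2.toInt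
  tape := fun i => Function.update (x.tape i) (x.pos i) (r.2 i).1

/-- A component: a program part with one entry and one exit. -/
structure Comp (α : Type) (k : ℕ) where
  Q : Type
  fin : Finite Q
  entry : Q
  tr : Q → InSym α → (Fin k → Sy) → Option Q × Move × (Fin k → Sy × Move)

variable {α : Type} {k : ℕ}

/-- The output of the transition function. -/
def Comp.out (c : Comp α k) (w : List α) (q : c.Q) (x : TC k) :
    Option c.Q × Move × (Fin k → Sy × Move) :=
  c.tr q (inputAt w x.inp) (fun i => x.tape i (x.pos i))

/-- The head positions are within `[0, N]`. -/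
def TC.Ok (N : ℤ) (x : TC k) : Prop := ∀ i, 0 ≤ x.pos i ∧ x.pos i ≤ N

/-- Started in state `q` with tape configuration `x`, the component exits with tape configuration
`y`; all head positions are in `[0, N]` until the last step. -/
inductive Comp.Exits (c : Comp α k) (w : List α) (N : ℤ) : c.Q → TC k → TC k → Prop where
  | done {q x} (hN : x.Ok N) (h : (c.out w q x).1 = none) :
      Comp.Exits c w N q x (act w.length x (c.out w q x).2)
  | step {q x q' y} (hN : x.Ok N) (h : (c.out w q x).1 = some q')
      (h' : Comp.Exits c w N q' (act w.length x (c.out w q x).2) y) : Comp.Exits c w N q x y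

theorem Comp.Exits.done' {c : Comp α k} {w : List α} {N : ℤ} {q : c.Q} {x y : TC k}
    (r : Move × (Fin k → Sy × Move)) (hN : x.Ok N) (h : c.out w q x = (none, r))
    (hy : y = act w.length x r) : c.Exits w N q x y := by
  have := Comp.Exits.done (c := c) (w := w) (N := N) (q := q) (x := x) hN (by rw [h])
  rw [h] at this
  rw [hy]
  exact this

theorem Comp.Exits.step' {c : Comp α k} {w : List α} {N : ℤ} {q : c.Q} {x y : TC k}
    (q' : c.Q) (r : Move × (Fin k → Sy × Move)) (hN : x.Ok N) (h : c.out w q x = (some q', r))
    (h' : c.Exits w N q' (act w.length x r) y) : c.Exits w N q x y := by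
  refine Comp.Exits.step (q' := q') hN (by rw [h]) ?_
  rw [h]
  exact h'

/-- The action which changes nothing. -/
def idle (s : Fin k → Sy) : Fin k → Sy × Move := fun i => (s i, .stay)

theorem act_idle (n : ℕ) (x : TC k) :
    act n x (.stay, idle fun i => x.tape i (x.pos i)) = x := by
  cases x
  simp [act, idle, moveInput, Move.toInt]

theorem act_idle_move (n : ℕ) (x : TC k) (m : Move) :
    act n x (m, idle fun i => x.tape i (x.pos i)) = ⟨moveInput n x.inp m, x.pos, x.tape⟩ := by
  cases x
  simp [act, idle, Move.toInt]

/-- Move the input head. -/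
def moveC (α : Type) (k : ℕ) (m : Move) : Comp α k where
  Q := Unit
  fin := inferInstance
  entry := ()
  tr := fun _ _ s => (none, m, idle s)

theorem moveC_exits (m : Move) (w : List α) (N : ℤ) (x : TC k) (hN : x.Ok N) :
    (moveC α k m).Exits w N (moveC α k m).entry x ⟨moveInput w.length x.inp m, x.pos, x.tape⟩ :=
  Comp.Exits.done' (m, idle fun i => x.tape i (x.pos i)) hN rfl (act_idle_move _ _ _).symm

/-- Sequential composition. -/
def seqC (a b : Comp α k) : Comp α k where
  Q := a.Q ⊕ b.Q
  fin := by have := a.fin; have := b.fin; infer_instance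
  entry := .inl a.entry
  tr := fun q i s =>
    match q with
    | .inl q => ((match (a.tr q i s).1 with
        | none => some (.inr b.entry)
        | some q' => some (.inl q')), (a.tr q i s).2)
    | .inr q => ((match (b.tr q i s).1 with
        | none => none
        | some q' => some (.inr q')), (b.tr q i s).2)

theorem seqC_right (a b : Comp α k) (w : List α) (N : ℤ) {q : b.Q} {x y : TC k}
    (h : b.Exits w N q x y) : (seqC a b).Exits w N (.inr q) x y := by
  induction h with
  | @done q x hN h =>
    refine Comp.Exits.done' (b.out w q x).2 hN ?_ rfl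
    simp only [Comp.out, seqC] at h ⊢
    rw [h]
  | @step q x q' y hN h _ ih =>
    refine Comp.Exits.step' (.inr q') (b.out w q x).2 hN ?_ ih
    simp only [Comp.out, seqC] at h ⊢
    rw [h]

theorem seqC_left (a b : Comp α k) (w : List α) (N : ℤ) {q : a.Q} {x y z : TC k}
    (h : a.Exits w N q x y) (h' : b.Exits w N b.entry y z) :
    (seqC a b).Exits w N (.inl q) x z := by
  induction h with
  | @done q x hN h =>
    refine Comp.Exits.step' (.inr b.entry) (a.out w q x).2 hN ?_ (seqC_right a b w N h')
    simp only [Comp.out, seqC] at h ⊢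
    rw [h]
  | @step q x q' y hN h _ ih =>
    refine Comp.Exits.step' (.inl q') (a.out w q x).2 hN ?_ (ih h')
    simp only [Comp.out, seqC] at h ⊢
    rw [h]

/-- Case distinction on the scanned input symbol. -/
def caseC (p : InSym α → Bool) (a b : Comp α k) : Comp α k where
  Q := Option (a.Q ⊕ b.Q)
  fin := by have := a.fin; have := b.fin; infer_instance
  entry := none
  tr := fun q i s =>
    match q with
    | none => (some (some (if p i then .inl a.entry else .inr b.entry)), .stay, idle s)
    | some (.inl q) => ((match (a.tr q i s).1 with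
        | none => none
        | some q' => some (some (.inl q'))), (a.tr q i s).2)
    | some (.inr q) => ((match (b.tr q i s).1 with
        | none => none
        | some q' => some (some (.inr q'))), (b.tr q i s).2)

theorem caseC_left (p : InSym α → Bool) (a b : Comp α k) (w : List α) (N : ℤ) {q : a.Q}
    {x y : TC k} (h : a.Exits w N q x y) : (caseC p a b).Exits w N (some (.inl q)) x y := by
  induction h with
  | @done q x hN h =>
    refine Comp.Exits.done' (a.out w q x).2 hN ?_ rfl
    simp only [Comp.out, caseC] at h ⊢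
    rw [h]
  | @step q x q' y hN h _ ih =>
    refine Comp.Exits.step' (some (.inl q')) (a.out w q x).2 hN ?_ ih
    simp only [Comp.out, caseC] at h ⊢
    rw [h]

theorem caseC_right (p : InSym α → Bool) (a b : Comp α k) (w : List α) (N : ℤ) {q : b.Q}
    {x y : TC k} (h : b.Exits w N q x y) : (caseC p a b).Exits w N (some (.inr q)) x y := by
  induction h with
  | @done q x hN h =>
    refine Comp.Exits.done' (b.out w q x).2 hN ?_ rfl
    simp only [Comp.out, caseC] at h ⊢
    rw [h]
  | @step q x q' y hN h _ ih =>
    refine Comp.Exits.step' (some (.inr q')) (b.out w q x).2 hN ?_ ih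
    simp only [Comp.out, caseC] at h ⊢
    rw [h]

theorem caseC_true (p : InSym α → Bool) (a b : Comp α k) (w : List α) (N : ℤ)
    {x y : TC k} (hN : x.Ok N) (hp : p (inputAt w x.inp) = true)
    (h : a.Exits w N a.entry x y) : (caseC p a b).Exits w N (caseC p a b).entry x y := by
  refine Comp.Exits.step' (some (.inl a.entry)) (.stay, idle fun i => x.tape i (x.pos i)) hN ?_ ?_
  · simp only [Comp.out, caseC]
    rw [if_pos hp]
  · rw [act_idle]
    exact caseC_left p a b w N h

theorem caseC_false (p : InSym α → Bool) (a b : Comp α k) (w : List α) (N : ℤ)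
    {x y : TC k} (hN : x.Ok N) (hp : p (inputAt w x.inp) = false)
    (h : b.Exits w N b.entry x y) : (caseC p a b).Exits w N (caseC p a b).entry x y := by
  refine Comp.Exits.step' (some (.inr b.entry)) (.stay, idle fun i => x.tape i (x.pos i)) hN ?_ ?_
  · simp only [Comp.out, caseC]
    rw [hp, if_neg (by simp)]
  · rw [act_idle]
    exact caseC_right p a b w N h

/-- The action moving the head of tape `r` only. -/
def moveOne (r : Fin k) (m : Move) (s : Fin k → Sy) : Fin k → Sy × Move :=
  fun i => (s i, if i = r then m else .stay)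

/-- Is the symbol not a blank? -/
def nonBlank : Sy → Bool
  | .blank => false
  | _ => true

theorem nonBlank_enc_one (n : ℕ) : nonBlank (enc n 1) = decide (n ≠ 0) := by
  rw [enc_one]
  unfold dg
  split_ifs with h1 h2 <;> simp [nonBlank, h1]

/-- `while` loop with test register `r`. -/
def whileC (r : Fin k) (b : Comp α k) : Comp α k where
  Q := Bool ⊕ b.Q
  fin := by have := b.fin; infer_instance
  entry := .inl false
  tr := fun q i s =>
    match q with
    | .inl false => (some (.inl true), .stay, moveOne r .right s)
    | .inl true => ((if nonBlank (s r) then some (.inr b.entry) else none), .stay,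
        moveOne r .left s)
    | .inr q => ((match (b.tr q i s).1 with
        | none => some (.inl false)
        | some q' => some (.inr q')), (b.tr q i s).2)

theorem whileC_body (r : Fin k) (b : Comp α k) (w : List α) (N : ℤ) {q : b.Q} {x y z : TC k}
    (h : b.Exits w N q x y)
    (h' : (whileC r b).Exits w N (whileC r b).entry y z) :
    (whileC r b).Exits w N (.inr q) x z := by
  induction h with
  | @done q x hN h =>
    refine Comp.Exits.step' (.inl false) (b.out w q x).2 hN ?_ h'
    simp only [Comp.out, whileC] at h ⊢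
    rw [h]
  | @step q x q' y hN h _ ih =>
    refine Comp.Exits.step' (.inr q') (b.out w q x).2 hN ?_ (ih h')
    simp only [Comp.out, whileC] at h ⊢
    rw [h]

/-- The tape configuration representing a state of the counter language. -/
def rep (k : ℕ) (s : CState) : TC k where
  inp := s.inp
  pos := fun _ => 0
  tape := fun i => enc (s.reg i)

theorem rep_ok (s : CState) {N : ℤ} (hN : 0 ≤ N) : (rep k s).Ok N := fun _ => ⟨le_refl _, hN⟩

/-- The configuration during a zero test. -/
def repTest (r : Fin k) (s : CState) : TC k where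
  inp := s.inp
  pos := fun i => if i = r then 1 else 0
  tape := fun i => enc (s.reg i)

theorem repTest_ok (r : Fin k) (s : CState) {N : ℤ} (hN : 1 ≤ N) : (repTest r s).Ok N := by
  intro i
  simp only [repTest]
  split_ifs <;> constructor <;> omega

theorem act_test1 (n : ℕ) (r : Fin k) (s : CState) :
    act n (rep k s) (.stay, moveOne r .right fun i => (rep k s).tape i ((rep k s).pos i)) =
      repTest r s := by
  simp only [act, rep, repTest, moveOne, moveInput, Function.update_eq_self, TC.mk.injEq,
    true_and, and_true]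
  funext i
  split_ifs <;> simp [Move.toInt]

theorem act_test2 (n : ℕ) (r : Fin k) (s : CState) :
    act n (repTest r s)
      (.stay, moveOne r .left fun i => (repTest r s).tape i ((repTest r s).pos i)) =
      rep k s := by
  simp only [act, rep, repTest, moveOne, moveInput, Function.update_eq_self, TC.mk.injEq,
    true_and, and_true]
  funext i
  split_ifs <;> simp [Move.toInt]

theorem whileC_zero (r : Fin k) (b : Comp α k) (w : List α) {N : ℤ} (hN : 1 ≤ N) (s : CState)
    (h : s.reg r = 0) : (whileC r b).Exits w N (whileC r b).entry (rep k s) (rep k s) := by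
  refine Comp.Exits.step' (.inl true) _ (rep_ok s (by omega)) rfl ?_
  rw [act_test1]
  refine Comp.Exits.done' (.stay, moveOne r .left fun i => (repTest r s).tape i ((repTest r s).pos i))
    (repTest_ok r s hN) ?_ (act_test2 _ r s).symm
  have h1 : nonBlank ((repTest r s).tape r ((repTest r s).pos r)) = false := by
    simp only [repTest, if_true]
    rw [nonBlank_enc_one]
    simp [h]
  simp only [Comp.out, whileC]
  rw [h1]
  rfl

theorem whileC_pos (r : Fin k) (b : Comp α k) (w : List α) {N : ℤ} (hN : 1 ≤ N) (s : CState)
    {y z : TC k}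
    (h : s.reg r ≠ 0) (h1 : b.Exits w N b.entry (rep k s) y)
    (h2 : (whileC r b).Exits w N (whileC r b).entry y z) :
    (whileC r b).Exits w N (whileC r b).entry (rep k s) z := by
  refine Comp.Exits.step' (.inl true) _ (rep_ok s (by omega)) rfl ?_
  rw [act_test1]
  refine Comp.Exits.step' (.inr b.entry)
    (.stay, moveOne r .left fun i => (repTest r s).tape i ((repTest r s).pos i))
    (repTest_ok r s hN) ?_ ?_
  · have h1 : nonBlank ((repTest r s).tape r ((repTest r s).pos r)) = true := by
      simp only [repTest, if_true]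
      rw [nonBlank_enc_one]
      simp [h]
    simp only [Comp.out, whileC]
    rw [h1]
    rfl
  · rw [act_test2]
    exact whileC_body r b w N h1 h2

/-- Run a one-tape routine on tape `r`. -/
def micC (α : Type) (r : Fin k) (m : Mic) : Comp α k where
  Q := m.Q
  fin := m.fin
  entry := m.entry
  tr := fun q _ s => ((m.tr q (s r)).1, .stay,
    fun i => if i = r then (m.tr q (s r)).2 else (s i, .stay))

theorem act_mic (n : ℕ) (r : Fin k) (x : TC k) (a : Sy × Move) :
    act n x (.stay, fun i => if i = r then a else (x.tape i (x.pos i), .stay)) =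
      ⟨x.inp, Function.update x.pos r (x.pos r + a.2.toInt),
        Function.update x.tape r (Function.update (x.tape r) (x.pos r) a.1)⟩ := by
  simp only [act, moveInput, TC.mk.injEq, true_and]
  constructor
  · funext i
    by_cases h : i = r
    · subst h; simp
    · simp [h, Move.toInt]
  · funext i
    by_cases h : i = r
    · subst h; simp
    · simp [h]

theorem micC_exits (r : Fin k) (m : Mic) (w : List α) (N : ℤ) {q : m.Q} {p p' : ℤ}
    {T T' : ℤ → Sy} (h : m.Exits N q p T p' T') :
    ∀ x : TC k, x.Ok N → x.pos r = p → x.tape r = T →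
      (micC α r m).Exits w N q x
        ⟨x.inp, Function.update x.pos r p', Function.update x.tape r T'⟩ := by
  induction h with
  | @done q p T h0 hN h =>
    intro x hx hp hT
    refine Comp.Exits.done' (.stay, fun i => if i = r then (m.tr q (T p)).2 else
      (x.tape i (x.pos i), .stay)) hx ?_ ?_
    · simp only [Comp.out, micC]
      rw [hp, hT, h]
    · rw [act_mic, hp, hT]
  | @step q q' p T p' T' h0 hN h h' ih =>
    intro x hx hp hT
    refine Comp.Exits.step' q' (.stay, fun i => if i = r then (m.tr q (T p)).2 else
      (x.tape i (x.pos i), .stay)) hx ?_ ?_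
    · simp only [Comp.out, micC]
      rw [hp, hT, h]
    · rw [act_mic, hp, hT]
      have hok : 0 ≤ p + (m.tr q (T p)).2.2.toInt ∧ p + (m.tr q (T p)).2.2.toInt ≤ N := by
        cases h' with
        | done h0' hN' _ => exact ⟨h0', hN'⟩
        | step h0' hN' _ _ => exact ⟨h0', hN'⟩
      have := ih ⟨x.inp, Function.update x.pos r (p + (m.tr q (T p)).2.2.toInt),
        Function.update x.tape r (Function.update T p (m.tr q (T p)).2.1)⟩ (by
          intro i
          by_cases hi : i = r
          · subst hi; simpa using hok
          · simpa [hi] using hx i) (by simp) (by simp)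
      simpa using this

theorem rep_update (r : Fin k) (s : CState) (n : ℕ) :
    (⟨(rep k s).inp, Function.update (rep k s).pos r 0,
      Function.update (rep k s).tape r (enc n)⟩ : TC k) =
      rep k ⟨Function.update s.reg r n, s.inp⟩ := by
  simp only [rep, TC.mk.injEq, true_and]
  constructor
  · funext i
    by_cases h : i = r
    · subst h; simp
    · simp [h]
  · funext i
    by_cases h : i = r
    · subst h; simp
    · rw [Function.update_of_ne h, Function.update_of_ne (fun h' => h (Fin.ext h'))]

theorem incC_exits (r : Fin k) (w : List α) (N : ℤ) (s : CState) (t : ℕ)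
    (hn : s.reg r + 1 < 2 ^ t) (hN : (t : ℤ) ≤ N) :
    (micC α r incMic).Exits w N (micC α r incMic).entry (rep k s)
      (rep k ⟨Function.update s.reg r (s.reg r + 1), s.inp⟩) := by
  have := micC_exits (α := α) r incMic w N (inc_exits N (s.reg r) t hn hN) (rep k s)
    (rep_ok s (by omega)) rfl rfl
  rw [rep_update] at this
  exact this

theorem decC_exits (r : Fin k) (w : List α) (N : ℤ) (s : CState) (t : ℕ)
    (hn : s.reg r < 2 ^ t) (hN : (t : ℤ) + 1 ≤ N) :
    (micC α r decMic).Exits w N (micC α r decMic).entry (rep k s)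
      (rep k ⟨Function.update s.reg r (s.reg r - 1), s.inp⟩) := by
  have := micC_exits (α := α) r decMic w N (dec_exits N (s.reg r) t hn hN) (rep k s)
    (rep_ok s (by omega)) rfl rfl
  rw [rep_update] at this
  exact this

/-! ## Compilation -/

/-- Compile a counter command (registers are taken modulo `k + 1`). -/
def comp (α : Type) (k : ℕ) : Cmd α → Comp α (k + 1)
  | .skip => moveC α (k + 1) .stay
  | .inc r => micC α (Fin.ofNat (k + 1) r) incMic
  | .dec r => micC α (Fin.ofNat (k + 1) r) decMic
  | .seq a b => seqC (comp α k a) (comp α k b)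
  | .whileNZ r b => whileC (Fin.ofNat (k + 1) r) (comp α k b)
  | .inMove m => moveC α (k + 1) m
  | .inCase p a b => caseC p (comp α k a) (comp α k b)

theorem run_lt {w : List α} {B : ℕ} {c : Cmd α} {s s' : CState} (h : Run w B c s s') (t : ℕ)
    (hB : B ≤ 2 ^ t) (hs : ∀ r, s.reg r < 2 ^ t) : ∀ r, s'.reg r < 2 ^ t := by
  induction h with
  | skip s => exact hs
  | inc r s h =>
    intro i
    by_cases hi : i = r
    · subst hi; simp only [Function.update_self]; omega
    · simp only [Function.update_of_ne hi]; exact hs i
  | dec r s =>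
    intro i
    by_cases hi : i = r
    · subst hi; simp only [Function.update_self]; have := hs i; omega
    · simp only [Function.update_of_ne hi]; exact hs i
  | seq _ _ ih1 ih2 => exact ih2 (ih1 hs)
  | whileDone _ => exact hs
  | whileStep _ _ _ ih1 ih2 => exact ih2 (ih1 hs)
  | inMove m s => exact hs
  | inTrue _ _ ih => exact ih hs
  | inFalse _ _ ih => exact ih hs

theorem comp_exits {w : List α} {B : ℕ} {c : Cmd α} {s s' : CState} (h : Run w B c s s')
    (k : ℕ) (hk : c.RegsBelow (k + 1)) (t : ℕ) {N : ℤ} (hN : (t : ℤ) + 1 ≤ N)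
    (hB : B ≤ 2 ^ t) (hs : ∀ r, s.reg r < 2 ^ t) :
    (comp α k c).Exits w N (comp α k c).entry (rep (k + 1) s) (rep (k + 1) s') := by
  induction h with
  | skip s => exact moveC_exits .stay w N (rep (k + 1) s) (rep_ok s (by omega))
  | inc r s h =>
    have hr : ((Fin.ofNat (k + 1) r : Fin (k + 1)) : ℕ) = r := by
      rw [Fin.val_ofNat]; exact Nat.mod_eq_of_lt hk
    have := incC_exits (α := α) (Fin.ofNat (k + 1) r) w N s t (by rw [hr]; omega) (by omega)
    rw [hr] at this
    exact this
  | dec r s =>
    have hr : ((Fin.ofNat (k + 1) r : Fin (k + 1)) : ℕ) = r := by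
      rw [Fin.val_ofNat]; exact Nat.mod_eq_of_lt hk
    have := decC_exits (α := α) (Fin.ofNat (k + 1) r) w N s t (by rw [hr]; exact hs r) hN
    rw [hr] at this
    exact this
  | seq h1 h2 ih1 ih2 =>
    exact seqC_left _ _ w N (ih1 hk.1 hs) (ih2 hk.2 (run_lt h1 t hB hs))
  | @whileDone r body s h =>
    have hr : ((Fin.ofNat (k + 1) r : Fin (k + 1)) : ℕ) = r := by
      rw [Fin.val_ofNat]; exact Nat.mod_eq_of_lt hk.1
    exact whileC_zero _ _ w (by omega) s (by rw [hr]; exact h)
  | @whileStep r body s1 s2 s3 h h1 h2 ih1 ih2 =>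
    have hr : ((Fin.ofNat (k + 1) r : Fin (k + 1)) : ℕ) = r := by
      rw [Fin.val_ofNat]; exact Nat.mod_eq_of_lt hk.1
    exact whileC_pos _ _ w (by omega) s1 (by rw [hr]; exact h) (ih1 hk.2 hs)
      (ih2 hk (run_lt h1 t hB hs))
  | inMove m s => exact moveC_exits m w N (rep (k + 1) s) (rep_ok s (by omega))
  | @inTrue p a b s s' h h1 ih =>
    exact caseC_true _ _ _ w N (rep_ok s (by omega)) h (ih hk.1 hs)
  | @inFalse p a b s s' h h1 ih =>
    exact caseC_false _ _ _ w N (rep_ok s (by omega)) h (ih hk.2 hs)

/-! ## The whole machine -/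

/-- Control states of the whole machine: start, running, final test (two states), answer. -/
inductive MQ (Q : Type) where
  | start
  | run (q : Q)
  | test0
  | test1
  | ans (b : Bool)

theorem finite_MQ (Q : Type) [Finite Q] : Finite (MQ Q) := by
  refine Finite.of_injective (β := Option (Option (Option (Bool ⊕ Q))))
    (fun s => match s with
      | .start => none
      | .test0 => some none
      | .test1 => some (some none)
      | .ans b => some (some (some (.inl b)))
      | .run q => some (some (some (.inr q)))) ?_
  intro a b h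
  cases a <;> cases b <;> simp_all

/-- The machine belonging to a component. -/
def machine (c : Comp α (k + 1)) : SpaceTM α where
  k := k + 1
  Q := MQ c.Q
  Γ := Sy
  finQ := by have := c.fin; exact finite_MQ c.Q
  finΓ := inferInstance
  blank := .blank
  start := .start
  trans := fun q i s =>
    match q with
    | .start => (.run c.entry, .left, fun _ => (.mark, .stay))
    | .run q => ((match (c.tr q i s).1 with
        | none => .test0
        | some q' => .run q'), (c.tr q i s).2)
    | .test0 => (.test1, .stay, moveOne 0 .right s)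
    | .test1 => (.ans (nonBlank (s 0)), .stay, moveOne 0 .left s)
    | .ans b => (.ans b, .stay, idle s)
  answer := fun q =>
    match q with
    | .ans b => some b
    | _ => none

/-- The machine halts with answer `a` from a given configuration, with head positions in
`[0, N]`. -/
inductive Halts (M : SpaceTM α) (w : List α) (N : ℤ) (a : Bool) : M.Cfg → Prop where
  | done (c : M.Cfg) (h : M.answer c.q = some a) (hN : ∀ i, 0 ≤ c.pos i ∧ c.pos i ≤ N) :
      Halts M w N a c
  | step (c : M.Cfg) (hN : ∀ i, 0 ≤ c.pos i ∧ c.pos i ≤ N) (h' : Halts M w N a (M.step w c)) :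
      Halts M w N a c

theorem Halts.spec {M : SpaceTM α} {w : List α} {N : ℤ} {a : Bool} {c : M.Cfg}
    (h : Halts M w N a c) :
    (∃ j, M.answer ((M.step w)^[j] c).q = some a) ∧
      ∀ j i, 0 ≤ ((M.step w)^[j] c).pos i ∧ ((M.step w)^[j] c).pos i ≤ N := by
  induction h with
  | done c h hN =>
    refine ⟨⟨0, h⟩, ?_⟩
    have hfix : M.step w c = c := by
      unfold SpaceTM.step
      rw [h]
    intro j
    rw [Function.iterate_fixed hfix]
    exact hN
  | step c hN _ ih =>
    obtain ⟨⟨j, hj⟩, h2⟩ := ih
    refine ⟨⟨j + 1, by rw [Function.iterate_succ_apply]; exact hj⟩, ?_⟩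
    intro j
    rcases j with _ | j
    · exact hN
    · rw [Function.iterate_succ_apply]
      exact h2 j

/-- The configuration of the machine with a given tape configuration. -/
def cfg (c : Comp α (k + 1)) (q : MQ c.Q) (x : TC (k + 1)) : (machine c).Cfg where
  q := q
  inp := x.inp
  pos := x.pos
  tape := x.tape

theorem step_run (c : Comp α (k + 1)) (w : List α) (q : c.Q) (x : TC (k + 1)) :
    (machine c).step w (cfg c (.run q) x) =
      cfg c (match (c.out w q x).1 with | none => .test0 | some q' => .run q')
        (act w.length x (c.out w q x).2) := rfl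

theorem halts_run (c : Comp α (k + 1)) (w : List α) {N : ℤ} {a : Bool} {q : c.Q}
    {x y : TC (k + 1)} (h : c.Exits w N q x y)
    (hy : Halts (machine c) w N a (cfg c .test0 y)) :
    Halts (machine c) w N a (cfg c (.run q) x) := by
  induction h with
  | @done q x hN h =>
    refine Halts.step _ hN ?_
    rw [step_run, h]
    exact hy
  | @step q x q' y hN h _ ih =>
    refine Halts.step _ hN ?_
    rw [step_run, h]
    exact ih hy

theorem step_test0 (c : Comp α (k + 1)) (w : List α) (x : TC (k + 1)) :
    (machine c).step w (cfg c .test0 x) =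
      cfg c .test1 (act w.length x (.stay, moveOne 0 .right fun i => x.tape i (x.pos i))) := rfl

theorem step_test1 (c : Comp α (k + 1)) (w : List α) (x : TC (k + 1)) :
    (machine c).step w (cfg c .test1 x) =
      cfg c (.ans (nonBlank (x.tape (0 : Fin (k + 1)) (x.pos (0 : Fin (k + 1))))))
        (act w.length x (.stay, moveOne 0 .left fun i => x.tape i (x.pos i))) := rfl

theorem halts_test (c : Comp α (k + 1)) (w : List α) {N : ℤ} (hN : 1 ≤ N) (s : CState) :
    Halts (machine c) w N (decide (s.reg 0 ≠ 0)) (cfg c .test0 (rep (k + 1) s)) := by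
  refine Halts.step _ (rep_ok s (by omega)) ?_
  rw [step_test0, act_test1]
  refine Halts.step _ (repTest_ok (0 : Fin (k + 1)) s hN) ?_
  rw [step_test1, act_test2]
  refine Halts.done _ ?_ (rep_ok s (by omega))
  simp only [machine, cfg, repTest, if_true, Option.some.injEq]
  rw [nonBlank_enc_one]
  rfl

theorem usedCells_bound (M : SpaceTM α) (w : List α) (N : ℤ)
    (h : ∀ j i, 0 ≤ ((M.step w)^[j] M.init).pos i ∧ ((M.step w)^[j] M.init).pos i ≤ N) :
    (M.usedCells w).Finite ∧ (M.usedCells w).ncard ≤ M.k * (N + 1).toNat := by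
  have hsub : M.usedCells w ⊆
      ((Finset.univ ×ˢ Finset.Icc (0 : ℤ) N : Finset (Fin M.k × ℤ)) : Set (Fin M.k × ℤ)) := by
    rintro ⟨i, x⟩ ⟨j, hj⟩
    simp only at hj
    rw [Finset.mem_coe, Finset.mem_product, Finset.mem_Icc]
    refine ⟨Finset.mem_univ _, ?_⟩
    simp only
    rw [hj]
    exact h j i
  refine ⟨(Finset.finite_toSet _).subset hsub, ?_⟩
  have hcard := Set.ncard_le_ncard hsub (Finset.finite_toSet _)
  rw [Set.ncard_coe_finset, Finset.card_product, Finset.card_univ, Fintype.card_fin,
    Int.card_Icc, sub_zero] at hcard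
  exact hcard

theorem halts_start (c : Comp α (k + 1)) (w : List α) {N : ℤ} (hN : 0 ≤ N) {a : Bool}
    (h : Halts (machine c) w N a (cfg c (.run c.entry) (rep (k + 1) ⟨fun _ => 0, 0⟩))) :
    Halts (machine c) w N a (machine c).init := by
  refine Halts.step _ (fun _ => ⟨le_refl _, hN⟩) ?_
  have : (machine c).step w (machine c).init =
      cfg c (.run c.entry) (rep (k + 1) ⟨fun _ => 0, 0⟩) := by
    have h1 : (machine c).step w (machine c).init =
      cfg c (.run c.entry) ⟨0, fun _ => 0, fun _ => Function.update (fun _ => Sy.blank) 0 .mark⟩ :=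
      rfl
    rw [h1]
    simp only [rep]
    congr 2
    funext i x
    by_cases hx : x = 0
    · subst hx; simp [enc_zero]
    · rw [Function.update_of_ne hx]
      simp only [enc, if_neg hx, Nat.zero_div, dg_zero, ite_self]
  rw [this]
  exact h

theorem RegsBelow.mono {k k' : ℕ} (hk : k ≤ k') : ∀ c : Cmd α, c.RegsBelow k → c.RegsBelow k'
  | .skip, _ => trivial
  | .inc _, h => lt_of_lt_of_le h hk
  | .dec _, h => lt_of_lt_of_le h hk
  | .seq a b, h => ⟨RegsBelow.mono hk a h.1, RegsBelow.mono hk b h.2⟩
  | .whileNZ _ b, h => ⟨lt_of_lt_of_le h.1 hk, RegsBelow.mono hk b h.2⟩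
  | .inMove _, _ => trivial
  | .inCase _ a b, h => ⟨RegsBelow.mono hk a h.1, RegsBelow.mono hk b h.2⟩

end Compile

open Compile

variable {α : Type}

/-- A counter command with `k` registers whose counters stay below `B` is simulated by a
`SpaceTM` with `O(log B)` work cells.  (Register `0` is the output register, all counters start
with `0`, the input head of the command language starts at `0`.) -/
theorem mem_SPACE_of_run (cmd : Cmd α) (k : ℕ) (hk : cmd.RegsBelow k) (L : Set (List α))
    (s : ℕ → ℝ) (hs : ∀ n, 0 ≤ s n)
    (hrun : ∃ C : ℝ, ∀ w : List α, ∃ (B : ℕ) (s' : CState), Run w B cmd ⟨fun _ => 0, 0⟩ s' ∧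
      ((w ∈ L ∧ s'.reg 0 ≠ 0) ∨ (w ∉ L ∧ s'.reg 0 = 0)) ∧
      (Nat.log 2 B : ℝ) ≤ C * (s w.length + 1)) :
    L ∈ SPACE s := by
  obtain ⟨C, hC⟩ := hrun
  have hk' : cmd.RegsBelow (k + 1) := RegsBelow.mono (Nat.le_succ k) cmd hk
  have key : ∀ w : List α, ∃ (N : ℤ) (s' : CState), 0 ≤ N ∧
      ((w ∈ L ∧ s'.reg 0 ≠ 0) ∨ (w ∉ L ∧ s'.reg 0 = 0)) ∧
      ((N : ℝ) ≤ C * (s w.length + 1) + 2) ∧
      Halts (machine (comp α k cmd)) w N (decide (s'.reg 0 ≠ 0))
        (machine (comp α k cmd)).init := by
    intro w
    obtain ⟨B, s', hrun, hL, hlog⟩ := hC w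
    refine ⟨(Nat.log 2 B + 1 : ℕ) + 1, s', by omega, hL, by push_cast; linarith, ?_⟩
    refine halts_start _ w (by omega) ?_
    refine halts_run _ w (comp_exits hrun k hk' (Nat.log 2 B + 1) (by push_cast; omega)
      (Nat.lt_pow_succ_log_self (by norm_num) B).le (fun r => by positivity)) ?_
    exact halts_test _ w (by omega) s'
  refine ⟨machine (comp α k cmd), (k + 1) * (C + 3), ?_, ?_⟩
  · intro w
    obtain ⟨N, s', hN, hL, hle, hH⟩ := key w
    obtain ⟨⟨j, hj⟩, -⟩ := hH.spec
    refine ⟨j, ?_⟩
    rcases hL with ⟨h1, h2⟩ | ⟨h1, h2⟩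
    · left
      refine ⟨h1, ?_⟩
      rw [hj]; simp [h2]
    · right
      refine ⟨h1, ?_⟩
      rw [hj]; simp [h2]
  · intro w
    obtain ⟨N, s', hN, hL, hle, hH⟩ := key w
    obtain ⟨-, hpos⟩ := hH.spec
    obtain ⟨hfin, hcard⟩ := usedCells_bound _ w N hpos
    refine ⟨hfin, ?_⟩
    have h1 : (((machine (comp α k cmd)).usedCells w).ncard : ℝ) ≤
        ((k + 1) * (N + 1).toNat : ℕ) := by exact_mod_cast hcard
    have h2 : (((N + 1).toNat : ℕ) : ℝ) = (N : ℝ) + 1 := by
      have : (((N + 1).toNat : ℕ) : ℤ) = N + 1 := by omega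
      exact_mod_cast this
    have h3 := hs w.length
    push_cast at h1
    rw [h2] at h1
    refine h1.trans ?_
    have h4 : (N : ℝ) + 1 ≤ (C + 3) * (s w.length + 1) := by nlinarith
    have h5 : (0 : ℝ) ≤ (k : ℝ) + 1 := by positivity
    calc ((k : ℝ) + 1) * ((N : ℝ) + 1) ≤ ((k : ℝ) + 1) * ((C + 3) * (s w.length + 1)) :=
          mul_le_mul_of_nonneg_left h4 h5
      _ = _ := by ring

end Vale.Agent.P312
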