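import Vale.Agent.P312.Cmd

/-!
# P312, package B: basic closure properties of `LS`
-/

namespace Vale.Agent.P312

open Finset

variable {α : Type} {n : ℕ}

theorem Cmd.RegsBelow.mono {c : Cmd α} {k l : ℕ} (hkl : k ≤ l) (h : c.RegsBelow k) :
    c.RegsBelow l := by
  induction c with
  | skip => trivial
  | inc r => exact lt_of_lt_of_le h hkl
  | dec r => exact lt_of_lt_of_le h hkl
  | seq a b iha ihb => exact ⟨iha h.1, ihb h.2⟩
  | whileNZ r body ih => exact ⟨lt_of_lt_of_le h.1 hkl, ih h.2⟩
  | inMove m => trivial
  | inCase p a b iha ihb => exact ⟨iha h.1, ihb h.2⟩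

theorem Run.to {w : List α} {B : ℕ} {c : Cmd α} {s : CState} {σ σ' : ℕ → ℕ} {p : ℕ}
    (h : Run w B c s ⟨σ, p⟩) (e : σ = σ') : Run w B c s ⟨σ', p⟩ := e ▸ h

theorem run_while (w : List α) (B r : ℕ) (body : Cmd α) (N : ℕ) (S : ℕ → CState)
    (h : ∀ j < N, (S j).reg r ≠ 0 ∧ Run w B body (S j) (S (j + 1)))
    (hN : (S N).reg r = 0) : Run w B (.whileNZ r body) (S 0) (S N) := by
  induction N generalizing S with
  | zero => exact Run.whileDone hN
  | succ N ih =>
    have h0 := h 0 (by omega)
    exact Run.whileStep h0.1 h0.2 (ih (fun j => S (j + 1)) (fun j hj => h (j + 1) (by omega)) hN)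

/-- Sequential composition of `c 0, …, c (N-1)`. -/
def seqUpTo (c : ℕ → Cmd α) : ℕ → Cmd α
  | 0 => .skip
  | j + 1 => .seq (seqUpTo c j) (c j)

theorem run_seqUpTo (w : List α) (B : ℕ) (c : ℕ → Cmd α) (N : ℕ) (S : ℕ → CState)
    (h : ∀ j < N, Run w B (c j) (S j) (S (j + 1))) : Run w B (seqUpTo c N) (S 0) (S N) := by
  induction N with
  | zero => exact Run.skip _
  | succ N ih => exact Run.seq (ih (fun j hj => h j (by omega))) (h N (by omega))

theorem regs_seqUpTo {c : ℕ → Cmd α} {N k : ℕ} (h : ∀ j < N, (c j).RegsBelow k) :
    (seqUpTo c N).RegsBelow k := by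
  induction N with
  | zero => trivial
  | succ N ih => exact ⟨ih (fun j hj => h j (by omega)), h N (by omega)⟩

/-! ### Basic programs -/

/-- Set register `r` to `0`. -/
def clearC (r : ℕ) : Cmd α := .whileNZ r (.dec r)

theorem run_clear (w : List α) (B r : ℕ) (σ : ℕ → ℕ) (p : ℕ) :
    Run w B (clearC r) ⟨σ, p⟩ ⟨Function.update σ r 0, p⟩ := by
  have key := run_while w B r (.dec r) (σ r) (fun j => ⟨Function.update σ r (σ r - j), p⟩)
    (by
      intro j hj
      constructor
      · simp; omega
      · have := Run.dec (w := w) (B := B) r ⟨Function.update σ r (σ r - j), p⟩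
        refine this.to ?_
        simp only [Function.update_self, Function.update_idem]
        congr 1) (by simp)
  simp only [Nat.sub_zero, Function.update_eq_self, Nat.sub_self] at key
  exact key

/-- `b += a; a := 0`. -/
def addC (a b : ℕ) : Cmd α := .whileNZ a (.seq (.dec a) (.inc b))

theorem run_add (w : List α) (B a b : ℕ) (hab : a ≠ b) (σ : ℕ → ℕ) (p : ℕ)
    (hB : σ b + σ a < B) :
    Run w B (addC a b) ⟨σ, p⟩
      ⟨Function.update (Function.update σ a 0) b (σ b + σ a), p⟩ := by
  have key := run_while w B a (.seq (.dec a) (.inc b)) (σ a)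
    (fun j => ⟨Function.update (Function.update σ a (σ a - j)) b (σ b + j), p⟩)
    (by
      intro j hj
      constructor
      · simp only [Function.update_apply, hab, if_true, if_false]; omega
      · refine Run.seq (Run.dec a _) ?_
        refine (Run.inc b _ ?_).to ?_
        · simp only [Function.update_apply, hab, hab.symm, if_true, if_false]; omega
        · funext r
          simp only [Function.update_apply]
          by_cases h1 : r = b
          · subst h1; simp [hab.symm]; omega
          · by_cases h2 : r = a
            · subst h2; simp [h1]; omega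
            · simp [h1, h2])
    (by simp [hab])
  refine Eq.mp ?_ key
  congr 2
  · funext r
    simp only [Function.update_apply]
    by_cases h1 : r = b
    · subst h1; simp
    · by_cases h2 : r = a
      · subst h2; simp [h1]
      · simp [h1, h2]
  · simp

theorem run_add3 (w : List α) (B a b t : ℕ) (hab : a ≠ b) (hat : a ≠ t) (hbt : b ≠ t)
    (σ : ℕ → ℕ) (p : ℕ) (hB : σ b + σ a < B) (hB' : σ t + σ a < B) :
    Run w B (.whileNZ a (.seq (.dec a) (.seq (.inc b) (.inc t)))) ⟨σ, p⟩
      ⟨Function.update (Function.update (Function.update σ a 0) b (σ b + σ a)) t (σ t + σ a),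
        p⟩ := by
  have key := run_while w B a (.seq (.dec a) (.seq (.inc b) (.inc t))) (σ a)
    (fun j => ⟨Function.update (Function.update (Function.update σ a (σ a - j)) b (σ b + j)) t
      (σ t + j), p⟩)
    (by
      intro j hj
      constructor
      · simp only [Function.update_apply, hab, hat, if_true, if_false]; omega
      · refine Run.seq (Run.dec a _) (Run.seq (Run.inc b _ ?_) ((Run.inc t _ ?_).to ?_))
        · simp only [Function.update_apply, hab, hab.symm, hbt, if_true, if_false]; omega
        · simp only [Function.update_apply, hat, hat.symm, hbt.symm, if_true, if_false]; omega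
        · funext r
          simp only [Function.update_apply]
          by_cases h0 : r = t
          · subst h0; simp [hat.symm, hbt.symm]; omega
          · by_cases h1 : r = b
            · subst h1; simp [hab.symm, h0]; omega
            · by_cases h2 : r = a
              · subst h2; simp [h1, h0]; omega
              · simp [h1, h2, h0])
    (by simp [hab, hat])
  refine Eq.mp ?_ key
  congr 2
  · funext r
    simp only [Function.update_apply]
    by_cases h0 : r = t
    · subst h0; simp
    · by_cases h1 : r = b
      · subst h1; simp [h0]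
      · by_cases h2 : r = a
        · subst h2; simp [h1, h0]
        · simp [h1, h2, h0]
  · simp

/-- `b += a` with the scratch register `t`. -/
def copyC (a b t : ℕ) : Cmd α :=
  .seq (.whileNZ a (.seq (.dec a) (.seq (.inc b) (.inc t)))) (addC t a)

theorem run_copy (w : List α) (B a b t : ℕ) (hab : a ≠ b) (hat : a ≠ t) (hbt : b ≠ t)
    (σ : ℕ → ℕ) (p : ℕ) (ht : σ t = 0) (hB : σ b + σ a < B) :
    Run w B (copyC a b t) ⟨σ, p⟩ ⟨Function.update σ b (σ b + σ a), p⟩ := by
  refine Run.seq (run_add3 w B a b t hab hat hbt σ p hB (by omega)) ?_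
  refine (run_add w B t a hat.symm _ p ?_).to ?_
  · simp only [Function.update_apply, hab, hat, if_true, if_false]; omega
  · funext r
    simp only [Function.update_apply]
    by_cases h0 : r = t
    · subst h0; simp [hat.symm, hbt.symm, ht]
    · by_cases h1 : r = b
      · subst h1; simp [hab.symm, h0]
      · by_cases h2 : r = a
        · subst h2; simp [h1, h0, ht]
        · simp [h1, h2, h0]

/-- Increment `c` times. -/
def incN (r c : ℕ) : Cmd α := seqUpTo (fun _ => .inc r) c

theorem run_incN (w : List α) (B r c : ℕ) (σ : ℕ → ℕ) (p : ℕ) (hB : σ r + c < B) :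
    Run w B (incN r c) ⟨σ, p⟩ ⟨Function.update σ r (σ r + c), p⟩ := by
  have key := run_seqUpTo w B (fun _ => Cmd.inc r) c
    (fun j => ⟨Function.update σ r (σ r + j), p⟩)
    (by
      intro j hj
      refine (Run.inc r _ ?_).to ?_
      · simp; omega
      · simp only [Function.update_self, Function.update_idem]
        rfl)
  simp only [Nat.add_zero, Function.update_eq_self] at key
  exact key

/-! ### Blocks -/

/-- Overwrite registers `o, …, o+k-1` by `u 0, …, u (k-1)`. -/
def setBlk (σ : ℕ → ℕ) (o k : ℕ) (u : ℕ → ℕ) : ℕ → ℕ :=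
  fun r => if o ≤ r ∧ r < o + k then u (r - o) else σ r

theorem setBlk_lt {σ : ℕ → ℕ} {o k : ℕ} {u : ℕ → ℕ} {r : ℕ} (h : r < o) :
    setBlk σ o k u r = σ r := by
  unfold setBlk; rw [if_neg (by omega)]

theorem setBlk_ge {σ : ℕ → ℕ} {o k : ℕ} {u : ℕ → ℕ} {r : ℕ} (h : o + k ≤ r) :
    setBlk σ o k u r = σ r := by
  unfold setBlk; rw [if_neg (by omega)]

theorem setBlk_in {σ : ℕ → ℕ} {o k : ℕ} {u : ℕ → ℕ} {i : ℕ} (h : i < k) :
    setBlk σ o k u (o + i) = u i := by
  unfold setBlk; rw [if_pos (by omega)]; congr 1; omega

theorem setBlk_zero (σ : ℕ → ℕ) (o : ℕ) (u : ℕ → ℕ) : setBlk σ o 0 u = σ := by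
  funext r; unfold setBlk; rw [if_neg (by omega)]

theorem setBlk_succ (σ : ℕ → ℕ) (o k : ℕ) (u : ℕ → ℕ) :
    Function.update (setBlk σ o k u) (o + k) (u k) = setBlk σ o (k + 1) u := by
  funext r
  by_cases h : r = o + k
  · subst h; rw [Function.update_self, setBlk_in (by omega)]
  · rw [Function.update_of_ne h]
    unfold setBlk
    by_cases h2 : o ≤ r ∧ r < o + k
    · rw [if_pos h2, if_pos (by omega)]
    · rw [if_neg h2, if_neg (by omega)]

/-- Extension of a vector by `0`. -/
def vext {k : ℕ} (u : Fin k → ℕ) : ℕ → ℕ := fun i => if h : i < k then u ⟨i, h⟩ else 0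

theorem vext_val {k : ℕ} (u : Fin k → ℕ) (i : Fin k) : vext u i = u i := by
  unfold vext; rw [dif_pos i.2]

/-- Clear a block. -/
def clearBlkC (o k : ℕ) : Cmd α := seqUpTo (fun i => clearC (o + i)) k

theorem run_clearBlk (w : List α) (B o k : ℕ) (σ : ℕ → ℕ) (p : ℕ) :
    Run w B (clearBlkC o k) ⟨σ, p⟩ ⟨setBlk σ o k (fun _ => 0), p⟩ := by
  have key := run_seqUpTo w B (fun i => clearC (o + i)) k
    (fun j => ⟨setBlk σ o j (fun _ => 0), p⟩)
    (by
      intro j hj
      exact (run_clear w B (o + j) _ p).to (setBlk_succ σ o j (fun _ => 0)))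
  simp only [setBlk_zero] at key
  exact key

/-- Move the block at `o'` to the block at `o`. -/
def moveBlkC (o' o k : ℕ) : Cmd α :=
  seqUpTo (fun i => .seq (clearC (o + i)) (addC (o' + i) (o + i))) k

theorem run_moveBlk (w : List α) (B o' o k : ℕ) (hoo : o + k ≤ o') (σ : ℕ → ℕ) (p : ℕ)
    (hB : ∀ i < k, σ (o' + i) < B) :
    Run w B (moveBlkC o' o k) ⟨σ, p⟩
      ⟨setBlk (setBlk σ o' k (fun _ => 0)) o k (fun i => σ (o' + i)), p⟩ := by
  have key := run_seqUpTo w B (fun i => .seq (clearC (o + i)) (addC (o' + i) (o + i))) k
    (fun j => ⟨setBlk (setBlk σ o' j (fun _ => 0)) o j (fun i => σ (o' + i)), p⟩)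
    (by
      intro j hj
      refine Run.seq (run_clear w B (o + j) _ p) ?_
      have e1 : setBlk (setBlk σ o' j (fun _ => 0)) o j (fun i => σ (o' + i)) (o' + j) =
          σ (o' + j) := by
        rw [setBlk_ge (by omega), setBlk_ge (by omega)]
      refine (run_add w B (o' + j) (o + j) (by omega) _ p ?_).to ?_
      · rw [Function.update_self, Function.update_of_ne (by omega), e1]
        have := hB j hj
        omega
      · rw [Function.update_self, Function.update_of_ne (show o' + j ≠ o + j by omega), e1,
          Nat.zero_add, ← setBlk_succ, ← setBlk_succ]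
        funext r
        by_cases h1 : r = o + j
        · subst h1; rw [Function.update_self, Function.update_self]
        · rw [Function.update_of_ne h1, Function.update_of_ne h1]
          by_cases h2 : r = o' + j
          · subst h2
            rw [Function.update_self, setBlk_ge (by omega), Function.update_self]
          · rw [Function.update_of_ne h2, Function.update_of_ne h1]
            unfold setBlk
            by_cases h3 : o ≤ r ∧ r < o + j
            · rw [if_pos h3, if_pos h3]
            · rw [if_neg h3, if_neg h3, Function.update_of_ne h2])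
  simp only [setBlk_zero] at key
  exact key

/-! ### Evaluating a block of `LS` functions -/

theorem pow_le_of_le_bound {x C C' B : ℕ} (hx : 2 ≤ x) (hC : C ≤ C') (h : x ^ C' ≤ B) :
    x ^ C ≤ B :=
  (Nat.pow_le_pow_right (by omega) hC).trans h

theorem evalBlk {k : ℕ} {g : Fin k → List α → (Fin n → ℕ) → ℕ} (hg : ∀ i, LS (g i)) :
    ∃ C K : ℕ, (∀ i w v b, (∀ j, v j ≤ b) → g i w v + 1 < (w.length + b + 2) ^ C) ∧
      ∀ (ins : Fin n → ℕ) (o : ℕ), (∀ i, ins i < o) → ∃ cmd : Cmd α,
        cmd.RegsBelow (o + k + K) ∧
        ∀ (w : List α) (σ : ℕ → ℕ) (b B : ℕ), (∀ i, σ (ins i) ≤ b) → (∀ r, o ≤ r → σ r = 0) →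
          (w.length + b + 2) ^ C ≤ B →
          Run w B cmd ⟨σ, 0⟩ ⟨setBlk σ o k (vext fun i => g i w (fun j => σ (ins j))), 0⟩ := by
  choose C K hbd hcmd using hg
  have hCle : ∀ i, C i ≤ ∑ i, C i := fun i => Finset.single_le_sum (fun _ _ => Nat.zero_le _)
    (Finset.mem_univ i)
  have hKle : ∀ i, K i ≤ ∑ i, K i := fun i => Finset.single_le_sum (fun _ _ => Nat.zero_le _)
    (Finset.mem_univ i)
  refine ⟨∑ i, C i, ∑ i, K i, ?_, ?_⟩
  · intro i w v b hv
    exact lt_of_lt_of_le (hbd i w v b hv) (Nat.pow_le_pow_right (by omega) (hCle i))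
  · intro ins o hins
    choose cmd hregs hrun using fun i : Fin k => hcmd i ins (o + i) (o + k)
      (fun j => by have := hins j; omega) (by have := i.2; omega)
      (fun j => by have := hins j; omega)
    let c : ℕ → Cmd α := fun j => if h : j < k then cmd ⟨j, h⟩ else .skip
    refine ⟨seqUpTo c k, ?_, ?_⟩
    · apply regs_seqUpTo
      intro j hj
      simp only [c, dif_pos hj]
      exact (hregs ⟨j, hj⟩).mono (by have := hKle ⟨j, hj⟩; omega)
    · intro w σ b B hb h0 hB
      have key := run_seqUpTo w B c k
        (fun j => ⟨setBlk σ o j (vext fun i => g i w (fun j => σ (ins j))), 0⟩)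
        (by
          intro j hj
          simp only [c, dif_pos hj]
          have e1 : ∀ i, setBlk σ o j (vext fun i => g i w (fun j => σ (ins j))) (ins i) =
              σ (ins i) := fun i => setBlk_lt (hins i)
          have := hrun ⟨j, hj⟩ w
            (setBlk σ o j (vext fun i => g i w (fun j => σ (ins j)))) b B
            (fun i => by rw [e1]; exact hb i)
            (by
              change setBlk σ o j _ (o + j) = 0
              rw [setBlk_ge (le_refl _)]; exact h0 _ (by omega))
            (by
              intro r hr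
              rw [setBlk_ge (by omega)]; exact h0 r (by omega))
            (pow_le_of_le_bound (by omega) (hCle ⟨j, hj⟩) hB)
          refine this.to ?_
          rw [← setBlk_succ]
          simp only [e1]
          congr 1
          unfold vext
          rw [dif_pos hj])
      simp only [setBlk_zero] at key
      exact key

theorem setBlk_clear (σ : ℕ → ℕ) (o k : ℕ) (u : ℕ → ℕ) (h0 : ∀ r, o ≤ r → σ r = 0) :
    setBlk (setBlk σ o k u) o k (fun _ => 0) = σ := by
  funext r
  unfold setBlk
  by_cases h : o ≤ r ∧ r < o + k
  · rw [if_pos h, h0 r h.1]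
  · rw [if_neg h, if_neg h]

/-! ### The closure properties -/

theorem LS.var (i : Fin n) : LS (α := α) (fun _ v => v i) := by
  refine ⟨1, 1, ?_, ?_⟩
  · intro w v b hv
    have := hv i
    change v i + 1 < _
    rw [pow_one]; omega
  · intro ins out base hins hout hne
    refine ⟨copyC (ins i) out base, ?_, ?_⟩
    · have := hins i
      refine ⟨⟨?_, ?_, ?_, ?_⟩, ⟨?_, ?_, ?_⟩⟩ <;> first | omega | (simp only [Cmd.RegsBelow]; omega)
    · intro w σ b B hb ho h0 hB
      have h1 := hb i
      have h2 := hins i
      rw [pow_one] at hB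
      refine (run_copy w B (ins i) out base (hne i) (by omega) (by omega) σ 0
        (h0 _ (le_refl _)) (by omega)).to ?_
      rw [ho, Nat.zero_add]

theorem LS.const (c : ℕ) : LS (α := α) (n := n) (fun _ _ => c) := by
  have hc : ∀ x : ℕ, 2 ≤ x → c + 1 < x ^ (c + 1) := by
    intro x hx
    calc c + 1 < 2 ^ (c + 1) := Nat.lt_two_pow_self
      _ ≤ x ^ (c + 1) := Nat.pow_le_pow_left hx _
  refine ⟨c + 1, 0, ?_, ?_⟩
  · intro w v b hv
    exact hc _ (by omega)
  · intro ins out base hins hout hne
    refine ⟨incN out c, ?_, ?_⟩
    · apply regs_seqUpTo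
      intro j hj
      exact hout
    · intro w σ b B hb ho h0 hB
      have := hc (w.length + b + 2) (by omega)
      refine (run_incN w B out c σ 0 (by omega)).to ?_
      rw [ho, Nat.zero_add]

theorem LS.succ {f : List α → (Fin n → ℕ) → ℕ} (hf : LS f) : LS (fun w v => f w v + 1) := by
  obtain ⟨C, K, hbd, hcmd⟩ := hf
  refine ⟨C + 1, K, ?_, ?_⟩
  · intro w v b hv
    have h1 := hbd w v b hv
    have h2 : (w.length + b + 2) ^ C * 2 ≤ (w.length + b + 2) ^ (C + 1) := by
      rw [pow_succ]; exact Nat.mul_le_mul_left _ (by omega)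
    change f w v + 1 + 1 < _
    omega
  · intro ins out base hins hout hne
    obtain ⟨cmd, hregs, hrun⟩ := hcmd ins out base hins hout hne
    refine ⟨.seq cmd (.inc out), ⟨hregs, by simp only [Cmd.RegsBelow]; omega⟩, ?_⟩
    intro w σ b B hb ho h0 hB
    have h1 := hbd w (fun i => σ (ins i)) b hb
    have h2 := pow_le_of_le_bound (C := C) (by omega) (by omega) hB
    refine Run.seq (hrun w σ b B hb ho h0 h2) ((Run.inc out _ ?_).to ?_)
    · simp only [Function.update_self]; omega
    · simp only [Function.update_self, Function.update_idem]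

theorem bound_trans {x y C D : ℕ} (hx : 2 ≤ x) (hy : y ≤ x ^ C) :
    (x + y) ^ D ≤ x ^ ((C + 2) * D) := by
  have h1 : x + y ≤ x ^ (C + 2) := by
    have h2 : x ^ C * 4 ≤ x ^ (C + 2) := by
      rw [pow_add]
      refine Nat.mul_le_mul_left _ ?_
      nlinarith
    have h3 : x * 2 ≤ x ^ (C + 2) := by
      have : x ^ (C + 2) = x * (x ^ C * x) := by ring
      rw [this]
      refine Nat.mul_le_mul_left _ ?_
      have : 1 ≤ x ^ C := Nat.one_le_pow _ _ (by omega)
      nlinarith
    omega
  rw [pow_mul]
  exact Nat.pow_le_pow_left h1 D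

theorem LS.comp {k : ℕ} {f : List α → (Fin k → ℕ) → ℕ} (hf : LS f)
    {g : Fin k → List α → (Fin n → ℕ) → ℕ} (hg : ∀ i, LS (g i)) :
    LS (fun w v => f w (fun i => g i w v)) := by
  obtain ⟨Cg, Kg, hgb, hgc⟩ := evalBlk hg
  obtain ⟨C, K, hbd, hcmd⟩ := hf
  refine ⟨(Cg + 2) * C + Cg, k + Kg + K, ?_, ?_⟩
  · intro w v b hv
    have h1 := hbd w (fun i => g i w v) ((w.length + b + 2) ^ Cg)
      (fun i => by have := hgb i w v b hv; omega)
    refine lt_of_lt_of_le h1 ?_
    have h2 : w.length + (w.length + b + 2) ^ Cg + 2 ≤
        (w.length + b + 2) + (w.length + b + 2) ^ Cg := by omega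
    refine (Nat.pow_le_pow_left h2 C).trans ((bound_trans (by omega) (le_refl _)).trans ?_)
    exact Nat.pow_le_pow_right (by omega) (by omega)
  · intro ins out base hins hout hne
    obtain ⟨c1, hr1, hrun1⟩ := hgc ins base hins
    obtain ⟨c2, hr2, hrun2⟩ := hcmd (fun i : Fin k => base + i) out (base + k)
      (fun i => by have := i.2; omega) (by omega) (fun i => by omega)
    refine ⟨.seq c1 (.seq c2 (clearBlkC base k)), ⟨hr1.mono (by omega), hr2.mono (by omega), ?_⟩,
      ?_⟩
    · apply regs_seqUpTo
      intro j hj
      refine ⟨?_, ?_⟩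
      · omega
      · simp only [Cmd.RegsBelow]; omega
    · intro w σ b B hb ho h0 hB
      have hB1 : (w.length + b + 2) ^ Cg ≤ B := pow_le_of_le_bound (by omega) (by omega) hB
      have hB2 : (w.length + (w.length + b + 2) ^ Cg + 2) ^ C ≤ B := by
        have h2 : w.length + (w.length + b + 2) ^ Cg + 2 ≤
            (w.length + b + 2) + (w.length + b + 2) ^ Cg := by omega
        refine (Nat.pow_le_pow_left h2 C).trans ((bound_trans (by omega) (le_refl _)).trans ?_)
        exact pow_le_of_le_bound (by omega) (by omega) hB
      set σ1 := setBlk σ base k (vext fun i => g i w (fun j => σ (ins j))) with hσ1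
      have e1 : ∀ i : Fin k, σ1 (base + i) = g i w (fun j => σ (ins j)) := by
        intro i
        rw [hσ1, setBlk_in i.2, vext_val]
      have hr2' := hrun2 w σ1 ((w.length + b + 2) ^ Cg) B
        (fun i => by rw [e1]; have := hgb i w (fun j => σ (ins j)) b hb; omega)
        (by rw [hσ1, setBlk_lt hout, ho])
        (fun r hr => by rw [hσ1, setBlk_ge hr]; exact h0 r (by omega)) hB2
      refine Run.seq (hrun1 w σ b B hb h0 hB1) (Run.seq hr2' ((run_clearBlk w B base k _ 0).to ?_))
      simp only [e1]
      funext r
      by_cases h : base ≤ r ∧ r < base + k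
      · rw [Function.update_of_ne (by omega), h0 r h.1]
        unfold setBlk; rw [if_pos h]
      · have e2 : setBlk (Function.update σ1 out (f w fun i => g i w fun j => σ (ins j))) base k
            (fun _ => 0) r = Function.update σ1 out (f w fun i => g i w fun j => σ (ins j)) r := by
          unfold setBlk; rw [if_neg h]
        rw [e2]
        by_cases h2 : r = out
        · subst h2; rw [Function.update_self, Function.update_self]
        · rw [Function.update_of_ne h2, Function.update_of_ne h2, hσ1]
          unfold setBlk; rw [if_neg h]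

/-! ### Reading the input -/

/-- Move the input head `t` cells to the right and clear `t`. -/
def rightC (t : ℕ) : Cmd α := .whileNZ t (.seq (.dec t) (.inMove .right))

theorem run_right (w : List α) (B t : ℕ) (σ : ℕ → ℕ) (p : ℕ) (hp : p ≤ w.length + 1) :
    Run w B (rightC t) ⟨σ, p⟩ ⟨Function.update σ t 0, min (p + σ t) (w.length + 1)⟩ := by
  have key := run_while w B t (.seq (.dec t) (.inMove .right)) (σ t)
    (fun j => ⟨Function.update σ t (σ t - j), min (p + j) (w.length + 1)⟩)
    (by
      intro j hj
      constructor
      · simp; omega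
      · refine Run.seq (Run.dec t _) ?_
        have h := Run.inMove (w := w) (B := B) .right
          ⟨Function.update (Function.update σ t (σ t - j)) t
            ((Function.update σ t (σ t - j)) t - 1), min (p + j) (w.length + 1)⟩
        refine Eq.mp ?_ h
        congr 2
        · simp only [Function.update_self, Function.update_idem]
          congr 1
        · simp only [moveInput]
          omega)
    (by simp)
  simp only [Nat.sub_zero, Function.update_eq_self, Nat.sub_self, Nat.add_zero,
    Nat.min_eq_left hp] at key
  exact key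

/-- Is this the left end marker? -/
def isLeftEnd : InSym α → Bool
  | .leftEnd => true
  | _ => false

theorem isLeftEnd_zero (w : List α) : isLeftEnd (inputAt w 0) = true := by
  simp [inputAt, isLeftEnd]

theorem isLeftEnd_pos (w : List α) {h : ℕ} (hh : h ≠ 0) : isLeftEnd (inputAt w h) = false := by
  simp only [inputAt, if_neg hh]
  cases w[h - 1]? <;> rfl

/-- Return the input head to position `0`, using the scratch register `t`. -/
def homeC (t : ℕ) : Cmd α :=
  .seq (.inc t) (.whileNZ t (.inCase isLeftEnd (.dec t) (.inMove .left)))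

theorem run_home (w : List α) (B t : ℕ) (σ : ℕ → ℕ) (p : ℕ) (ht : σ t = 0) (hB : 1 < B) :
    Run w B (homeC t) ⟨σ, p⟩ ⟨σ, 0⟩ := by
  refine Run.seq (Run.inc t _ (by simp only [ht]; omega)) ?_
  have key := run_while w B t (.inCase isLeftEnd (.dec t) (.inMove .left)) (p + 1)
    (fun j => if j ≤ p then ⟨Function.update σ t 1, p - j⟩ else ⟨σ, 0⟩)
    (by
      intro j hj
      constructor
      · rw [if_pos (by omega)]; simp
      · rw [if_pos (by omega)]
        by_cases hjp : j = p
        · subst hjp
          rw [if_neg (by omega), Nat.sub_self]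
          refine Run.inTrue (isLeftEnd_zero w) ((Run.dec t _).to ?_)
          funext r
          by_cases h : r = t
          · subst h; simp [ht]
          · simp [Function.update_of_ne h]
        · rw [if_pos (by omega)]
          refine Run.inFalse (isLeftEnd_pos w (by simp only; omega)) ?_
          have h := Run.inMove (w := w) (B := B) .left ⟨Function.update σ t 1, p - j⟩
          refine Eq.mp ?_ h
          congr 2)
    (by simp [ht])
  simp only [Nat.zero_le, if_true, Nat.sub_zero] at key
  rw [if_neg (by omega)] at key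
  simp only [ht, Nat.zero_add]
  exact key

open Classical in
/-- Is this the symbol `a`? -/
noncomputable def isSym (a : α) : InSym α → Bool
  | .sym b => decide (b = a)
  | _ => false

/-- Case distinction on the scanned symbol: add `code a + 1` to `out`. -/
noncomputable def symCaseC (code : α → ℕ) (out : ℕ) : List α → Cmd α
  | [] => .skip
  | a :: l => .inCase (isSym a) (incN out (code a + 1)) (symCaseC code out l)

theorem regs_symCase (code : α → ℕ) (out k : ℕ) (h : out < k) (l : List α) :
    (symCaseC code out l).RegsBelow k := by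
  induction l with
  | nil => trivial
  | cons a l ih =>
    refine ⟨?_, ih⟩
    apply regs_seqUpTo
    intro j hj
    exact h

theorem run_symCase (w : List α) (B : ℕ) (code : α → ℕ) (out : ℕ) (l : List α) (σ : ℕ → ℕ)
    (h : ℕ) (f : ℕ) (hh : h = min (f + 1) (w.length + 1)) (ho : σ out = 0)
    (hB : ∀ a, code a + 1 < B) (hl : ∀ a, w[f]? = some a → a ∈ l) :
    Run w B (symCaseC code out l) ⟨σ, h⟩
      ⟨Function.update σ out ((w[f]?).elim 0 (fun a => code a + 1)), h⟩ := by
  have hin : inputAt w h = (w[f]?).elim .rightEnd (fun a => .sym a) := by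
    by_cases hf : f < w.length
    · have : h = f + 1 := by omega
      subst this
      simp only [inputAt]
      rw [if_neg (by omega), Nat.add_sub_cancel]
      cases w[f]? <;> rfl
    · have : h = w.length + 1 := by omega
      subst this
      simp only [inputAt]
      rw [if_neg (by omega), Nat.add_sub_cancel, List.getElem?_eq_none (by omega),
        List.getElem?_eq_none (by omega)]
      rfl
  induction l with
  | nil =>
    cases hx : w[f]? with
    | none =>
      have : Function.update σ out ((none : Option α).elim 0 (fun a => code a + 1)) = σ := by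
        simp only [Option.elim_none]
        rw [← ho]; exact Function.update_eq_self out σ
      rw [this]
      exact Run.skip _
    | some a => exact absurd (hl a hx) (by simp)
  | cons a l ih =>
    by_cases hc : isSym a (inputAt w h) = true
    · have hx : w[f]? = some a := by
        rw [hin] at hc
        cases hx : w[f]? with
        | none => rw [hx] at hc; simp [isSym] at hc
        | some b => rw [hx] at hc; simp [isSym] at hc; rw [hc]
      refine Run.inTrue hc ((run_incN w B out (code a + 1) σ h ?_).to ?_)
      · have := hB a; omega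
      · rw [hx]; simp [ho]
    · have hc' : isSym a (inputAt w h) = false := by simpa using hc
      refine Run.inFalse hc' (ih ?_)
      intro b hb
      have := hl b hb
      rw [List.mem_cons] at this
      rcases this with rfl | this
      · exfalso
        rw [hin, hb] at hc'
        simp [isSym] at hc'
      · exact this

/-- Reading the input: `0` beyond the end, `code a + 1` for the symbol `a`. -/
theorem LS.symAt [Finite α] (code : α → ℕ) {f : List α → (Fin n → ℕ) → ℕ} (hf : LS f) :
    LS (fun w v => (w[f w v]?).elim 0 (fun a => code a + 1)) := by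
  classical
  obtain ⟨C, K, hbd, hcmd⟩ := hf
  have : Fintype α := Fintype.ofFinite α
  obtain ⟨M, hM⟩ : ∃ M : ℕ, ∀ a, code a ≤ M :=
    ⟨∑ a, code a, fun a => Finset.single_le_sum (fun _ _ => Nat.zero_le _) (Finset.mem_univ a)⟩
  have hpow : ∀ x : ℕ, 2 ≤ x → M + 3 < x ^ (M + 3) := by
    intro x hx
    calc M + 3 < 2 ^ (M + 3) := Nat.lt_two_pow_self
      _ ≤ x ^ (M + 3) := Nat.pow_le_pow_left hx _
  refine ⟨C + (M + 3), K + 1, ?_, ?_⟩
  · intro w v b hv
    change (w[f w v]?).elim 0 (fun a => code a + 1) + 1 < _
    have h1 := hpow (w.length + b + 2) (by omega)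
    have h2 : (w.length + b + 2) ^ (M + 3) ≤ (w.length + b + 2) ^ (C + (M + 3)) :=
      Nat.pow_le_pow_right (by omega) (by omega)
    cases w[f w v]? with
    | none => simp only [Option.elim_none]; omega
    | some a => simp only [Option.elim_some]; have := hM a; omega
  · intro ins out base hins hout hne
    obtain ⟨cmd, hregs, hrun⟩ := hcmd ins base (base + 1) (fun i => by have := hins i; omega)
      (by omega) (fun i => by have := hins i; omega)
    refine ⟨.seq cmd (.seq (rightC base) (.seq (.inMove .right)
      (.seq (symCaseC code out Finset.univ.toList) (homeC base)))), ?_, ?_⟩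
    · refine ⟨hregs.mono (by omega), ⟨?_, ?_, trivial⟩, trivial, regs_symCase _ _ _ (by omega) _,
        ?_, ?_, ?_, trivial⟩ <;> first | omega | (simp only [Cmd.RegsBelow]; omega)
    · intro w σ b B hb ho h0 hB
      have hB1 : (w.length + b + 2) ^ C ≤ B := pow_le_of_le_bound (by omega) (by omega) hB
      have hB2 : (w.length + b + 2) ^ (M + 3) ≤ B := pow_le_of_le_bound (by omega) (by omega) hB
      have h1 := hpow (w.length + b + 2) (by omega)
      set y := f w (fun i => σ (ins i)) with hy
      have r1 := hrun w σ b B hb (h0 base (le_refl _)) (fun r hr => h0 r (by omega)) hB1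
      have r2 := run_right w B base (Function.update σ base y) 0 (by omega)
      have r3 := Run.inMove (w := w) (B := B) .right
        ⟨Function.update (Function.update σ base y) base 0,
          min (0 + (Function.update σ base y) base) (w.length + 1)⟩
      have eσ : Function.update (Function.update σ base y) base 0 = σ := by
        rw [Function.update_idem, ← h0 base (le_refl _)]; exact Function.update_eq_self base σ
      refine Run.seq r1 (Run.seq r2 (Run.seq r3 ?_))
      simp only [eσ, Function.update_self, Nat.zero_add]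
      have r4 := run_symCase w B code out Finset.univ.toList σ
        (moveInput w.length (min y (w.length + 1)) .right) y
        (by simp only [moveInput]; omega) ho
        (fun a => by have := hM a; omega) (fun a _ => by simp)
      refine Run.seq r4 (run_home w B base _ _ ?_ (by omega))
      rw [Function.update_of_ne (by omega)]
      exact h0 base (le_refl _)

/-! ### Bounded iteration -/

/-- The `j`-th iterate of a vector-valued step function with parameters. -/
def iterVec {m : ℕ} (init : Fin m → List α → (Fin n → ℕ) → ℕ)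
    (step : Fin m → List α → (Fin (m + n) → ℕ) → ℕ) (w : List α) (v : Fin n → ℕ) (j : ℕ) :
    Fin m → ℕ :=
  (fun st i => step i w (Fin.append st v))^[j] (fun i => init i w v)

theorem iterVec_succ {m : ℕ} (init : Fin m → List α → (Fin n → ℕ) → ℕ)
    (step : Fin m → List α → (Fin (m + n) → ℕ) → ℕ) (w : List α) (v : Fin n → ℕ) (j : ℕ) :
    iterVec init step w v (j + 1) =
      fun i => step i w (Fin.append (iterVec init step w v j) v) := by
  unfold iterVec
  rw [Function.iterate_succ_apply']

theorem vext_le {k : ℕ} {u : Fin k → ℕ} {M : ℕ} (h : ∀ i, u i ≤ M) (i : ℕ) : vext u i ≤ M := by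
  unfold vext
  split_ifs with hi
  · exact h _
  · exact Nat.zero_le _

/-- Evaluate new values of a block and overwrite the old ones. -/
theorem run_evalMove {k : ℕ} (w : List α) (B o : ℕ) (cmd : Cmd α) (τ : ℕ → ℕ) (u : Fin k → ℕ)
    (h0 : ∀ r, o + k ≤ r → τ r = 0)
    (hrun : Run w B cmd ⟨τ, 0⟩ ⟨setBlk τ (o + k) k (vext u), 0⟩) (hu : ∀ i, u i < B) (hB : 0 < B) :
    Run w B (.seq cmd (moveBlkC (o + k) o k)) ⟨τ, 0⟩ ⟨setBlk τ o k (vext u), 0⟩ := by
  refine Run.seq hrun ((run_moveBlk w B (o + k) o k (le_refl _) _ 0 ?_).to ?_)
  · intro i hi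
    rw [setBlk_in hi]
    exact lt_of_le_of_lt (vext_le (M := B - 1) (fun i => by have := hu i; omega) i) (by omega)
  · rw [setBlk_clear _ _ _ _ h0]
    funext r
    unfold setBlk
    by_cases h : o ≤ r ∧ r < o + k
    · rw [if_pos h, if_pos h]
      beta_reduce
      rw [if_pos (by omega)]
      congr 1; omega
    · rw [if_neg h, if_neg h]

theorem LS.iterate {m : ℕ} {init : Fin m → List α → (Fin n → ℕ) → ℕ}
    {step : Fin m → List α → (Fin (m + n) → ℕ) → ℕ} {cnt : List α → (Fin n → ℕ) → ℕ}
    (hinit : ∀ i, LS (init i)) (hstep : ∀ i, LS (step i)) (hcnt : LS cnt)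
    (hb : ∃ C : ℕ, ∀ w v b, (∀ i, v i ≤ b) → ∀ j ≤ cnt w v, ∀ i,
      iterVec init step w v j i ≤ (w.length + b + 2) ^ C) (out : Fin m) :
    LS (fun w v => iterVec init step w v (cnt w v) out) := by
  obtain ⟨Ci, Ki, hib, hic⟩ := evalBlk hinit
  obtain ⟨Cs, Ks, hsb, hsc⟩ := evalBlk hstep
  obtain ⟨Cc, Kc, hcb, hcc⟩ := hcnt
  obtain ⟨Cb, hbb⟩ := hb
  have hbig : ∀ x : ℕ, 2 ≤ x → x ^ Cb + 1 < x ^ (Cb + 2) := by
    intro x hx
    have h1 : 1 ≤ x ^ Cb := Nat.one_le_pow _ _ (by omega)
    have h2 : x ^ Cb * 4 ≤ x ^ (Cb + 2) := by
      rw [pow_add]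
      refine Nat.mul_le_mul_left _ ?_
      nlinarith
    omega
  refine ⟨Cc + Ci + (Cb + 3) * Cs + (Cb + 2), 1 + m + m + Kc + Ki + Ks, ?_, ?_⟩
  · intro w v b hv
    have h1 := hbb w v b hv (cnt w v) (le_refl _) out
    have h2 := hbig (w.length + b + 2) (by omega)
    have h3 : (w.length + b + 2) ^ (Cb + 2) ≤
        (w.length + b + 2) ^ (Cc + Ci + (Cb + 3) * Cs + (Cb + 2)) :=
      Nat.pow_le_pow_right (by omega) (by omega)
    change iterVec init step w v (cnt w v) out + 1 < _
    omega
  · intro ins outr base hins hout hne
    obtain ⟨c1, hr1, hrun1⟩ := hcc ins base (base + 1) (fun i => by have := hins i; omega)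
      (by omega) (fun i => by have := hins i; omega)
    obtain ⟨c2, hr2, hrun2⟩ := hic ins (base + 1) (fun i => by have := hins i; omega)
    have hins' : ∀ i : Fin (m + n),
        (Fin.append (fun i : Fin m => base + 1 + (i : ℕ)) ins : Fin (m + n) → ℕ) i <
          base + 1 + m := by
      intro i
      refine Fin.addCases (fun i => ?_) (fun i => ?_) i
      · rw [Fin.append_left]; have := i.2; omega
      · rw [Fin.append_right]; have := hins i; omega
    obtain ⟨c3, hr3, hrun3⟩ := hsc (Fin.append (fun i : Fin m => base + 1 + (i : ℕ)) ins)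
      (base + 1 + m) hins'
    refine ⟨.seq c1 (.seq c2 (.seq
      (.whileNZ base (.seq (.seq c3 (moveBlkC (base + 1 + m) (base + 1) m)) (.dec base)))
      (.seq (addC (base + 1 + out) outr) (clearBlkC (base + 1) m)))), ?_, ?_⟩
    · refine ⟨hr1.mono (by omega), hr2.mono (by omega), ⟨by omega, ⟨hr3.mono (by omega), ?_⟩, ?_⟩,
        ⟨?_, ?_, ?_⟩, ?_⟩
      · apply regs_seqUpTo
        intro j hj
        refine ⟨⟨?_, ?_⟩, ?_, ?_, ?_⟩ <;> first | omega | (simp only [Cmd.RegsBelow]; omega)
      · simp only [Cmd.RegsBelow]; omega
      · have := out.2; omega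
      · have := out.2; simp only [Cmd.RegsBelow]; omega
      · simp only [Cmd.RegsBelow]; omega
      · apply regs_seqUpTo
        intro j hj
        refine ⟨?_, ?_⟩ <;> first | omega | (simp only [Cmd.RegsBelow]; omega)
    · intro w σ b B hb ho h0 hB
      have hB1 : (w.length + b + 2) ^ Cc ≤ B := pow_le_of_le_bound (by omega) (by omega) hB
      have hB2 : (w.length + b + 2) ^ Ci ≤ B := pow_le_of_le_bound (by omega) (by omega) hB
      have hB4 : (w.length + b + 2) ^ (Cb + 2) ≤ B :=
        pow_le_of_le_bound (by omega) (by omega) hB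
      have hB3 : (w.length + (w.length + b + 2) ^ (Cb + 1) + 2) ^ Cs ≤ B := by
        have h2 : w.length + (w.length + b + 2) ^ (Cb + 1) + 2 ≤
            (w.length + b + 2) + (w.length + b + 2) ^ (Cb + 1) := by omega
        refine (Nat.pow_le_pow_left h2 Cs).trans ((bound_trans (by omega) (le_refl _)).trans ?_)
        have hmul : (Cb + 1 + 2) * Cs = (Cb + 3) * Cs := rfl
        exact pow_le_of_le_bound (by omega) (by rw [hmul]; omega) hB
      have hbg := hbig (w.length + b + 2) (by omega)
      have hbB : b ≤ (w.length + b + 2) ^ (Cb + 1) := by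
        calc b ≤ (w.length + b + 2) ^ 1 := by rw [pow_one]; omega
          _ ≤ (w.length + b + 2) ^ (Cb + 1) := Nat.pow_le_pow_right (by omega) (by omega)
      have hCb1 : (w.length + b + 2) ^ Cb ≤ (w.length + b + 2) ^ (Cb + 1) :=
        Nat.pow_le_pow_right (by omega) (by omega)
      set v : Fin n → ℕ := fun i => σ (ins i) with hv
      set N := cnt w v with hN
      have hval : ∀ j ≤ N, ∀ i, iterVec init step w v j i ≤ (w.length + b + 2) ^ Cb :=
        fun j hj i => hbb w v b hb j hj i
      -- the states
      let S : ℕ → CState := fun j =>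
        ⟨setBlk (Function.update σ base (N - j)) (base + 1) m
          (vext (iterVec init step w v j)), 0⟩
      have r1 := hrun1 w σ b B hb (h0 base (le_refl _)) (fun r hr => h0 r (by omega)) hB1
      have r2 : Run w B c2 ⟨Function.update σ base N, 0⟩ (S 0) := by
        have e1 : ∀ i, Function.update σ base N (ins i) = σ (ins i) := fun i =>
          Function.update_of_ne (by have := hins i; omega) _ _
        have := hrun2 w (Function.update σ base N) b B (fun i => by rw [e1]; exact hb i)
          (fun r hr => by rw [Function.update_of_ne (by omega)]; exact h0 r (by omega)) hB2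
        refine this.to ?_
        simp only [e1, Nat.sub_zero]
        rfl
      have r3 : Run w B (.whileNZ base (.seq (.seq c3 (moveBlkC (base + 1 + m) (base + 1) m))
          (.dec base))) (S 0) (S N) := by
        apply run_while
        · intro j hj
          have hbase : (S j).reg base = N - j := by
            change setBlk _ _ _ _ base = _
            rw [setBlk_lt (by omega), Function.update_self]
          refine ⟨by rw [hbase]; omega, ?_⟩
          have harg : (fun t => (S j).reg
              ((Fin.append (fun i : Fin m => base + 1 + (i : ℕ)) ins : Fin (m + n) → ℕ) t)) =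
              Fin.append (iterVec init step w v j) v := by
            funext t
            refine Fin.addCases (fun i => ?_) (fun i => ?_) t
            · rw [Fin.append_left, Fin.append_left]
              change setBlk _ _ _ _ _ = _
              rw [setBlk_in i.2, vext_val]
            · rw [Fin.append_right, Fin.append_right]
              change setBlk _ _ _ _ _ = _
              have := hins i
              rw [setBlk_lt (by omega), Function.update_of_ne (by omega)]
          have hzero : ∀ r, base + 1 + m ≤ r → (S j).reg r = 0 := by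
            intro r hr
            change setBlk _ _ _ _ _ = _
            rw [setBlk_ge (by omega), Function.update_of_ne (by omega)]
            exact h0 r (by omega)
          have hle : ∀ t, (S j).reg
              ((Fin.append (fun i : Fin m => base + 1 + (i : ℕ)) ins : Fin (m + n) → ℕ) t) ≤
              (w.length + b + 2) ^ (Cb + 1) := by
            intro t
            have := congrFun harg t
            rw [show (S j).reg ((Fin.append (fun i : Fin m => base + 1 + (i : ℕ)) ins :
              Fin (m + n) → ℕ) t) = Fin.append (iterVec init step w v j) v t from this]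
            refine Fin.addCases (fun i => ?_) (fun i => ?_) t
            · rw [Fin.append_left]; exact (hval j (by omega) i).trans hCb1
            · rw [Fin.append_right]; exact (hb i).trans hbB
          have q1 := hrun3 w (S j).reg ((w.length + b + 2) ^ (Cb + 1)) B hle hzero hB3
          have q1' : Run w B c3 ⟨(S j).reg, 0⟩ ⟨setBlk (S j).reg (base + 1 + m) m
              (vext (iterVec init step w v (j + 1))), 0⟩ := by
            rw [iterVec_succ]
            rw [harg] at q1
            exact q1
          have q2 := run_evalMove w B (base + 1) c3 (S j).reg (iterVec init step w v (j + 1))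
            hzero q1' (fun i => by have := hval (j + 1) (by omega) i; omega) (by omega)
          refine Run.seq q2 ((Run.dec base _).to ?_)
          simp only
          rw [setBlk_lt (by omega), hbase]
          funext r
          by_cases h : r = base
          · subst h
            rw [Function.update_self, setBlk_lt (by omega), Function.update_self]
            omega
          · rw [Function.update_of_ne h]
            unfold setBlk
            by_cases h2 : base + 1 ≤ r ∧ r < base + 1 + m
            · rw [if_pos h2, if_pos h2]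
            · rw [if_neg h2, if_neg h2, Function.update_of_ne h]
              change setBlk _ _ _ _ r = _
              unfold setBlk
              rw [if_neg h2, Function.update_of_ne h]
        · change setBlk _ _ _ _ base = _
          rw [setBlk_lt (by omega), Function.update_self, Nat.sub_self]
      refine Run.seq r1 (Run.seq r2 (Run.seq r3 ?_))
      have hso : (S N).reg outr = 0 := by
        change setBlk _ _ _ _ _ = _
        rw [setBlk_lt (by omega), Function.update_of_ne (by omega)]
        exact ho
      have hsv : (S N).reg (base + 1 + out) = iterVec init step w v N out := by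
        change setBlk _ _ _ _ _ = _
        rw [setBlk_in out.2, vext_val]
      have q3 := run_add w B (base + 1 + out) outr (by omega) (S N).reg 0
        (by rw [hso, hsv]; have := hval N (le_refl _) out; omega)
      refine Run.seq q3 ((run_clearBlk w B (base + 1) m _ 0).to ?_)
      rw [hso, hsv, Nat.zero_add]
      funext r
      by_cases h : base + 1 ≤ r ∧ r < base + 1 + m
      · rw [Function.update_of_ne (by omega), h0 r (by omega)]
        unfold setBlk; rw [if_pos h]
      · unfold setBlk
        rw [if_neg h]
        by_cases h2 : r = outr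
        · subst h2; rw [Function.update_self, Function.update_self]
        · have := out.2
          rw [Function.update_of_ne h2, Function.update_of_ne h2,
            Function.update_of_ne (by omega)]
          change setBlk _ _ _ _ r = _
          unfold setBlk
          rw [if_neg h]
          by_cases h3 : r = base
          · subst h3; rw [Function.update_self, Nat.sub_self, h0 r (le_refl _)]
          · rw [Function.update_of_ne h3]

/-! ### The main loop of a machine -/

/-- If register `2` is nonzero, clear register `1` (scratch registers `t`, `t + 1`). -/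
def checkC (t : ℕ) : Cmd α :=
  .seq (copyC 2 t (t + 1)) (.whileNZ t (.seq (clearC t) (clearC 1)))

theorem run_check (w : List α) (B t : ℕ) (ht : 2 < t) (τ : ℕ → ℕ) (h0 : τ t = 0)
    (h1 : τ (t + 1) = 0) (hB : τ 2 < B) :
    Run w B (checkC t) ⟨τ, 0⟩ ⟨if τ 2 = 0 then τ else Function.update τ 1 0, 0⟩ := by
  refine Run.seq (run_copy w B 2 t (t + 1) (by omega) (by omega) (by omega) τ 0 h1
    (by omega)) ?_
  rw [h0, Nat.zero_add]
  by_cases h : τ 2 = 0
  · rw [if_pos h, h]
    have : Function.update τ t 0 = τ := by rw [← h0]; exact Function.update_eq_self t τ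
    rw [this]
    exact Run.whileDone h0
  · rw [if_neg h]
    refine Run.whileStep (by simp only [Function.update_self]; exact h)
      (Run.seq (run_clear w B t _ 0) (run_clear w B 1 _ 0)) ((Run.whileDone ?_).to ?_)
    · simp only
      rw [Function.update_of_ne (by omega), Function.update_self]
    · rw [Function.update_idem]
      funext r
      by_cases h1 : r = 1
      · subst h1; rw [Function.update_self, Function.update_self]
      · rw [Function.update_of_ne h1, Function.update_of_ne h1]
        by_cases h2 : r = t
        · subst h2; rw [Function.update_self, h0]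
        · rw [Function.update_of_ne h2]

theorem exists_cmd_of_LS {m : ℕ} (f : Fin (m + 1) → List α → (Fin (m + 1) → ℕ) → ℕ)
    (hf : ∀ i, LS (f i)) :
    ∃ (cmd : Cmd α) (k C : ℕ), cmd.RegsBelow k ∧ ∀ (w : List α) (N B : ℕ),
      (∀ j < N, (fun v i => f i w v)^[j] (fun _ => 0) 0 = 0) →
      ((fun v i => f i w v)^[N] (fun _ => 0) 0 ≠ 0) →
      (∀ j ≤ N, ∀ i, (fun v i => f i w v)^[j] (fun _ => 0) i ≤ B) →
      ∃ s', Run w ((w.length + B + 2) ^ C) cmd ⟨fun _ => 0, 0⟩ s' ∧
        ((fun v i => f i w v)^[N] (fun _ => 0) 0 = 1 → s'.reg 0 ≠ 0) ∧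
        ((fun v i => f i w v)^[N] (fun _ => 0) 0 ≠ 1 → s'.reg 0 = 0) := by
  obtain ⟨Cf, Kf, hfb, hfc⟩ := evalBlk hf
  obtain ⟨c1, hr1, hrun1⟩ := hfc (fun i : Fin (m + 1) => 2 + (i : ℕ)) (2 + (m + 1))
    (fun i => by have := i.2; omega)
  refine ⟨.seq (.inc 1) (.seq
    (.whileNZ 1 (.seq (.seq c1 (moveBlkC (2 + (m + 1)) 2 (m + 1))) (checkC (2 + (m + 1)))))
    (.seq (.inc 0) (.seq (.dec 2) (.whileNZ 2 (.seq (clearC 2) (clearC 0)))))),
    2 + (m + 1) + (m + 1) + Kf + 2, Cf + 2, ?_, ?_⟩
  · refine ⟨?_, ⟨?_, ⟨hr1.mono (by omega), ?_⟩, ⟨⟨?_, ?_, ?_, ?_⟩, ?_, ?_, ?_⟩, ?_, ⟨?_, ?_⟩,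
      ?_, ?_⟩, ?_, ?_, ?_, ⟨?_, ?_⟩, ?_, ?_⟩ <;>
      first
        | omega
        | (simp only [Cmd.RegsBelow]; omega)
        | skip
    apply regs_seqUpTo
    intro j hj
    refine ⟨⟨?_, ?_⟩, ?_, ?_, ?_⟩ <;> first | omega | (simp only [Cmd.RegsBelow]; omega)
  · intro w N B hlt hne hB
    set F : (Fin (m + 1) → ℕ) → (Fin (m + 1) → ℕ) := fun v i => f i w v with hF
    set BB := (w.length + B + 2) ^ (Cf + 2) with hBB
    have hBf : (w.length + B + 2) ^ Cf ≤ BB := Nat.pow_le_pow_right (by omega) (by omega)
    have hBbig : B + 2 ≤ BB := by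
      have h1 : (w.length + B + 2) ^ 1 ≤ BB := Nat.pow_le_pow_right (by omega) (by omega)
      rw [pow_one] at h1
      omega
    have hN : 0 < N := by
      rcases Nat.eq_zero_or_pos N with h | h
      · subst h; exact absurd rfl hne
      · exact h
    let S : ℕ → CState := fun j =>
      ⟨setBlk (Function.update (fun _ => 0) 1 (if j < N then 1 else 0)) 2 (m + 1)
        (vext (F^[j] (fun _ => 0))), 0⟩
    have hSreg : ∀ j, (S j).reg = setBlk (Function.update (fun _ => 0) 1 (if j < N then 1 else 0))
        2 (m + 1) (vext (F^[j] (fun _ => 0))) := fun j => rfl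
    have hS0 : (⟨Function.update (fun _ => 0) 1 1, 0⟩ : CState) = S 0 := by
      simp only [S, hN, if_true, Function.iterate_zero, id_eq]
      congr 1
      funext r
      unfold setBlk vext
      by_cases h : 2 ≤ r ∧ r < 2 + (m + 1)
      · rw [if_pos h, Function.update_of_ne (by omega)]
        split_ifs <;> rfl
      · rw [if_neg h]
    have r1 : Run w BB (.inc 1) ⟨fun _ => 0, 0⟩ (S 0) := by
      rw [← hS0]
      exact Run.inc 1 _ (by simp only; omega)
    have r2 : Run w BB (.whileNZ 1 (.seq (.seq c1 (moveBlkC (2 + (m + 1)) 2 (m + 1)))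
        (checkC (2 + (m + 1))))) (S 0) (S N) := by
      apply run_while
      · intro j hj
        refine ⟨?_, ?_⟩
        · rw [hSreg, setBlk_lt (by omega), Function.update_self, if_pos hj]
          omega
        · have harg : (fun t : Fin (m + 1) => (S j).reg (2 + (t : ℕ))) = F^[j] (fun _ => 0) := by
            funext t
            change setBlk _ _ _ _ _ = _
            rw [setBlk_in t.2, vext_val]
          have hzero : ∀ r, 2 + (m + 1) ≤ r → (S j).reg r = 0 := by
            intro r hr
            change setBlk _ _ _ _ _ = _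
            rw [setBlk_ge (by omega), Function.update_of_ne (by omega)]
          have q1 := hrun1 w (S j).reg B BB
            (fun t => by
              have := congrFun harg t
              rw [show (S j).reg (2 + (t : ℕ)) = _ from this]
              exact hB j (by omega) t)
            hzero hBf
          have q1' : Run w BB c1 ⟨(S j).reg, 0⟩ ⟨setBlk (S j).reg (2 + (m + 1)) (m + 1)
              (vext (F^[j + 1] (fun _ => 0))), 0⟩ := by
            rw [Function.iterate_succ_apply']
            rw [harg] at q1
            exact q1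
          have q2 := run_evalMove w BB 2 c1 (S j).reg (F^[j + 1] (fun _ => 0))
            hzero q1' (fun i => by have := hB (j + 1) (by omega) i; omega) (by omega)
          have hv2 : setBlk (S j).reg 2 (m + 1) (vext (F^[j + 1] (fun _ => 0))) 2 =
              F^[j + 1] (fun _ => 0) 0 := by
            have := setBlk_in (σ := (S j).reg) (o := 2) (k := m + 1)
              (u := vext (F^[j + 1] (fun _ => 0))) (i := 0) (by omega)
            rw [show (2 : ℕ) + 0 = 2 from rfl] at this
            rw [this]
            exact vext_val _ (0 : Fin (m + 1))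
          have q3 := run_check w BB (2 + (m + 1)) (by omega)
            (setBlk (S j).reg 2 (m + 1) (vext (F^[j + 1] (fun _ => 0))))
            (by rw [setBlk_ge (by omega)]; exact hzero _ (by omega))
            (by rw [setBlk_ge (by omega)]; exact hzero _ (by omega))
            (by rw [hv2]; have := hB (j + 1) (by omega) 0; omega)
          refine Run.seq q2 (q3.to ?_)
          have hset : ∀ x : ℕ, setBlk (Function.update (S j).reg 1 x) 2 (m + 1)
              (vext (F^[j + 1] (fun _ => 0))) =
              setBlk (Function.update (fun _ => 0) 1 x) 2 (m + 1)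
                (vext (F^[j + 1] (fun _ => 0))) := by
            intro x
            funext r
            unfold setBlk
            by_cases h : 2 ≤ r ∧ r < 2 + (m + 1)
            · rw [if_pos h, if_pos h]
            · rw [if_neg h, if_neg h]
              by_cases h1 : r = 1
              · subst h1; rw [Function.update_self, Function.update_self]
              · rw [Function.update_of_ne h1, Function.update_of_ne h1]
                change setBlk _ _ _ _ r = _
                unfold setBlk
                rw [if_neg h, Function.update_of_ne h1]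
          by_cases hj1 : j + 1 < N
          · rw [if_pos (by rw [hv2]; exact hlt (j + 1) hj1)]
            change _ = setBlk (Function.update (fun _ => 0) 1 (if j + 1 < N then 1 else 0)) 2
              (m + 1) (vext (F^[j + 1] (fun _ => 0)))
            rw [if_pos hj1, ← hset 1]
            congr 1
            have : (S j).reg 1 = 1 := by
              rw [hSreg, setBlk_lt (by omega), Function.update_self, if_pos hj]
            have e := Function.update_eq_self 1 (S j).reg
            rw [this] at e
            exact e.symm
          · have hjN : j + 1 = N := by omega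
            rw [if_neg (by rw [hv2, hjN]; exact hne)]
            change _ = setBlk (Function.update (fun _ => 0) 1 (if j + 1 < N then 1 else 0)) 2
              (m + 1) (vext (F^[j + 1] (fun _ => 0)))
            rw [if_neg hj1, ← hset 0]
            funext r
            by_cases h1 : r = 1
            · subst h1
              rw [Function.update_self, setBlk_lt (by omega), Function.update_self]
            · rw [Function.update_of_ne h1]
              unfold setBlk
              by_cases h : 2 ≤ r ∧ r < 2 + (m + 1)
              · rw [if_pos h, if_pos h]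
              · rw [if_neg h, if_neg h, Function.update_of_ne h1]
      · rw [hSreg, setBlk_lt (by omega), Function.update_self, if_neg (by omega)]
    have hS2 : (S N).reg 2 = F^[N] (fun _ => 0) 0 := by
      change setBlk _ _ _ _ _ = _
      have := setBlk_in (σ := Function.update (fun _ => 0) 1 (if N < N then 1 else 0)) (o := 2)
        (k := m + 1) (u := vext (F^[N] (fun _ => 0))) (i := 0) (by omega)
      rw [show (2 : ℕ) + 0 = 2 from rfl] at this
      rw [this]
      exact vext_val _ (0 : Fin (m + 1))
    have hS00 : (S N).reg 0 = 0 := by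
      rw [hSreg, setBlk_lt (by omega), Function.update_of_ne (by omega)]
    have r3 := Run.inc (w := w) (B := BB) 0 (S N) (by rw [hS00]; omega)
    have r4 := Run.dec (w := w) (B := BB) 2
      ⟨Function.update (S N).reg 0 ((S N).reg 0 + 1), (S N).inp⟩
    set τ : ℕ → ℕ := Function.update (Function.update (S N).reg 0 ((S N).reg 0 + 1)) 2
      ((Function.update (S N).reg 0 ((S N).reg 0 + 1)) 2 - 1) with hτ
    have hτ2 : τ 2 = F^[N] (fun _ => 0) 0 - 1 := by
      rw [hτ, Function.update_self, Function.update_of_ne (by omega), hS2]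
    have hτ0 : τ 0 = 1 := by
      rw [hτ, Function.update_of_ne (by omega), Function.update_self, hS00]
    by_cases h1 : F^[N] (fun _ => 0) 0 = 1
    · refine ⟨⟨τ, 0⟩, Run.seq r1 (Run.seq r2 (Run.seq r3 (Run.seq r4 (Run.whileDone ?_)))), ?_,
        ?_⟩
      · change τ 2 = 0
        rw [hτ2, h1]
      · intro _
        change τ 0 ≠ 0
        rw [hτ0]; omega
      · intro h; exact absurd h1 h
    · refine ⟨⟨Function.update (Function.update τ 2 0) 0 0, 0⟩,
        Run.seq r1 (Run.seq r2 (Run.seq r3 (Run.seq r4
          (Run.whileStep ?_ (Run.seq (run_clear w BB 2 _ 0) (run_clear w BB 0 _ 0))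
            (Run.whileDone ?_))))), ?_, ?_⟩
      · change τ 2 ≠ 0
        rw [hτ2]
        omega
      · simp only
        rw [Function.update_of_ne (by omega), Function.update_self]
      · intro h; exact absurd h h1
      · intro _
        simp only [Function.update_self]

theorem log_pow_le (x C : ℕ) : Nat.log 2 (x ^ C) ≤ C * (Nat.log 2 x + 1) := by
  have h1 : x < 2 ^ (Nat.log 2 x + 1) := Nat.lt_pow_succ_log_self (by omega) x
  have h2 : x ^ C ≤ 2 ^ (C * (Nat.log 2 x + 1)) := by
    calc x ^ C ≤ (2 ^ (Nat.log 2 x + 1)) ^ C := Nat.pow_le_pow_left h1.le C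
      _ = 2 ^ (C * (Nat.log 2 x + 1)) := by rw [← pow_mul, Nat.mul_comm]
  calc Nat.log 2 (x ^ C) ≤ Nat.log 2 (2 ^ (C * (Nat.log 2 x + 1))) := Nat.log_mono_right h2
    _ = C * (Nat.log 2 x + 1) := Nat.log_pow (by omega) _

/-- The final theorem of package B, relative to the compilation theorem `hA` (`mem_SPACE_of_run`):
a machine whose configurations are vectors of natural numbers and whose transition function is
componentwise `LS` decides its language in space `O(log (largest number occurring) + log n)`.
Component `0` is the status: `0` running, `1` accept, `2` reject. -/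
theorem mem_SPACE_of_LS_of_compile {m : ℕ} (L : Set (List α)) (s : ℕ → ℝ) (hs : ∀ n, 0 ≤ s n)
    (hA : ∀ (cmd : Cmd α) (k : ℕ), cmd.RegsBelow k →
      (∃ C : ℝ, ∀ w : List α, ∃ (B : ℕ) (s' : CState), Run w B cmd ⟨fun _ => 0, 0⟩ s' ∧
        ((w ∈ L ∧ s'.reg 0 ≠ 0) ∨ (w ∉ L ∧ s'.reg 0 = 0)) ∧
        (Nat.log 2 B : ℝ) ≤ C * (s w.length + 1)) → L ∈ SPACE s)
    (f : Fin (m + 1) → List α → (Fin (m + 1) → ℕ) → ℕ) (hf : ∀ i, LS (f i))
    (hrun : ∃ C : ℝ, ∀ w : List α, ∃ N B : ℕ,
      (∀ j < N, (fun v i => f i w v)^[j] (fun _ => 0) 0 = 0) ∧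
      ((w ∈ L ∧ (fun v i => f i w v)^[N] (fun _ => 0) 0 = 1) ∨
        (w ∉ L ∧ (fun v i => f i w v)^[N] (fun _ => 0) 0 = 2)) ∧
      (∀ j ≤ N, ∀ i, (fun v i => f i w v)^[j] (fun _ => 0) i ≤ B) ∧
      (Nat.log 2 (w.length + B + 2) : ℝ) ≤ C * (s w.length + 1)) :
    L ∈ SPACE s := by
  obtain ⟨cmd, k, D, hk, hcmd⟩ := exists_cmd_of_LS f hf
  obtain ⟨C, hC⟩ := hrun
  refine hA cmd k hk ⟨D * (C + 1), ?_⟩
  intro w
  obtain ⟨N, B, h1, h2, h3, h4⟩ := hC w
  obtain ⟨s', hs1, hs2, hs3⟩ := hcmd w N B h1
    (by rcases h2 with ⟨_, h⟩ | ⟨_, h⟩ <;> rw [h] <;> omega) h3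
  refine ⟨(w.length + B + 2) ^ D, s', hs1, ?_, ?_⟩
  · rcases h2 with ⟨hw, h⟩ | ⟨hw, h⟩
    · exact Or.inl ⟨hw, hs2 h⟩
    · exact Or.inr ⟨hw, hs3 (by rw [h]; omega)⟩
  · have h5 : (Nat.log 2 ((w.length + B + 2) ^ D) : ℝ) ≤
        D * ((Nat.log 2 (w.length + B + 2) : ℝ) + 1) := by
      exact_mod_cast log_pow_le (w.length + B + 2) D
    have h6 := hs w.length
    calc (Nat.log 2 ((w.length + B + 2) ^ D) : ℝ)
        ≤ D * ((Nat.log 2 (w.length + B + 2) : ℝ) + 1) := h5
      _ ≤ D * (C * (s w.length + 1) + 1) := by gcongr
      _ ≤ D * (C * (s w.length + 1) + (s w.length + 1)) := by gcongr; linarith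
      _ = D * (C + 1) * (s w.length + 1) := by ring

end Vale.Agent.P312
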