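import Mathlib

/-!
# P312: the catalytic evaluator (definitions)

An abstract system of rules for evaluating nodes (coded by natural numbers) with values `< 2 ^ W`,
three register blocks of `W` elements of `ZMod p`, and the small-step evaluator with an explicit
stack.
-/

namespace Vale.Agent.P312.Cat

open Finset

/-- Evaluation rules.  A leaf `v` has the value `lval v`.  The value of a non-leaf `v` is the
(disjoint) sum of `cp v` times the value of `al v` and of the numbers `out v g` (`g < G v`) for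
which all the checks `chi v g i (value of al v) (value of be v g i)`, `i < n v`, are `1`. -/
structure Rules where
  p : ℕ
  W : ℕ
  leaf : ℕ → Bool
  lval : ℕ → ℕ
  al : ℕ → ℕ
  cp : ℕ → ℕ
  G : ℕ → ℕ
  n : ℕ → ℕ
  be : ℕ → ℕ → ℕ → ℕ
  chi : ℕ → ℕ → ℕ → ℕ → ℕ → ℕ
  out : ℕ → ℕ → ℕ

variable (R : Rules)

/-- Bit `j` of `y`. -/
def bit (y j : ℕ) : ℕ := y / 2 ^ j % 2

/-- Memory: three blocks of `W` registers with values in `ZMod p`. -/
abbrev Mem (R : Rules) := Fin 3 → Fin R.W → ZMod R.p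

/-- Add `c` times the bits of `y` to block `t`. -/
def addBits (M : Mem R) (t : Fin 3) (c : ZMod R.p) (y : ℕ) : Mem R :=
  fun t' j => if t' = t then M t' j + c * (bit y j : ZMod R.p) else M t' j

/-- `∏_j (z_j if bit j of a is 1, 1 - z_j otherwise)`. -/
def delta (a : ℕ) (z : Fin R.W → ZMod R.p) : ZMod R.p :=
  ∏ j : Fin R.W, if bit a j = 1 then z j else 1 - z j

/-- The multilinear extension of the check `chi v g i`. -/
def chiHat (v g i : ℕ) (zA zB : Fin R.W → ZMod R.p) : ZMod R.p :=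
  ∑ a ∈ range (2 ^ R.W), ∑ x ∈ range (2 ^ R.W), (R.chi v g i a x : ZMod R.p) *
    delta R a zA * delta R x zB

/-- Stack frames.  `ret` is the return address (`1`, `4`, `5` or `6`). -/
structure Frame where
  ret : ℕ
  v : ℕ
  c : ℕ
  t : ℕ
  lam : ℕ
  g : ℕ
  i : ℕ
  acc : ℕ

/-- States of the evaluator. -/
structure St (R : Rules) where
  pc : ℕ
  v : ℕ
  c : ℕ
  t : ℕ
  lam : ℕ
  g : ℕ
  i : ℕ
  acc : ℕ
  stk : List Frame
  mem : Mem R

/-- The block index `t` (mod 3). -/
def blk (t : ℕ) : Fin 3 := ⟨t % 3, Nat.mod_lt _ (by norm_num)⟩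

/-- Inverse modulo `p`. -/
def inv (p lam : ℕ) : ℕ := lam ^ (p - 2) % p

/-- Negation modulo `p`. -/
def neg (p c : ℕ) : ℕ := (p - c % p) % p

/-- One step of the evaluator.  Program counters: `0` enter node, `1` block `A = t+1` loaded,
`2` loop over `g`, `3` loop over `i`, `4` block `B = t+2` loaded, `5` block `A` unloaded,
`6` block `B` unloaded, `7` return. -/
def step (s : St R) : St R :=
  match s.pc with
  | 0 =>
    if R.leaf s.v then
      { s with pc := 7, mem := addBits R s.mem (blk s.t) s.c (R.lval s.v) }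
    else
      { s with
        pc := 0, v := R.al s.v, c := inv R.p 1, t := (s.t + 1) % 3,
        lam := 0, g := 0, i := 0, acc := 0
        stk := ⟨1, s.v, s.c, s.t, 1, 0, 0, 0⟩ :: s.stk }
  | 1 =>
    { s with
      pc := 2, g := 0
      mem := fun t' j => if t' = blk s.t then
        s.mem t' j - (s.c : ZMod R.p) * R.cp s.v * (s.lam * s.mem (blk (s.t + 1)) j)
        else s.mem t' j }
  | 2 =>
    if s.g < R.G s.v then { s with pc := 3, i := 0, acc := neg R.p s.c }
    else
      { s with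
        pc := 0, v := R.al s.v, c := neg R.p (inv R.p s.lam), t := (s.t + 1) % 3,
        lam := 0, g := 0, i := 0, acc := 0
        stk := ⟨5, s.v, s.c, s.t, s.lam, 0, 0, 0⟩ :: s.stk }
  | 3 =>
    if s.i < R.n s.v then
      { s with
        pc := 0, v := R.be s.v s.g s.i, c := inv R.p s.lam, t := (s.t + 2) % 3,
        lam := 0, g := 0, i := 0, acc := 0
        stk := ⟨4, s.v, s.c, s.t, s.lam, s.g, s.i, s.acc⟩ :: s.stk }
    else
      { s with
        pc := 2, g := s.g + 1
        mem := addBits R s.mem (blk s.t) s.acc (R.out s.v s.g) }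
  | 4 =>
    let acc' := ((s.acc : ZMod R.p) * chiHat R s.v s.g s.i
      (fun j => s.lam * s.mem (blk (s.t + 1)) j) (fun j => s.lam * s.mem (blk (s.t + 2)) j)).val
    { s with
      pc := 0, v := R.be s.v s.g s.i, c := neg R.p (inv R.p s.lam), t := (s.t + 2) % 3,
      lam := 0, g := 0, i := 0, acc := 0
      stk := ⟨6, s.v, s.c, s.t, s.lam, s.g, s.i, acc'⟩ :: s.stk }
  | 5 =>
    if s.lam + 1 < R.p then
      { s with
        pc := 0, v := R.al s.v, c := inv R.p (s.lam + 1), t := (s.t + 1) % 3,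
        lam := 0, g := 0, i := 0, acc := 0
        stk := ⟨1, s.v, s.c, s.t, s.lam + 1, 0, 0, 0⟩ :: s.stk }
    else { s with pc := 7 }
  | 6 => { s with pc := 3, i := s.i + 1 }
  | 7 =>
    match s.stk with
    | [] => s
    | f :: rest => ⟨f.ret, f.v, f.c, f.t, f.lam, f.g, f.i, f.acc, rest, s.mem⟩
  | _ => s

/-- Frames pushed when calling the second kind of child (they carry a guess `g`). -/
def Frame.isBig (f : Frame) : Bool := f.ret == 4 || f.ret == 6

/-- Number of big frames in a stack. -/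
def numBig (l : List Frame) : ℕ := l.countP Frame.isBig

/-- Bounds on the fields of a frame. -/
def Frame.Bounded (R : Rules) (V Gm n : ℕ) (f : Frame) : Prop :=
  f.ret ≤ 6 ∧ 1 ≤ f.ret ∧ f.v < V ∧ f.c < R.p ∧ f.t < 3 ∧ f.lam < R.p ∧ f.g ≤ Gm ∧ f.i ≤ n ∧
    f.acc < R.p ∧ (f.isBig = false → f.g = 0)

/-- Bounds on a state: all fields are small, the stack has at most `l` frames, at most `b` of
them big. -/
def St.Bounded {R : Rules} (V Gm n l b : ℕ) (s : St R) : Prop :=
  s.pc ≤ 7 ∧ s.v < V ∧ s.c < R.p ∧ s.t < 3 ∧ s.lam < R.p ∧ s.g ≤ Gm ∧ s.i ≤ n ∧ s.acc < R.p ∧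
    (∀ f ∈ s.stk, f.Bounded R V Gm n) ∧ s.stk.length ≤ l ∧ numBig s.stk ≤ b

/-- The hypotheses on the rules: `good` nodes, their values `val`, depth functions. -/
structure Valid (R : Rules) (good : ℕ → Prop) (val dS dB : ℕ → ℕ) (V Gm n : ℕ) : Prop where
  prime : R.p.Prime
  deg : n * (2 * R.W) + 2 < R.p
  goodV : ∀ v, good v → v < V
  leafGood : ∀ v, good v → R.leaf v = true → val v = R.lval v
  valLt : ∀ v, good v → val v < 2 ^ R.W
  alGood : ∀ v, good v → R.leaf v = false → good (R.al v) ∧ dS (R.al v) + 1 ≤ dS v ∧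
    dB (R.al v) ≤ dB v
  beGood : ∀ v, good v → R.leaf v = false → ∀ g < R.G v, ∀ i < R.n v, good (R.be v g i) ∧
    dS (R.be v g i) ≤ dS v ∧ dB (R.be v g i) + 1 ≤ dB v
  GLe : ∀ v, good v → R.G v ≤ Gm
  nLe : ∀ v, good v → R.n v ≤ n
  cpLe : ∀ v, good v → R.cp v ≤ 1
  /-- the recursion for the values, bit by bit -/
  recur : ∀ v, good v → R.leaf v = false → ∀ j < R.W,
    bit (val v) j = R.cp v * bit (val (R.al v)) j +
      ∑ g ∈ range (R.G v), (∏ i ∈ range (R.n v), R.chi v g i (val (R.al v)) (val (R.be v g i))) *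
        bit (R.out v g) j

end Vale.Agent.P312.Cat
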