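import Vale.Agent.P312.Cat

/-! # P312: algebra for the catalytic evaluator -/

namespace Vale.Agent.P312.Cat

open Finset

/-! ### Sums over `ZMod p` -/

theorem sum_range_zmod {A : Type*} [AddCommMonoid A] (p : ℕ) [NeZero p] (f : ZMod p → A) :
    ∑ l ∈ range p, f (l : ZMod p) = ∑ x : ZMod p, f x := by
  refine Finset.sum_bij' (fun l _ => (l : ZMod p)) (fun x _ => x.val) ?_ ?_ ?_ ?_ ?_
  · intro a _; exact Finset.mem_univ _
  · intro a _; exact Finset.mem_range.mpr (ZMod.val_lt a)
  · intro a ha; exact ZMod.val_natCast_of_lt (Finset.mem_range.mp ha)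
  · intro a _; exact ZMod.natCast_zmod_val a
  · intro a _; rfl

/-- `f` is given by a polynomial of degree at most `d`. -/
def PD (p d : ℕ) (f : ZMod p → ZMod p) : Prop :=
  ∃ P : Polynomial (ZMod p), P.natDegree ≤ d ∧ ∀ x, P.eval x = f x

variable {p : ℕ}

theorem PD.mono {d e : ℕ} {f : ZMod p → ZMod p} (h : PD p d f) (hde : d ≤ e) : PD p e f := by
  obtain ⟨P, h1, h2⟩ := h
  exact ⟨P, h1.trans hde, h2⟩

theorem PD.const (d : ℕ) (c : ZMod p) : PD p d (fun _ => c) :=
  ⟨Polynomial.C c, by simp, by simp⟩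

theorem PD.lin (a b : ZMod p) : PD p 1 (fun x => x * a + b) := by
  refine ⟨Polynomial.C a * Polynomial.X + Polynomial.C b, ?_, ?_⟩
  · exact Polynomial.natDegree_linear_le
  · intro x
    rw [Polynomial.eval_add, Polynomial.eval_mul, Polynomial.eval_C, Polynomial.eval_C,
      Polynomial.eval_X, mul_comm]

theorem PD.add {d : ℕ} {f g : ZMod p → ZMod p} (hf : PD p d f) (hg : PD p d g) :
    PD p d (fun x => f x + g x) := by
  obtain ⟨P, h1, h2⟩ := hf
  obtain ⟨Q, h3, h4⟩ := hg
  exact ⟨P + Q, (Polynomial.natDegree_add_le_of_le h1 h3).trans (by simp), by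
    intro x; simp [h2, h4]⟩

theorem PD.mul {d e : ℕ} {f g : ZMod p → ZMod p} (hf : PD p d f) (hg : PD p e g) :
    PD p (d + e) (fun x => f x * g x) := by
  obtain ⟨P, h1, h2⟩ := hf
  obtain ⟨Q, h3, h4⟩ := hg
  exact ⟨P * Q, Polynomial.natDegree_mul_le_of_le h1 h3, by
    intro x; simp [h2, h4]⟩

theorem PD.prod {ι : Type*} (s : Finset ι) {d : ℕ} {f : ι → ZMod p → ZMod p}
    (h : ∀ i ∈ s, PD p d (f i)) : PD p (s.card * d) (fun x => ∏ i ∈ s, f i x) := by
  classical
  induction s using Finset.induction_on with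
  | empty => simpa using PD.const 0 1
  | insert a s ha ih =>
    have h1 := (h a (Finset.mem_insert_self _ _)).mul
      (ih (fun i hi => h i (Finset.mem_insert_of_mem hi)))
    rw [Finset.card_insert_of_notMem ha]
    simp only [Finset.prod_insert ha]
    exact h1.mono (by rw [Nat.add_mul, one_mul, Nat.add_comm])

theorem PD.sum {ι : Type*} (s : Finset ι) {d : ℕ} {f : ι → ZMod p → ZMod p}
    (h : ∀ i ∈ s, PD p d (f i)) : PD p d (fun x => ∑ i ∈ s, f i x) := by
  classical
  induction s using Finset.induction_on with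
  | empty => simpa using PD.const d 0
  | insert a s ha ih =>
    simp only [Finset.sum_insert ha]
    exact (h a (Finset.mem_insert_self _ _)).add
      (ih (fun i hi => h i (Finset.mem_insert_of_mem hi)))

/-- The sum of a polynomial function of degree `< p - 1` over all of `ZMod p` vanishes. -/
theorem PD.sum_univ [Fact p.Prime] {d : ℕ} {f : ZMod p → ZMod p} (h : PD p d f)
    (hd : d < p - 1) : ∑ x : ZMod p, f x = 0 := by
  obtain ⟨P, h1, h2⟩ := h
  have : ∀ x : ZMod p, f x = ∑ i ∈ range (P.natDegree + 1), P.coeff i * x ^ i := by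
    intro x; rw [← h2 x, Polynomial.eval_eq_sum_range]
  simp_rw [this]
  rw [Finset.sum_comm]
  apply Finset.sum_eq_zero
  intro i hi
  rw [← Finset.mul_sum, FiniteField.sum_pow_lt_card_sub_one, mul_zero]
  rw [ZMod.card]
  have := Finset.mem_range.mp hi
  omega

/-- The sum over the nonzero residues `1, …, p - 1` is minus the value at `0`. -/
theorem PD.sum_nonzero [Fact p.Prime] {d : ℕ} {f : ZMod p → ZMod p} (h : PD p d f)
    (hd : d < p - 1) : ∑ l ∈ Ico 1 p, f (l : ZMod p) = - f 0 := by
  have h0 := h.sum_univ hd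
  rw [← sum_range_zmod] at h0
  have hp : 0 < p := (Fact.out : p.Prime).pos
  rw [Finset.range_eq_Ico, Finset.sum_eq_sum_Ico_succ_bot hp] at h0
  simp only [Nat.cast_zero, zero_add] at h0
  exact eq_neg_of_add_eq_zero_right h0

/-! ### Inverses and negatives -/

theorem cast_inv_mul [Fact p.Prime] {lam : ℕ} (h0 : 0 < lam) (h1 : lam < p) :
    (lam : ZMod p) * (inv p lam : ZMod p) = 1 := by
  have hp : p.Prime := Fact.out
  have h2 := hp.two_le
  have hne : (lam : ZMod p) ≠ 0 := by
    intro h
    rw [ZMod.natCast_eq_zero_iff] at h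
    exact absurd (Nat.le_of_dvd h0 h) (by omega)
  unfold inv
  rw [ZMod.natCast_mod, Nat.cast_pow, ← pow_succ']
  have : p - 2 + 1 = p - 1 := by omega
  rw [this]
  exact ZMod.pow_card_sub_one_eq_one hne

theorem inv_lt [Fact p.Prime] (lam : ℕ) : inv p lam < p :=
  Nat.mod_lt _ (Fact.out : p.Prime).pos

theorem neg_lt [Fact p.Prime] (c : ℕ) : neg p c < p :=
  Nat.mod_lt _ (Fact.out : p.Prime).pos

theorem cast_neg [Fact p.Prime] (c : ℕ) : ((neg p c : ℕ) : ZMod p) = - (c : ZMod p) := by
  have hp := (Fact.out : p.Prime).pos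
  unfold neg
  rw [ZMod.natCast_mod, Nat.cast_sub (Nat.mod_lt _ hp).le, ZMod.natCast_mod]
  simp

/-! ### Bits and the multilinear extension -/

theorem bit_lt_two (y j : ℕ) : bit y j < 2 := Nat.mod_lt _ (by norm_num)

theorem bit_eq_testBit (y j : ℕ) : bit y j = 1 ↔ y.testBit j = true := by
  unfold bit
  rw [Nat.testBit_eq_decide_div_mod_eq]
  simp

theorem eq_of_bits {W a y : ℕ} (ha : a < 2 ^ W) (hy : y < 2 ^ W)
    (h : ∀ j < W, (bit a j = 1 ↔ bit y j = 1)) : a = y := by
  apply Nat.eq_of_testBit_eq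
  intro j
  rcases lt_or_ge j W with hj | hj
  · have := h j hj
    rw [bit_eq_testBit, bit_eq_testBit] at this
    cases h1 : a.testBit j <;> cases h2 : y.testBit j <;> simp_all
  · rw [Nat.testBit_lt_two_pow (lt_of_lt_of_le ha (Nat.pow_le_pow_right (by norm_num) hj)),
      Nat.testBit_lt_two_pow (lt_of_lt_of_le hy (Nat.pow_le_pow_right (by norm_num) hj))]

variable (R : Rules)

/-- `delta` at the bit vector of `y`. -/
theorem delta_bits {a y : ℕ} (ha : a < 2 ^ R.W) (hy : y < 2 ^ R.W) :
    delta R a (fun j => (bit y j : ZMod R.p)) = if a = y then 1 else 0 := by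
  unfold delta
  split_ifs with h
  · subst h
    apply Finset.prod_eq_one
    intro j _
    split_ifs with h1
    · beta_reduce; rw [h1]; simp
    · have := bit_lt_two a j
      have : bit a j = 0 := by omega
      beta_reduce; rw [this]; simp
  · have : ∃ j : Fin R.W, ¬ (bit a j = 1 ↔ bit y j = 1) := by
      by_contra hcon
      push Not at hcon
      exact h (eq_of_bits ha hy (fun j hj => hcon ⟨j, hj⟩))
    obtain ⟨j, hj⟩ := this
    apply Finset.prod_eq_zero (Finset.mem_univ j)
    split_ifs with h1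
    · have h2 : bit y j ≠ 1 := fun h2 => hj ⟨fun _ => h2, fun _ => h1⟩
      have := bit_lt_two y j
      have : bit y j = 0 := by omega
      beta_reduce; rw [this]; simp
    · have h2 : bit y j = 1 := by
        by_contra h2
        exact hj ⟨fun h3 => absurd h3 h1, fun h3 => absurd h3 h2⟩
      beta_reduce; rw [h2]; simp

theorem chiHat_bits (v g i : ℕ) {a x : ℕ} (ha : a < 2 ^ R.W) (hx : x < 2 ^ R.W) :
    chiHat R v g i (fun j => (bit a j : ZMod R.p)) (fun j => (bit x j : ZMod R.p)) =
      (R.chi v g i a x : ZMod R.p) := by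
  unfold chiHat
  rw [Finset.sum_eq_single a]
  · rw [Finset.sum_eq_single x]
    · rw [delta_bits R ha ha, delta_bits R hx hx]; simp
    · intro b hb hne
      rw [delta_bits R (Finset.mem_range.mp hb) hx, if_neg hne, mul_zero]
    · intro h; exact absurd (Finset.mem_range.mpr hx) h
  · intro b hb hne
    apply Finset.sum_eq_zero
    intro x' _
    rw [delta_bits R (Finset.mem_range.mp hb) ha, if_neg hne, mul_zero, zero_mul]
  · intro h; exact absurd (Finset.mem_range.mpr ha) h

theorem delta_PD (a : ℕ) (α y : Fin R.W → ZMod R.p) :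
    PD R.p R.W (fun l => delta R a (fun j => l * α j + y j)) := by
  unfold delta
  have := PD.prod (p := R.p) (Finset.univ : Finset (Fin R.W)) (d := 1)
    (f := fun j l => if bit a j = 1 then l * α j + y j else 1 - (l * α j + y j)) (by
      intro j _
      by_cases h : bit a j = 1
      · simp only [h, if_true]; exact PD.lin _ _
      · simp only [h, if_false]
        have := PD.lin (p := R.p) (- α j) (1 - y j)
        convert this using 2
        ring)
  simpa using this

theorem chiHat_PD (v g i : ℕ) (α y β z : Fin R.W → ZMod R.p) :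
    PD R.p (2 * R.W)
      (fun l => chiHat R v g i (fun j => l * α j + y j) (fun j => l * β j + z j)) := by
  unfold chiHat
  apply PD.sum
  intro a _
  apply PD.sum
  intro x _
  have h1 := ((PD.const (p := R.p) 0 (R.chi v g i a x : ZMod R.p)).mul (delta_PD R a α y)).mul
    (delta_PD R x β z)
  exact h1.mono (by omega)

/-- The key identity: the sum over `λ = 1, …, p - 1` of the product of the checks. -/
theorem sum_prod_chiHat [Fact R.p.Prime] (v g : ℕ) (m : ℕ) (hm : m * (2 * R.W) + 2 < R.p)
    (α β : Fin R.W → ZMod R.p) (a : ℕ) (x : ℕ → ℕ) (ha : a < 2 ^ R.W)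
    (hx : ∀ i < m, x i < 2 ^ R.W) :
    ∑ l ∈ Ico 1 R.p, (∏ i ∈ range m, chiHat R v g i
        (fun j => (l : ZMod R.p) * α j + bit a j) (fun j => (l : ZMod R.p) * β j + bit (x i) j)) =
      - ∏ i ∈ range m, (R.chi v g i a (x i) : ZMod R.p) := by
  have h := PD.prod (p := R.p) (range m) (d := 2 * R.W)
    (f := fun i l => chiHat R v g i (fun j => l * α j + (bit a j : ZMod R.p))
      (fun j => l * β j + (bit (x i) j : ZMod R.p)))
    (fun i _ => chiHat_PD R v g i _ _ _ _)
  rw [Finset.card_range] at h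
  have h2 := h.sum_nonzero (by omega)
  rw [h2]
  congr 1
  apply Finset.prod_congr rfl
  intro i hi
  simp only [zero_mul, zero_add]
  exact chiHat_bits R v g i ha (hx i (Finset.mem_range.mp hi))

theorem sum_cast_Ico [Fact p.Prime] (hp : 2 < p) : ∑ l ∈ Ico 1 p, (l : ZMod p) = 0 := by
  have h : PD p 1 (fun x => x * 1 + 0) := PD.lin 1 0
  have := h.sum_nonzero (by omega)
  simpa using this

theorem card_Ico_cast [Fact p.Prime] : ∑ _l ∈ Ico 1 p, (1 : ZMod p) = -1 := by
  have hp := (Fact.out : p.Prime).pos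
  rw [Finset.sum_const, Nat.card_Ico, nsmul_eq_mul, mul_one, Nat.cast_sub hp]
  simp

end Vale.Agent.P312.Cat
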