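import Vale.Agent.P312.CatAlg

/-! # P312: correctness and space bound of the catalytic evaluator -/

namespace Vale.Agent.P312.Cat

open Finset

/-- Reachability by steps of the evaluator, all states on the way satisfying `P`. -/
def Rch (R : Rules) (P : St R → Prop) (s s' : St R) : Prop :=
  ∃ N : ℕ, (step R)^[N] s = s' ∧ ∀ k ≤ N, P ((step R)^[k] s)

variable {R : Rules} {P : St R → Prop}

theorem Rch.refl {s : St R} (h : P s) : Rch R P s s :=
  ⟨0, rfl, by intro k hk; obtain rfl : k = 0 := by omega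
              exact h⟩

theorem Rch.last {s s' : St R} (h : Rch R P s s') : P s' := by
  obtain ⟨N, h1, h2⟩ := h
  rw [← h1]; exact h2 N le_rfl

theorem Rch.first {s s' : St R} (h : Rch R P s s') : P s := by
  obtain ⟨N, _, h2⟩ := h
  exact h2 0 (Nat.zero_le _)

theorem Rch.trans {s s' s'' : St R} (h : Rch R P s s') (h' : Rch R P s' s'') :
    Rch R P s s'' := by
  obtain ⟨N, h1, h2⟩ := h
  obtain ⟨N', h3, h4⟩ := h'
  refine ⟨N' + N, ?_, ?_⟩
  · rw [Function.iterate_add_apply, h1, h3]
  · intro k hk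
    rcases le_or_gt k N with h | h
    · exact h2 k h
    · obtain ⟨m, rfl⟩ := Nat.exists_eq_add_of_le h.le
      rw [Nat.add_comm, Function.iterate_add_apply, h1]
      exact h4 m (by omega)

theorem Rch.single {s s' : St R} (h : P s) (hs : step R s = s') (h' : P s') :
    Rch R P s s' := by
  refine ⟨1, hs, ?_⟩
  intro k hk
  rcases Nat.eq_zero_or_pos k with h0 | h0
  · subst h0; exact h
  · obtain rfl : k = 1 := by omega
    rw [Function.iterate_one, hs]; exact h'

/-- Append one step, then a run. -/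
theorem Rch.stepThen {s s' s'' s''' : St R} (h : Rch R P s s') (hs : step R s' = s'')
    (h' : Rch R P s'' s''') : Rch R P s s''' :=
  (h.trans (Rch.single h.last hs h'.first)).trans h'

theorem Rch.snoc {s s' s'' : St R} (h : Rch R P s s') (hs : step R s' = s'')
    (h' : P s'') : Rch R P s s'' :=
  h.trans (Rch.single h.last hs h')

/-! ### Memory updates -/

/-- Add a vector to a block. -/
def upd (M : Mem R) (t : Fin 3) (X : Fin R.W → ZMod R.p) : Mem R :=
  fun t' j => if t' = t then M t' j + X j else M t' j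

theorem addBits_eq (M : Mem R) (t : Fin 3) (c : ZMod R.p) (y : ℕ) :
    addBits R M t c y = upd M t (fun j => c * (bit y j : ZMod R.p)) := rfl

theorem upd_upd (M : Mem R) (t : Fin 3) (X Y : Fin R.W → ZMod R.p) :
    upd (upd M t X) t Y = upd M t (fun j => X j + Y j) := by
  funext t' j
  unfold upd
  by_cases h : t' = t
  · simp [h, add_assoc]
  · simp [h]

theorem upd_zero (M : Mem R) (t : Fin 3) : upd M t (fun _ => 0) = M := by
  funext t' j
  unfold upd
  simp

theorem upd_comm (M : Mem R) {t t' : Fin 3} (h : t ≠ t') (X Y : Fin R.W → ZMod R.p) :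
    upd (upd M t X) t' Y = upd (upd M t' Y) t X := by
  funext t'' j
  unfold upd
  by_cases h1 : t'' = t
  · subst h1; simp [h]
  · by_cases h2 : t'' = t'
    · subst h2; simp [h1]
    · simp [h1, h2]

theorem upd_same (M : Mem R) (t : Fin 3) (X : Fin R.W → ZMod R.p) (j : Fin R.W) :
    upd M t X t j = M t j + X j := by simp [upd]

theorem upd_ne (M : Mem R) {t t' : Fin 3} (h : t' ≠ t) (X : Fin R.W → ZMod R.p)
    (j : Fin R.W) : upd M t X t' j = M t' j := by simp [upd, h]

theorem upd_congr (M : Mem R) (t : Fin 3) {X Y : Fin R.W → ZMod R.p} (h : ∀ j, X j = Y j) :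
    upd M t X = upd M t Y := by
  have : X = Y := funext h
  rw [this]

theorem blk_mod (t : ℕ) : blk (t % 3) = blk t := by
  simp [blk]

theorem blk_ne {t : ℕ} {a b : ℕ} (hab : a % 3 ≠ b % 3) : blk (t + a) ≠ blk (t + b) := by
  intro h
  simp only [blk, Fin.mk.injEq] at h
  omega

theorem blk_ne0 {t : ℕ} {a : ℕ} (ha : a % 3 ≠ 0) : blk (t + a) ≠ blk t := by
  intro h
  simp only [blk, Fin.mk.injEq] at h
  omega

/-! ### One node -/

section Node

variable [Fact R.p.Prime] {val : ℕ → ℕ} {v c t Gm n : ℕ} {rest : List Frame}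

/-- The memory with accumulated vector `X` in block `t` and block `t + 1` loaded. -/
def mem1 (val : ℕ → ℕ) (v t : ℕ) (M : Mem R) (lam : ℕ) (X : Fin R.W → ZMod R.p) : Mem R :=
  upd (upd M (blk t) X) (blk (t + 1))
    (fun j => (inv R.p lam : ZMod R.p) * (bit (val (R.al v)) j : ZMod R.p))

/-- The factor of visit `i`. -/
def fac (val : ℕ → ℕ) (v t : ℕ) (M : Mem R) (lam g i : ℕ) : ZMod R.p :=
  chiHat R v g i
    (fun j => (lam : ZMod R.p) * M (blk (t + 1)) j + (bit (val (R.al v)) j : ZMod R.p))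
    (fun j => (lam : ZMod R.p) * M (blk (t + 2)) j + (bit (val (R.be v g i)) j : ZMod R.p))

/-- The contribution of `lam`. -/
def contr (val : ℕ → ℕ) (v c t : ℕ) (M : Mem R) (lam : ℕ) (j : Fin R.W) : ZMod R.p :=
  - ((c : ZMod R.p) * R.cp v * ((lam : ZMod R.p) * M (blk (t + 1)) j +
      (bit (val (R.al v)) j : ZMod R.p))) +
  ∑ g ∈ range (R.G v), (-(c : ZMod R.p) * ∏ i ∈ range (R.n v), fac val v t M lam g i) *
    (bit (R.out v g) j : ZMod R.p)

/-- The hypotheses for one node. -/
structure NodeHyp (R : Rules) (P : St R → Prop) (val : ℕ → ℕ) (v c t Gm n : ℕ)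
    (rest : List Frame) : Prop where
  leaf : R.leaf v = false
  GLe : R.G v ≤ Gm
  nLe : R.n v ≤ n
  hP : ∀ pc ≤ 7, ∀ lam < R.p, ∀ g ≤ Gm, ∀ i ≤ n, ∀ acc < R.p, ∀ M : Mem R,
    P ⟨pc, v, c, t, lam, g, i, acc, rest, M⟩
  hal : ∀ ret, (ret = 1 ∨ ret = 5) → ∀ lam < R.p, ∀ c' < R.p, ∀ M : Mem R,
    Rch R P ⟨0, R.al v, c', (t + 1) % 3, 0, 0, 0, 0, ⟨ret, v, c, t, lam, 0, 0, 0⟩ :: rest, M⟩
      ⟨ret, v, c, t, lam, 0, 0, 0, rest, addBits R M (blk (t + 1)) c' (val (R.al v))⟩
  hbe : ∀ g < R.G v, ∀ i < R.n v, ∀ ret, (ret = 4 ∨ ret = 6) → ∀ lam < R.p, ∀ acc < R.p,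
    ∀ c' < R.p, ∀ M : Mem R,
    Rch R P ⟨0, R.be v g i, c', (t + 2) % 3, 0, 0, 0, 0,
        ⟨ret, v, c, t, lam, g, i, acc⟩ :: rest, M⟩
      ⟨ret, v, c, t, lam, g, i, acc, rest,
        addBits R M (blk (t + 2)) c' (val (R.be v g i))⟩

variable (H : NodeHyp R P val v c t Gm n rest)

include H

/-- One round of the loop over `i`. -/
theorem iStep (M : Mem R) {lam : ℕ} (hl0 : 0 < lam) (hl : lam < R.p)
    (X : Fin R.W → ZMod R.p) {g i acc : ℕ} (hg : g < R.G v) (hi : i < R.n v)
    (hacc : acc < R.p) :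
    ∃ acc' < R.p, ((acc' : ℕ) : ZMod R.p) = (acc : ZMod R.p) * fac val v t M lam g i ∧
      Rch R P ⟨3, v, c, t, lam, g, i, acc, rest, mem1 val v t M lam X⟩
        ⟨3, v, c, t, lam, g, i + 1, acc', rest, mem1 val v t M lam X⟩ := by
  have hGm := H.GLe
  have hn := H.nLe
  set acc' := ((acc : ZMod R.p) * fac val v t M lam g i).val with hacc'
  have hlt : acc' < R.p := ZMod.val_lt _
  refine ⟨acc', hlt, ?_, ?_⟩
  · rw [hacc', ZMod.natCast_zmod_val]
  have r0 := Rch.refl (H.hP 3 (by omega) lam hl g (by omega) i (by omega) acc hacc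
    (mem1 val v t M lam X))
  have r1 := H.hbe g hg i hi 4 (Or.inl rfl) lam hl acc hacc (inv R.p lam) (inv_lt _)
    (mem1 val v t M lam X)
  have r2 := r0.stepThen (by simp [step, hi]) r1
  have r3 := H.hbe g hg i hi 6 (Or.inr rfl) lam hl acc' hlt (neg R.p (inv R.p lam)) (neg_lt _)
    (addBits R (mem1 val v t M lam X) (blk (t + 2)) (inv R.p lam) (val (R.be v g i)))
  have hinv := cast_inv_mul (p := R.p) hl0 hl
  have e1 : (fun j => (lam : ZMod R.p) *
      (addBits R (mem1 val v t M lam X) (blk (t + 2)) (inv R.p lam) (val (R.be v g i)))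
        (blk (t + 1)) j) =
      (fun j => (lam : ZMod R.p) * M (blk (t + 1)) j + (bit (val (R.al v)) j : ZMod R.p)) := by
    funext j
    rw [addBits_eq, upd_ne _ (blk_ne (by norm_num)), mem1, upd_same,
      upd_ne _ (blk_ne0 (by norm_num)), mul_add, ← mul_assoc, hinv,
      one_mul]
  have e2 : (fun j => (lam : ZMod R.p) *
      (addBits R (mem1 val v t M lam X) (blk (t + 2)) (inv R.p lam) (val (R.be v g i)))
        (blk (t + 2)) j) =
      (fun j => (lam : ZMod R.p) * M (blk (t + 2)) j +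
        (bit (val (R.be v g i)) j : ZMod R.p)) := by
    funext j
    rw [addBits_eq, upd_same, mem1, upd_ne _ (blk_ne (by norm_num)),
      upd_ne _ (blk_ne0 (by norm_num)), mul_add, ← mul_assoc, hinv,
      one_mul]
  have r4 := r2.stepThen (s'' := ⟨0, R.be v g i, neg R.p (inv R.p lam), (t + 2) % 3, 0, 0, 0, 0,
        ⟨6, v, c, t, lam, g, i, acc'⟩ :: rest, _⟩) (by
      simp only [step]
      rw [hacc', fac, e1, e2]) r3
  have e3 : addBits R (addBits R (mem1 val v t M lam X) (blk (t + 2)) (inv R.p lam)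
      (val (R.be v g i))) (blk (t + 2)) (neg R.p (inv R.p lam)) (val (R.be v g i)) =
      mem1 val v t M lam X := by
    rw [addBits_eq, addBits_eq, upd_upd, cast_neg]
    have : (fun j : Fin R.W => (inv R.p lam : ZMod R.p) * (bit (val (R.be v g i)) j : ZMod R.p) +
      -(inv R.p lam : ZMod R.p) * (bit (val (R.be v g i)) j : ZMod R.p)) = fun _ => 0 := by
      funext j; ring
    rw [this, upd_zero]
  rw [e3] at r4
  exact r4.snoc (by simp [step]) (H.hP 3 (by omega) lam hl g (by omega) (i + 1) (by omega)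
    acc' hlt _)

/-- The loop over `i`. -/
theorem iLoop (M : Mem R) {lam : ℕ} (hl0 : 0 < lam) (hl : lam < R.p)
    (X : Fin R.W → ZMod R.p) {g acc : ℕ} (hg : g < R.G v) (hacc : acc < R.p) :
    ∀ m ≤ R.n v, ∃ acc' < R.p,
      ((acc' : ℕ) : ZMod R.p) = (acc : ZMod R.p) * ∏ i ∈ range m, fac val v t M lam g i ∧
      Rch R P ⟨3, v, c, t, lam, g, 0, acc, rest, mem1 val v t M lam X⟩
        ⟨3, v, c, t, lam, g, m, acc', rest, mem1 val v t M lam X⟩ := by
  intro m
  induction m with
  | zero =>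
    intro _
    have hGm := H.GLe
    exact ⟨acc, hacc, by simp, Rch.refl (H.hP 3 (by omega) lam hl g (by omega) 0 (by omega)
      acc hacc _)⟩
  | succ m ih =>
    intro hm
    obtain ⟨a1, h1, h2, h3⟩ := ih (by omega)
    obtain ⟨a2, h4, h5, h6⟩ := iStep H M hl0 hl X (g := g) (i := m) hg (by omega) h1
    refine ⟨a2, h4, ?_, h3.trans h6⟩
    rw [h5, h2, Finset.prod_range_succ, mul_assoc]

/-- The loop over `g`. -/
theorem gLoop (M : Mem R) {lam : ℕ} (hl0 : 0 < lam) (hl : lam < R.p)
    (X : Fin R.W → ZMod R.p) :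
    ∀ m ≤ R.G v, ∃ i ≤ n, ∃ acc < R.p,
      Rch R P ⟨2, v, c, t, lam, 0, 0, 0, rest, mem1 val v t M lam X⟩
        ⟨2, v, c, t, lam, m, i, acc, rest, mem1 val v t M lam (fun j => X j +
          ∑ g ∈ range m, (-(c : ZMod R.p) * ∏ i ∈ range (R.n v), fac val v t M lam g i) *
            (bit (R.out v g) j : ZMod R.p))⟩ := by
  have hGm := H.GLe
  have hn := H.nLe
  intro m
  induction m with
  | zero =>
    intro _
    have hp := (Fact.out : R.p.Prime).pos
    refine ⟨0, by omega, 0, hp, ?_⟩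
    simp only [range_zero, sum_empty, add_zero]
    exact Rch.refl (H.hP 2 (by omega) lam hl 0 (by omega) 0 (by omega) 0 hp _)
  | succ m ih =>
    intro hm
    obtain ⟨i0, hi0, a0, ha0, r0⟩ := ih (by omega)
    set X' : Fin R.W → ZMod R.p := fun j => X j +
          ∑ g ∈ range m, (-(c : ZMod R.p) * ∏ i ∈ range (R.n v), fac val v t M lam g i) *
            (bit (R.out v g) j : ZMod R.p) with hX'
    obtain ⟨a1, ha1, e1, r1⟩ := iLoop H M hl0 hl X' (g := m) (acc := neg R.p c) (by omega)
      (neg_lt _) (R.n v) le_rfl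
    have hlt : m < R.G v := by omega
    have r2 := r0.stepThen (by simp [step, hlt]) r1
    refine ⟨R.n v, hn, a1, ha1, ?_⟩
    refine r2.snoc ?_ (H.hP 2 (by omega) lam hl (m + 1) (by omega) (R.n v) hn a1 ha1 _)
    simp only [step, lt_irrefl, if_false]
    congr 1
    rw [addBits_eq, mem1, upd_comm _ (blk_ne0 (by norm_num)), upd_upd, mem1]
    congr 1
    apply upd_congr
    intro j
    rw [hX', Finset.sum_range_succ, e1, cast_neg]
    ring

/-- One value of `lam`: from the loaded block `A` to the unloaded block `A`. -/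
theorem lamStep (M : Mem R) {lam : ℕ} (hl0 : 0 < lam) (hl : lam < R.p)
    (X : Fin R.W → ZMod R.p) :
    Rch R P ⟨1, v, c, t, lam, 0, 0, 0, rest, mem1 val v t M lam X⟩
      ⟨5, v, c, t, lam, 0, 0, 0, rest, upd M (blk t) (fun j => X j + contr val v c t M lam j)⟩ := by
  have hGm := H.GLe
  have hn := H.nLe
  have hp := (Fact.out : R.p.Prime).pos
  have hinv := cast_inv_mul (p := R.p) hl0 hl
  have r0 := Rch.refl (H.hP 1 (by omega) lam hl 0 (by omega) 0 (by omega) 0 hp
    (mem1 val v t M lam X))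
  set X1 : Fin R.W → ZMod R.p := fun j => X j +
    - ((c : ZMod R.p) * R.cp v * ((lam : ZMod R.p) * M (blk (t + 1)) j +
      (bit (val (R.al v)) j : ZMod R.p))) with hX1
  obtain ⟨i1, hi1, a1, ha1, r1⟩ := gLoop H M hl0 hl X1 (R.G v) le_rfl
  have r2 := r0.stepThen (s'' := ⟨2, v, c, t, lam, 0, 0, 0, rest, mem1 val v t M lam X1⟩) (by
    simp only [step]
    congr 1
    funext t' j
    have hne : blk (t + 1) ≠ blk t := blk_ne0 (by norm_num)
    by_cases h : t' = blk t
    · subst h
      rw [if_pos rfl, mem1, mem1, upd_ne _ hne.symm, upd_same, upd_ne _ hne.symm, upd_same,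
        upd_same, upd_ne _ hne, hX1]
      have : (lam : ZMod R.p) * (M (blk (t + 1)) j +
          (inv R.p lam : ZMod R.p) * (bit (val (R.al v)) j : ZMod R.p)) =
          (lam : ZMod R.p) * M (blk (t + 1)) j + (bit (val (R.al v)) j : ZMod R.p) := by
        rw [mul_add, ← mul_assoc, hinv, one_mul]
      rw [this]; ring
    · rw [if_neg h]
      by_cases h2 : t' = blk (t + 1)
      · subst h2
        rw [mem1, mem1, upd_same, upd_same, upd_ne _ hne, upd_ne _ hne]
      · rw [mem1, mem1, upd_ne _ h2, upd_ne _ h2, upd_ne _ h, upd_ne _ h]) r1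
  have r3 := H.hal 5 (Or.inr rfl) lam hl (neg R.p (inv R.p lam)) (neg_lt _)
    (mem1 val v t M lam (fun j => X1 j +
          ∑ g ∈ range (R.G v), (-(c : ZMod R.p) * ∏ i ∈ range (R.n v), fac val v t M lam g i) *
            (bit (R.out v g) j : ZMod R.p)))
  have r4 := r2.stepThen (by simp [step]) r3
  convert r4 using 2
  rw [addBits_eq, mem1, upd_upd, cast_neg]
  have : (fun j : Fin R.W => (inv R.p lam : ZMod R.p) * (bit (val (R.al v)) j : ZMod R.p) +
      -(inv R.p lam : ZMod R.p) * (bit (val (R.al v)) j : ZMod R.p)) = fun _ => 0 := by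
    funext j; ring
  rw [this, upd_zero]
  apply upd_congr
  intro j
  rw [hX1, contr]
  ring

/-- The loop over `lam`. -/
theorem lamLoop (M : Mem R) (m : ℕ) (hm : m + 1 < R.p) :
    Rch R P ⟨1, v, c, t, 1, 0, 0, 0, rest, mem1 val v t M 1 (fun _ => 0)⟩
      ⟨5, v, c, t, m + 1, 0, 0, 0, rest,
        upd M (blk t) (fun j => ∑ lam ∈ Ico 1 (m + 2), contr val v c t M lam j)⟩ := by
  induction m with
  | zero =>
    have := lamStep H M (lam := 1) (by norm_num) (by omega) (fun _ => 0)
    convert this using 2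
    apply upd_congr
    intro j
    simp
  | succ m ih =>
    have r0 := ih (by omega)
    have hlt : m + 1 + 1 < R.p := by omega
    have r1 := H.hal 1 (Or.inl rfl) (m + 1 + 1) hlt (inv R.p (m + 1 + 1)) (inv_lt _)
      (upd M (blk t) (fun j => ∑ lam ∈ Ico 1 (m + 2), contr val v c t M lam j))
    have r2 := r0.stepThen (by simp [step, hlt]) r1
    have r3 := lamStep H M (lam := m + 1 + 1) (by omega) hlt
      (fun j => ∑ lam ∈ Ico 1 (m + 2), contr val v c t M lam j)
    have r4 := r2.trans r3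
    convert r4 using 2
    apply upd_congr
    intro j
    rw [Finset.sum_Ico_succ_top (by omega)]

/-- The whole run of a node. -/
theorem nodeRun (M : Mem R) (hp2 : 2 < R.p) (i0 g0 lam0 acc0 : ℕ)
    (h0 : P ⟨0, v, c, t, lam0, g0, i0, acc0, rest, M⟩) :
    ∃ s' : St R, Rch R P ⟨0, v, c, t, lam0, g0, i0, acc0, rest, M⟩ s' ∧ s'.pc = 7 ∧
      s'.stk = rest ∧
      s'.mem = upd M (blk t) (fun j => ∑ lam ∈ Ico 1 R.p, contr val v c t M lam j) := by
  have hGm := H.GLe
  have hp := (Fact.out : R.p.Prime).pos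
  obtain ⟨m, hm⟩ : ∃ m, R.p = m + 2 := ⟨R.p - 2, by omega⟩
  have r1 := H.hal 1 (Or.inl rfl) 1 (by omega) (inv R.p 1) (inv_lt _) M
  have r2 := (Rch.refl h0).stepThen (by simp [step, H.leaf]) r1
  have r3 := lamLoop H M m (by omega)
  have e1 : addBits R M (blk (t + 1)) (inv R.p 1) (val (R.al v)) =
      mem1 val v t M 1 (fun _ => 0) := by
    rw [mem1, upd_zero, addBits_eq]
  rw [e1] at r2
  have r4 := r2.trans r3
  refine ⟨_, r4.snoc (s'' := ⟨7, v, c, t, m + 1, 0, 0, 0, rest, _⟩) (by
    simp only [step]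
    rw [if_neg (by omega)]) (H.hP 7 le_rfl (m + 1) (by omega) 0 (by omega) 0 (by omega) 0 hp _),
    rfl, rfl, ?_⟩
  have hI : Ico 1 R.p = Ico 1 (m + 2) := by rw [hm]
  rw [hI]

end Node

/-- The total contribution is `c` times the bits of the value. -/
theorem sum_contr {good : ℕ → Prop} {val dS dB : ℕ → ℕ} {V Gm n : ℕ}
    (hR : Valid R good val dS dB V Gm n) [Fact R.p.Prime] {v : ℕ} (hv : good v)
    (hleaf : R.leaf v = false) (c t : ℕ) (M : Mem R) (j : Fin R.W) :
    ∑ lam ∈ Ico 1 R.p, contr val v c t M lam j = (c : ZMod R.p) * (bit (val v) j : ZMod R.p) := by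
  have hdeg := hR.deg
  have hn := hR.nLe v hv
  have hal := hR.alGood v hv hleaf
  have hbe := hR.beGood v hv hleaf
  have hp2 : 2 < R.p := by
    have := Nat.zero_le (n * (2 * R.W))
    omega
  have hm : R.n v * (2 * R.W) + 2 < R.p :=
    lt_of_le_of_lt (Nat.add_le_add_right (Nat.mul_le_mul_right _ hn) 2) hdeg
  unfold contr
  rw [Finset.sum_add_distrib, Finset.sum_comm]
  have e1 : ∑ lam ∈ Ico 1 R.p, (-((c : ZMod R.p) * R.cp v * ((lam : ZMod R.p) *
      M (blk (t + 1)) j + (bit (val (R.al v)) j : ZMod R.p)))) =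
      (c : ZMod R.p) * (R.cp v * (bit (val (R.al v)) j : ZMod R.p)) := by
    have : ∀ lam ∈ Ico 1 R.p, (-((c : ZMod R.p) * R.cp v * ((lam : ZMod R.p) *
      M (blk (t + 1)) j + (bit (val (R.al v)) j : ZMod R.p)))) =
      (-((c : ZMod R.p) * R.cp v * M (blk (t + 1)) j)) * (lam : ZMod R.p) +
      (-((c : ZMod R.p) * R.cp v * (bit (val (R.al v)) j : ZMod R.p))) * 1 := by
      intro lam _; ring
    rw [Finset.sum_congr rfl this, Finset.sum_add_distrib, ← Finset.mul_sum, ← Finset.mul_sum,
      sum_cast_Ico hp2, card_Ico_cast]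
    ring
  have e2 : ∀ g ∈ range (R.G v), ∑ lam ∈ Ico 1 R.p,
      (-(c : ZMod R.p) * ∏ i ∈ range (R.n v), fac val v t M lam g i) *
        (bit (R.out v g) j : ZMod R.p) =
      (c : ZMod R.p) * ((∏ i ∈ range (R.n v),
        (R.chi v g i (val (R.al v)) (val (R.be v g i)) : ZMod R.p)) *
        (bit (R.out v g) j : ZMod R.p)) := by
    intro g hg
    have hg' := Finset.mem_range.mp hg
    rw [← Finset.sum_mul, ← Finset.mul_sum]
    have h3 := sum_prod_chiHat R v g (R.n v) hm (M (blk (t + 1))) (M (blk (t + 2)))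
      (val (R.al v)) (fun i => val (R.be v g i)) (hR.valLt _ hal.1)
      (fun i hi => hR.valLt _ (hbe g hg' i hi).1)
    unfold fac
    rw [h3]
    ring
  rw [e1, Finset.sum_congr rfl e2, ← Finset.mul_sum, ← mul_add]
  congr 1
  have hrec := hR.recur v hv hleaf j j.2
  rw [hrec]
  push_cast
  rfl

/-- Main induction. -/
theorem run_aux {good : ℕ → Prop} {val dS dB : ℕ → ℕ} {V Gm n : ℕ}
    (hR : Valid R good val dS dB V Gm n) (l b : ℕ) :
    ∀ (D v : ℕ), dS v + dB v ≤ D → good v → ∀ s : St R, s.pc = 0 → s.v = v →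
      s.Bounded V Gm n l b → s.stk.length + dS v + dB v ≤ l → numBig s.stk + dB v ≤ b →
      ∃ s' : St R, Rch R (fun s => s.Bounded V Gm n l b) s s' ∧ s'.pc = 7 ∧ s'.stk = s.stk ∧
        s'.mem = addBits R s.mem (blk s.t) s.c (val v) := by
  have : Fact R.p.Prime := ⟨hR.prime⟩
  have hp := hR.prime.pos
  have hdeg := hR.deg
  have hp2 : 2 < R.p := by
    have := Nat.zero_le (n * (2 * R.W))
    omega
  intro D
  induction D with
  | zero =>
    intro v hD hv s hpc hsv hs hl hb
    have hleaf : R.leaf v = true := by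
      by_contra h
      have := (hR.alGood v hv (by simpa using h)).2.1
      omega
    obtain ⟨pc, v', c, t, lam, g, i, acc, stk, M⟩ := s
    simp only at hpc hsv
    subst hpc hsv
    refine ⟨⟨7, v', c, t, lam, g, i, acc, stk, addBits R M (blk t) c (R.lval v')⟩,
      Rch.single hs (by simp [step, hleaf]) ?_, rfl, rfl, ?_⟩
    · obtain ⟨_, h2⟩ := hs
      exact ⟨le_rfl, h2⟩
    · rw [hR.leafGood v' hv hleaf]
  | succ D ih =>
    intro v hD hv s hpc hsv hs hl hb
    obtain ⟨pc, v', c, t, lam, g, i, acc, stk, M⟩ := s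
    simp only at hpc hsv
    subst hpc hsv
    cases hleaf : R.leaf v' with
    | true =>
      refine ⟨⟨7, v', c, t, lam, g, i, acc, stk, addBits R M (blk t) c (R.lval v')⟩,
        Rch.single hs (by simp [step, hleaf]) ?_, rfl, rfl, ?_⟩
      · obtain ⟨_, h2⟩ := hs
        exact ⟨le_rfl, h2⟩
      · rw [hR.leafGood v' hv hleaf]
    | false =>
      obtain ⟨halg, hal1, hal2⟩ := hR.alGood v' hv hleaf
      have hbe := hR.beGood v' hv hleaf
      have hG := hR.GLe v' hv
      have hn := hR.nLe v' hv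
      have hV := hR.goodV v' hv
      simp only [St.Bounded] at hs hl hb
      obtain ⟨_, _, hc, ht, hlam, hg, hi, hacc, hfr, hlen, hbig⟩ := hs
      -- the call lemma
      have call : ∀ w, good w → dS w + dB w ≤ D → ∀ c' < R.p, ∀ t' < 3, ∀ f : Frame,
          f.Bounded R V Gm n → stk.length + 1 + dS w + dB w ≤ l →
          numBig (f :: stk) + dB w ≤ b → ∀ M : Mem R,
          Rch R (fun s => s.Bounded V Gm n l b) ⟨0, w, c', t', 0, 0, 0, 0, f :: stk, M⟩
            ⟨f.ret, f.v, f.c, f.t, f.lam, f.g, f.i, f.acc, stk,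
              addBits R M (blk t') c' (val w)⟩ := by
        intro w hw hDw c' hc' t' ht' f hf hlen' hbig' M'
        have hwV := hR.goodV w hw
        have hfr' : ∀ f' ∈ f :: stk, f'.Bounded R V Gm n := by
          intro f' hf'
          rcases List.mem_cons.mp hf' with h | h
          · rw [h]; exact hf
          · exact hfr f' h
        obtain ⟨s', r, hs1, hs2, hs3⟩ := ih w hDw hw ⟨0, w, c', t', 0, 0, 0, 0, f :: stk, M'⟩
          rfl rfl ⟨by norm_num, hwV, hc', ht', hp, Nat.zero_le _, Nat.zero_le _, hp, hfr', by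
            simp only [List.length_cons]; omega, by simp only; omega⟩ (by
            simp only [List.length_cons]; omega) (by simp only; omega)
        obtain ⟨pc'', v'', c'', t'', lam'', g'', i'', acc'', stk'', M''⟩ := s'
        simp only at hs1 hs2 hs3
        subst hs1 hs2 hs3
        refine r.snoc (by simp [step]) ?_
        obtain ⟨f1, f2, f3, f4, f5, f6, f7, f8, f9, _⟩ := hf
        exact ⟨by simp only; omega, f3, f4, f5, f6, f7, f8, f9, hfr, hlen, hbig⟩
      have H : NodeHyp R (fun s => s.Bounded V Gm n l b) val v' c t Gm n stk := by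
        refine ⟨hleaf, hG, hn, ?_, ?_, ?_⟩
        · intro pc hpc lam hlam g hg i hi acc hacc M
          exact ⟨hpc, hV, hc, ht, hlam, hg, hi, hacc, hfr, hlen, hbig⟩
        · intro ret hret lam' hlam' c' hc' M'
          have hnb : (Frame.mk ret v' c t lam' 0 0 0).isBig = false := by
            rcases hret with h | h <;> subst h <;> rfl
          have := call (R.al v') halg (by omega) c' hc' ((t + 1) % 3) (Nat.mod_lt _ (by norm_num))
            ⟨ret, v', c, t, lam', 0, 0, 0⟩
            ⟨by rcases hret with h | h <;> subst h <;> norm_num,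
              by rcases hret with h | h <;> subst h <;> norm_num, hV, hc, ht, hlam',
              Nat.zero_le _, Nat.zero_le _, hp, fun _ => rfl⟩ (by omega) (by
              have : numBig (Frame.mk ret v' c t lam' 0 0 0 :: stk) = numBig stk := by
                unfold numBig
                rw [List.countP_cons_of_neg (by rw [hnb]; simp)]
              rw [this]; omega) M'
          rw [blk_mod] at this
          exact this
        · intro g hg i hi ret hret lam' hlam' acc' hacc' c' hc' M'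
          obtain ⟨hb1, hb2, hb3⟩ := hbe g hg i hi
          have hnb : (Frame.mk ret v' c t lam' g i acc').isBig = true := by
            rcases hret with h | h <;> subst h <;> rfl
          have := call (R.be v' g i) hb1 (by omega) c' hc' ((t + 2) % 3)
            (Nat.mod_lt _ (by norm_num))
            ⟨ret, v', c, t, lam', g, i, acc'⟩
            ⟨by rcases hret with h | h <;> subst h <;> norm_num,
              by rcases hret with h | h <;> subst h <;> norm_num, hV, hc, ht, hlam',
              by simp only; omega, by simp only; omega, hacc', by rw [hnb]; simp⟩ (by omega) (by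
              have : numBig (Frame.mk ret v' c t lam' g i acc' :: stk) = numBig stk + 1 := by
                unfold numBig
                rw [List.countP_cons_of_pos hnb]
              rw [this]; omega) M'
          rw [blk_mod] at this
          exact this
      obtain ⟨s', r, hs1, hs2, hs3⟩ := nodeRun H M hp2 i g lam acc
        (H.hP 0 (by norm_num) lam hlam g hg i hi acc hacc M)
      refine ⟨s', r, hs1, hs2, ?_⟩
      rw [hs3, addBits_eq]
      apply upd_congr
      intro j
      exact sum_contr hR hv hleaf c t M j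

/-- Correctness and space bound of the evaluator. -/
theorem run {R : Rules} {good : ℕ → Prop} {val dS dB : ℕ → ℕ} {V Gm n : ℕ}
    (hR : Valid R good val dS dB V Gm n) (v : ℕ) (hv : good v) (s : St R) (hpc : s.pc = 0)
    (hsv : s.v = v) (l b : ℕ) (hs : s.Bounded V Gm n l b)
    (hl : s.stk.length + dS v + dB v ≤ l) (hb : numBig s.stk + dB v ≤ b) :
    ∃ N : ℕ, ((step R)^[N] s).pc = 7 ∧ ((step R)^[N] s).stk = s.stk ∧
      ((step R)^[N] s).mem = addBits R s.mem (blk s.t) s.c (val v) ∧
      ∀ k ≤ N, ((step R)^[k] s).Bounded V Gm n l b := by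
  obtain ⟨s', ⟨N, h1, h2⟩, h3, h4, h5⟩ := run_aux hR l b (dS v + dB v) v le_rfl hv s hpc hsv hs
    hl hb
  refine ⟨N, ?_, ?_, ?_, h2⟩
  · rw [h1]; exact h3
  · rw [h1]; exact h4
  · rw [h1]; exact h5

end Vale.Agent.P312.Cat
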