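import Vale.Agent.P312.Model

/-!
# P312: counter programs and linear-space functions

`Cmd α` is a tiny structured counter language with a read-only input head.  `Run w B c s s'` is the
big-step semantics with the additional requirement that no counter is ever incremented to a value
`≥ B` (so counters fit in `log₂ B` bits).

`LS f` (for `f : List α → (Fin n → ℕ) → ℕ`) says that `f` is computed by a counter program whose
counters stay polynomially bounded in the arguments and the input length: these are the functions
computable in linear space (with output of linear length).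
-/

namespace Vale.Agent.P312

/-- Counter commands. -/
inductive Cmd (α : Type) : Type where
  | skip : Cmd α
  | inc (r : ℕ) : Cmd α
  | dec (r : ℕ) : Cmd α
  | seq (a b : Cmd α) : Cmd α
  | whileNZ (r : ℕ) (body : Cmd α) : Cmd α
  | inMove (m : Move) : Cmd α
  | inCase (p : InSym α → Bool) (a b : Cmd α) : Cmd α

/-- States: counter values and input head position. -/
structure CState where
  reg : ℕ → ℕ
  inp : ℕ

/-- Big-step semantics with counter bound `B`: no increment reaches a value `≥ B`. -/
inductive Run {α : Type} (w : List α) (B : ℕ) : Cmd α → CState → CState → Prop where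
  | skip (s) : Run w B .skip s s
  | inc (r s) (h : s.reg r + 1 < B) :
      Run w B (.inc r) s ⟨Function.update s.reg r (s.reg r + 1), s.inp⟩
  | dec (r s) : Run w B (.dec r) s ⟨Function.update s.reg r (s.reg r - 1), s.inp⟩
  | seq {a b s₁ s₂ s₃} (h₁ : Run w B a s₁ s₂) (h₂ : Run w B b s₂ s₃) : Run w B (.seq a b) s₁ s₃
  | whileDone {r body s} (h : s.reg r = 0) : Run w B (.whileNZ r body) s s
  | whileStep {r body s₁ s₂ s₃} (h : s₁.reg r ≠ 0) (h₁ : Run w B body s₁ s₂)
      (h₂ : Run w B (.whileNZ r body) s₂ s₃) : Run w B (.whileNZ r body) s₁ s₃
  | inMove (m s) : Run w B (.inMove m) s ⟨s.reg, moveInput w.length s.inp m⟩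
  | inTrue {p a b s s'} (h : p (inputAt w s.inp) = true) (h₁ : Run w B a s s') :
      Run w B (.inCase p a b) s s'
  | inFalse {p a b s s'} (h : p (inputAt w s.inp) = false) (h₁ : Run w B b s s') :
      Run w B (.inCase p a b) s s'

/-- All registers mentioned in the command are `< k`. -/
def Cmd.RegsBelow {α : Type} (k : ℕ) : Cmd α → Prop
  | .skip => True
  | .inc r => r < k
  | .dec r => r < k
  | .seq a b => a.RegsBelow k ∧ b.RegsBelow k
  | .whileNZ r body => r < k ∧ body.RegsBelow k
  | .inMove _ => True
  | .inCase _ a b => a.RegsBelow k ∧ b.RegsBelow k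

/-- `LS f`: linear-space computable functions.  For every choice of argument registers `ins`, a
result register `out` (initially `0`) and a `base` above all of these, there is a command which,
using only registers `≥ base` (initially and finally `0`) as scratch space, leaves everything
unchanged except that `out` receives `f w (argument values)`; the counters stay below any `B` with
`B ≥ (|w| + b + 2) ^ C`, `b` a bound for the arguments.  The input head starts and ends at `0`. -/
def LS {α : Type} {n : ℕ} (f : List α → (Fin n → ℕ) → ℕ) : Prop :=
  ∃ C K : ℕ,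
    (∀ w v b, (∀ i, v i ≤ b) → f w v + 1 < (w.length + b + 2) ^ C) ∧
    ∀ (ins : Fin n → ℕ) (out base : ℕ), (∀ i, ins i < base) → out < base →
      (∀ i, ins i ≠ out) →
      ∃ cmd : Cmd α, cmd.RegsBelow (base + K) ∧
        ∀ (w : List α) (σ : ℕ → ℕ) (b B : ℕ), (∀ i, σ (ins i) ≤ b) → σ out = 0 →
          (∀ r, base ≤ r → σ r = 0) → (w.length + b + 2) ^ C ≤ B →
          Run w B cmd ⟨σ, 0⟩ ⟨Function.update σ out (f w (fun i => σ (ins i))), 0⟩

/-- The least prime `≥ x`. -/
noncomputable def leastPrime (x : ℕ) : ℕ := sInf {p | x ≤ p ∧ p.Prime}

end Vale.Agent.P312
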