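import Vale.Agent.P312.Num

/-!
# P312: package E1, coding of a one-tape machine by a numeric machine
-/

namespace Vale.Agent.P312

variable {α : Type}

namespace Coding

variable (M : OneTapeTM α)

/-- The coding of the states. -/
noncomputable def eQ : M.Q ≃ Fin (Nat.card M.Q) :=
  haveI := M.finQ
  Finite.equivFin M.Q

/-- The coding of the symbols. -/
noncomputable def eG : M.Γ ≃ Fin (Nat.card M.Γ) :=
  haveI := M.finΓ
  Finite.equivFin M.Γ

/-- The code of a move. -/
def mv : Move → ℕ
  | .left => 0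
  | .stay => 1
  | .right => 2

theorem mv_le (m : Move) : mv m ≤ 2 := by cases m <;> simp [mv]

theorem mv_toInt (m : Move) : (mv m : ℤ) - 1 = m.toInt := by cases m <;> rfl

/-- The code of an answer. -/
def ans : Option Bool → ℕ
  | none => 0
  | some true => 1
  | some false => 2

theorem ans_le (m : Option Bool) : ans m ≤ 2 := by
  match m with
  | none => simp [ans]
  | some true => simp [ans]
  | some false => simp [ans]

theorem cardQ_pos : 0 < Nat.card M.Q := lt_of_le_of_lt (Nat.zero_le _) (eQ M M.start).2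

theorem cardG_pos : 0 < Nat.card M.Γ := lt_of_le_of_lt (Nat.zero_le _) (eG M M.blank).2

/-- The numeric machine coding `M`. -/
noncomputable def ntm : NTM where
  nQ := Nat.card M.Q
  nG := Nat.card M.Γ
  q0 := eQ M M.start
  bl := eG M M.blank
  tq q s := if h : q < Nat.card M.Q ∧ s < Nat.card M.Γ then
    (eQ M (M.trans ((eQ M).symm ⟨q, h.1⟩) ((eG M).symm ⟨s, h.2⟩)).1 : ℕ) else 0
  ts q s := if h : q < Nat.card M.Q ∧ s < Nat.card M.Γ then
    (eG M (M.trans ((eQ M).symm ⟨q, h.1⟩) ((eG M).symm ⟨s, h.2⟩)).2.1 : ℕ) else 0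
  tm q s := if h : q < Nat.card M.Q ∧ s < Nat.card M.Γ then
    mv (M.trans ((eQ M).symm ⟨q, h.1⟩) ((eG M).symm ⟨s, h.2⟩)).2.2 else 0
  hal q := if h : q < Nat.card M.Q then ans (M.answer ((eQ M).symm ⟨q, h⟩)) else 0
  q0_lt := (eQ M M.start).2
  bl_lt := (eG M M.blank).2
  tq_lt q s := by
    split_ifs with h
    · exact (eQ M _).2
    · exact cardQ_pos M
  ts_lt q s := by
    split_ifs with h
    · exact (eG M _).2
    · exact cardG_pos M
  tm_le q s := by
    split_ifs with h
    · exact mv_le _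
    · omega
  hal_le q := by
    split_ifs with h
    · exact ans_le _
    · omega
  tq_zero q s h := by rw [dif_neg (by omega)]
  ts_zero q s h := by rw [dif_neg (by omega)]
  tm_zero q s h := by rw [dif_neg (by omega)]
  hal_zero q h := by rw [dif_neg (by omega)]

/-- The code of a configuration. -/
noncomputable def cfg (c : M.Cfg) : NCfg where
  q := eQ M c.q
  pos := c.pos
  tape := fun i => eG M (c.tape i)

theorem tq_eq (q : M.Q) (s : M.Γ) : (ntm M).tq (eQ M q) (eG M s) = eQ M (M.trans q s).1 := by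
  have h : ((eQ M q : ℕ) < Nat.card M.Q ∧ (eG M s : ℕ) < Nat.card M.Γ) :=
    ⟨(eQ M q).2, (eG M s).2⟩
  change (if h : _ then _ else _) = _
  rw [dif_pos h]
  simp only [Fin.eta, Equiv.symm_apply_apply]

theorem ts_eq (q : M.Q) (s : M.Γ) : (ntm M).ts (eQ M q) (eG M s) = eG M (M.trans q s).2.1 := by
  have h : ((eQ M q : ℕ) < Nat.card M.Q ∧ (eG M s : ℕ) < Nat.card M.Γ) :=
    ⟨(eQ M q).2, (eG M s).2⟩
  change (if h : _ then _ else _) = _
  rw [dif_pos h]
  simp only [Fin.eta, Equiv.symm_apply_apply]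

theorem tm_eq (q : M.Q) (s : M.Γ) : (ntm M).tm (eQ M q) (eG M s) = mv (M.trans q s).2.2 := by
  have h : ((eQ M q : ℕ) < Nat.card M.Q ∧ (eG M s : ℕ) < Nat.card M.Γ) :=
    ⟨(eQ M q).2, (eG M s).2⟩
  change (if h : _ then _ else _) = _
  rw [dif_pos h]
  simp only [Fin.eta, Equiv.symm_apply_apply]

theorem hal_eq (q : M.Q) : (ntm M).hal (eQ M q) = ans (M.answer q) := by
  have h : (eQ M q : ℕ) < Nat.card M.Q := (eQ M q).2
  change (if h : _ then _ else _) = _
  rw [dif_pos h]
  simp only [Fin.eta, Equiv.symm_apply_apply]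

theorem step_cfg (c : M.Cfg) : (ntm M).step (cfg M c) = cfg M (M.step c) := by
  have h1 : (ntm M).hal (cfg M c).q = ans (M.answer c.q) := hal_eq M c.q
  unfold NTM.step OneTapeTM.step
  rw [h1]
  rcases hA : M.answer c.q with _ | b
  · rw [if_neg (by simp [ans])]
    have e1 : (cfg M c).pos = c.pos := rfl
    have e2 : (cfg M c).tape (cfg M c).pos = eG M (c.tape c.pos) := rfl
    have e3 : (cfg M c).q = eQ M c.q := rfl
    rw [e2, e3, tq_eq, ts_eq, tm_eq, e1, add_sub_assoc, mv_toInt]
    unfold cfg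
    simp only [NCfg.mk.injEq, true_and]
    funext i
    by_cases hi : i = c.pos
    · subst hi; rw [Function.update_self, Function.update_self]
    · rw [Function.update_of_ne hi, Function.update_of_ne hi]
  · rw [if_pos]
    cases b <;> simp [ans]

theorem init_cfg (w : List α) :
    (ntm M).init (fun a => (eG M (M.embed a) : ℕ)) w = cfg M (M.init w) := by
  unfold NTM.init OneTapeTM.init cfg
  simp only [NCfg.mk.injEq, true_and]
  refine ⟨rfl, ?_⟩
  funext i
  by_cases h : 0 ≤ i ∧ i.toNat < w.length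
  · rw [dif_pos h, dif_pos h]
  · rw [dif_neg h, dif_neg h]; rfl

theorem iter_cfg (w : List α) (k : ℕ) :
    (ntm M).step^[k] ((ntm M).init (fun a => (eG M (M.embed a) : ℕ)) w) =
      cfg M (M.step^[k] (M.init w)) := by
  induction k with
  | zero => exact init_cfg M w
  | succ k ih =>
    rw [Function.iterate_succ_apply', Function.iterate_succ_apply', ih, step_cfg]

end Coding

/-- E1 -/
theorem exists_coding (M : OneTapeTM α) : ∃ (N : NTM) (code : α → ℕ), (∀ a, code a < N.nG) ∧
    ∀ (w : List α) (k : ℕ), N.hal ((N.step^[k] (N.init code w)).q) =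
      (match M.answer (M.step^[k] (M.init w)).q with
        | none => 0
        | some true => 1
        | some false => 2) := by
  refine ⟨Coding.ntm M, fun a => (Coding.eG M (M.embed a) : ℕ), fun a => (Coding.eG M _).2, ?_⟩
  intro w k
  rw [Coding.iter_cfg]
  have h := Coding.hal_eq M (M.step^[k] (M.init w)).q
  have h2 : (Coding.cfg M (M.step^[k] (M.init w))).q = Coding.eQ M (M.step^[k] (M.init w)).q := rfl
  rw [h2, h]
  rcases hA : M.answer (M.step^[k] (M.init w)).q with _ | b
  · rfl
  · cases b <;> rfl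

end Vale.Agent.P312
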