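import Vale.Agent.P312.Num

/-! # P312: digit lemmas -/

namespace Vale.Agent.P312

open Finset

/-- The number with digits `f 0, …, f (n-1)` in base `E`. -/
def num (E n : ℕ) (f : ℕ → ℕ) : ℕ := ∑ i ∈ range n, f i * E ^ i

theorem num_lt {E n : ℕ} {f : ℕ → ℕ} (hf : ∀ i < n, f i < E) : num E n f < E ^ n := by
  induction n with
  | zero => simp [num]
  | succ n ih =>
    have h1 := ih (fun i hi => hf i (by omega))
    have h2 := hf n (by omega)
    have : num E (n + 1) f = num E n f + f n * E ^ n := by simp [num, Finset.sum_range_succ]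
    rw [this, pow_succ]
    calc num E n f + f n * E ^ n < E ^ n + f n * E ^ n := by omega
      _ = (f n + 1) * E ^ n := by ring
      _ ≤ E * E ^ n := Nat.mul_le_mul_right _ (by omega)
      _ = E ^ n * E := by ring

theorem num_add (E k m : ℕ) (f : ℕ → ℕ) :
    num E (k + m) f = num E k f + E ^ k * num E m (fun i => f (k + i)) := by
  unfold num
  rw [Finset.sum_range_add, Finset.mul_sum]
  congr 1
  apply Finset.sum_congr rfl
  intro i _
  rw [pow_add]; ring

theorem num_congr {E n : ℕ} {f g : ℕ → ℕ} (h : ∀ i < n, f i = g i) : num E n f = num E n g := by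
  unfold num
  apply Finset.sum_congr rfl
  intro i hi
  rw [h i (Finset.mem_range.mp hi)]

theorem num_mod {E k n : ℕ} {f : ℕ → ℕ} (hk : k ≤ n) (hf : ∀ i < n, f i < E) :
    num E n f % E ^ k = num E k f := by
  obtain ⟨m, rfl⟩ := Nat.exists_eq_add_of_le hk
  rw [num_add, Nat.add_mul_mod_self_left]
  exact Nat.mod_eq_of_lt (num_lt (fun i hi => hf i (by omega)))

theorem num_div {E k m : ℕ} {f : ℕ → ℕ} (hf : ∀ i < k + m, f i < E) :
    num E (k + m) f / E ^ k = num E m (fun i => f (k + i)) := by
  rw [num_add]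
  have h := num_lt (E := E) (n := k) (f := f) (fun i hi => hf i (by omega))
  rw [Nat.add_mul_div_left _ _ (by omega), Nat.div_eq_of_lt h, Nat.zero_add]

theorem dig_num {E n k : ℕ} {f : ℕ → ℕ} (hk : k < n) (hf : ∀ i < n, f i < E) :
    dig E (num E n f) k = f k := by
  obtain ⟨m, rfl⟩ := Nat.exists_eq_add_of_lt hk
  unfold dig
  have : k + m + 1 = k + (m + 1) := by ring
  rw [this, num_div (fun i hi => hf i (by omega))]
  have h2 : num E (m + 1) (fun i => f (k + i)) =
      num E 1 (fun i => f (k + i)) + E ^ 1 * num E m (fun i => f (k + (1 + i))) := by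
    rw [add_comm m 1, num_add]
  rw [h2, pow_one, Nat.add_mul_mod_self_left]
  simp [num]
  exact Nat.mod_eq_of_lt (hf k (by omega))

/-- Every number `< E ^ n` is the number with its digits. -/
theorem num_dig {E n x : ℕ} (hx : x < E ^ n) : num E n (dig E x) = x := by
  have key : ∀ m, num E m (dig E x) = x % E ^ m := by
    intro m
    induction m with
    | zero => simp [num, Nat.mod_one]
    | succ m ih =>
      have : num E (m + 1) (dig E x) = num E m (dig E x) + dig E x m * E ^ m := by
        simp [num, Finset.sum_range_succ]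
      rw [this, ih, dig, pow_succ, Nat.mod_mul]
      ring
  rw [key, Nat.mod_eq_of_lt hx]

theorem dig_lt {E x k : ℕ} (hE : 0 < E) : dig E x k < E := Nat.mod_lt _ hE

theorem eq_of_dig_eq {E n x y : ℕ} (hx : x < E ^ n) (hy : y < E ^ n)
    (h : ∀ k < n, dig E x k = dig E y k) : x = y := by
  rw [← num_dig hx, ← num_dig hy]
  exact num_congr h

/-- Digits vanish beyond the length. -/
theorem dig_eq_zero {E n x k : ℕ} (hx : x < E ^ n) (hk : n ≤ k) (hE : 0 < E) :
    dig E x k = 0 := by
  unfold dig
  rw [Nat.div_eq_of_lt (lt_of_lt_of_le hx (Nat.pow_le_pow_right hE hk)), Nat.zero_mod]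

/-- Changing one digit. -/
theorem num_update {E n k s : ℕ} {f : ℕ → ℕ} (hk : k < n) :
    num E n (Function.update f k s) = num E n f - f k * E ^ k + s * E ^ k := by
  unfold num
  have h1 := Finset.sum_erase_add (range n) (fun i => Function.update f k s i * E ^ i)
    (Finset.mem_range.mpr hk)
  have h2 := Finset.sum_erase_add (range n) (fun i => f i * E ^ i) (Finset.mem_range.mpr hk)
  have h3 : ∑ x ∈ (range n).erase k, Function.update f k s x * E ^ x =
      ∑ x ∈ (range n).erase k, f x * E ^ x := by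
    apply Finset.sum_congr rfl
    intro i hi
    rw [Function.update_of_ne (Finset.ne_of_mem_erase hi)]
  simp only [Function.update_self] at h1
  rw [← h1, ← h2, h3, Nat.add_sub_cancel]

theorem cpow_eq {B a k : ℕ} (h : a ^ k ≤ B) : cpow B a k = a ^ k := by
  simp [cpow, h]

/-! ### Bits -/

theorem bit_lt (y j : ℕ) : Cat.bit y j < 2 := Nat.mod_lt _ (by norm_num)

theorem bit_eq_dig (y j : ℕ) : Cat.bit y j = dig 2 y j := rfl

theorem bit_two_pow (g j : ℕ) : Cat.bit (2 ^ g) j = if g = j then 1 else 0 := by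
  unfold Cat.bit
  rcases lt_trichotomy g j with h | h | h
  · rw [Nat.div_eq_of_lt (Nat.pow_lt_pow_right (by norm_num) h)]
    simp [h.ne]
  · subst h; simp
  · rw [Nat.pow_div h.le (by norm_num), if_neg (by omega)]
    obtain ⟨m, rfl⟩ := Nat.exists_eq_add_of_lt h
    have : j + m + 1 - j = m + 1 := by omega
    rw [this, pow_succ]; simp

/-- Bits of a sum of a number `< 2 ^ m` and a multiple of `2 ^ m`. -/
theorem bit_add {x z m : ℕ} (hx : x < 2 ^ m) (j : ℕ) :
    Cat.bit (x + 2 ^ m * z) j = Cat.bit x j + Cat.bit (2 ^ m * z) j := by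
  unfold Cat.bit
  rcases lt_or_ge j m with h | h
  · obtain ⟨l, rfl⟩ := Nat.exists_eq_add_of_lt h
    have e : 2 ^ (j + l + 1) * z = 2 ^ j * (2 * (2 ^ l * z)) := by rw [pow_add, pow_add]; ring
    rw [e, Nat.add_mul_div_left _ _ (by positivity), Nat.mul_div_cancel_left _ (by positivity)]
    omega
  · have h1 : x / 2 ^ j = 0 := Nat.div_eq_of_lt (lt_of_lt_of_le hx (Nat.pow_le_pow_right (by norm_num) h))
    obtain ⟨l, rfl⟩ := Nat.exists_eq_add_of_le h
    have h2 : (x + 2 ^ m * z) / 2 ^ (m + l) = 2 ^ m * z / 2 ^ (m + l) := by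
      rw [pow_add, ← Nat.div_div_eq_div_mul, ← Nat.div_div_eq_div_mul,
        Nat.add_mul_div_left _ _ (by positivity), Nat.div_eq_of_lt hx, Nat.zero_add,
        Nat.mul_div_cancel_left _ (by positivity)]
    rw [h1, h2]; simp

end Vale.Agent.P312
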