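import Vale.Agent.P312.Mach

/-!
# P312: package G, parameter estimates
-/

namespace Vale.Agent.P312

namespace Est

theorem ell_mono {a b : ℕ} (h : a ≤ b) : ell a ≤ ell b := by
  unfold ell
  have := Nat.log_mono_right (b := 2) (show a + 2 ≤ b + 2 by omega)
  omega

theorem lt_two_pow_ell (u : ℕ) : u + 2 < 2 ^ ell u := by
  unfold ell
  exact Nat.lt_pow_succ_log_self (by norm_num) _

theorem ell_le (u : ℕ) : ell u ≤ u + 2 := by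
  unfold ell
  have := Nat.log_lt_self 2 (show u + 2 ≠ 0 by omega)
  omega

theorem one_le_ell (u : ℕ) : 1 ≤ ell u := by
  unfold ell
  omega

/-- The threshold function. -/
def thr (D u : ℕ) : ℕ := D * (u + 2) ^ 2 * ell u ^ 2

theorem thr_mono (D : ℕ) {a b : ℕ} (h : a ≤ b) : thr D a ≤ thr D b := by
  unfold thr
  exact Nat.mul_le_mul (Nat.mul_le_mul_left _ (Nat.pow_le_pow_left (by omega) 2))
    (Nat.pow_le_pow_left (ell_mono h) 2)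

theorem thr_lt (D : ℕ) (hD : 1 ≤ D) {a b : ℕ} (h : a < b) : thr D a < thr D b := by
  unfold thr
  have h1 : (a + 2) ^ 2 < (b + 2) ^ 2 := Nat.pow_lt_pow_left (by omega) (by norm_num)
  have h2 : ell a ^ 2 ≤ ell b ^ 2 := Nat.pow_le_pow_left (ell_mono h.le) 2
  have h3 : 0 < ell b ^ 2 := Nat.pow_pos (one_le_ell b)
  calc D * (a + 2) ^ 2 * ell a ^ 2 ≤ D * (a + 2) ^ 2 * ell b ^ 2 := Nat.mul_le_mul_left _ h2
    _ < D * (b + 2) ^ 2 * ell b ^ 2 := by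
        apply Nat.mul_lt_mul_of_pos_right _ h3
        exact Nat.mul_lt_mul_of_pos_left h1 (by omega)

theorem thr_ge (D : ℕ) (hD : 1 ≤ D) (u : ℕ) : u < thr D u := by
  unfold thr
  have h3 : 1 ≤ ell u ^ 2 := Nat.one_le_pow _ _ (one_le_ell u)
  have h4 : u < (u + 2) ^ 2 := by nlinarith
  calc u < (u + 2) ^ 2 := h4
    _ = 1 * (u + 2) ^ 2 * 1 := by ring
    _ ≤ D * (u + 2) ^ 2 * ell u ^ 2 := Nat.mul_le_mul (Nat.mul_le_mul_right _ hD) h3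

end Est

theorem uOf_le (D B : ℕ) : uOf D B ≤ B := by
  unfold uOf
  apply Nat.sInf_le
  right
  rfl

theorem uOf_spec (D B : ℕ) (h : 1 ≤ uOf D B) : Est.thr D (uOf D B) ≤ Nat.log 2 B := by
  by_contra hcon
  push Not at hcon
  have hle := uOf_le D B
  have h1 : uOf D B - 1 < uOf D B := by omega
  have h2 : uOf D B - 1 ∉ ({a | a < B ∧ Nat.log 2 B < D * (a + 3) ^ 2 * ell (a + 1) ^ 2} ∪ {B} :
      Set ℕ) := by
    apply Nat.notMem_of_lt_sInf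
    exact h1
  apply h2
  left
  rw [Set.mem_ofPred_eq]
  refine ⟨by omega, ?_⟩
  have e1 : uOf D B - 1 + 3 = uOf D B + 2 := by omega
  have e2 : uOf D B - 1 + 1 = uOf D B := by omega
  rw [e1, e2]
  exact hcon

theorem uOf_target (D : ℕ) (hD : 1 ≤ D) (u : ℕ) (_hu : 1 ≤ u) :
    uOf D (2 ^ (D * (u + 2) ^ 2 * ell u ^ 2)) = u := by
  have hlog : Nat.log 2 (2 ^ (D * (u + 2) ^ 2 * ell u ^ 2)) = Est.thr D u :=
    Nat.log_pow (by norm_num) _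
  apply le_antisymm
  · unfold uOf
    apply Nat.sInf_le
    left
    rw [Set.mem_ofPred_eq, hlog]
    constructor
    · calc u < Est.thr D u := Est.thr_ge D hD u
        _ < 2 ^ Est.thr D u := Nat.lt_two_pow_self
    · exact Est.thr_lt D hD (Nat.lt_succ_self u)
  · by_contra hcon
    push Not at hcon
    have hmem : uOf D (2 ^ (D * (u + 2) ^ 2 * ell u ^ 2)) ∈
        ({a | a < 2 ^ (D * (u + 2) ^ 2 * ell u ^ 2) ∧
          Nat.log 2 (2 ^ (D * (u + 2) ^ 2 * ell u ^ 2)) <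
            D * (a + 3) ^ 2 * ell (a + 1) ^ 2} ∪ {2 ^ (D * (u + 2) ^ 2 * ell u ^ 2)} :
          Set ℕ) := by
      unfold uOf
      apply Nat.sInf_mem
      exact ⟨2 ^ (D * (u + 2) ^ 2 * ell u ^ 2), Or.inr rfl⟩
    rcases hmem with h1 | h1
    · rw [Set.mem_ofPred_eq, hlog] at h1
      have h2 := Est.thr_mono D (show uOf D (2 ^ (D * (u + 2) ^ 2 * ell u ^ 2)) + 1 ≤ u by omega)
      exact absurd h1.2 (not_lt.mpr h2)
    · rw [Set.mem_singleton_iff] at h1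
      have h2 : u < 2 ^ (D * (u + 2) ^ 2 * ell u ^ 2) :=
        calc u < Est.thr D u := Est.thr_ge D hD u
          _ < 2 ^ Est.thr D u := Nat.lt_two_pow_self
      omega

namespace Est

theorem leastPrime_prime (x : ℕ) : (leastPrime x).Prime ∧ x ≤ leastPrime x := by
  have hne : {p | x ≤ p ∧ p.Prime}.Nonempty := by
    obtain ⟨p, hp1, hp2⟩ := Nat.exists_infinite_primes x
    exact ⟨p, hp1, hp2⟩
  have h := Nat.sInf_mem hne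
  rw [Set.mem_ofPred_eq] at h
  exact ⟨h.2, h.1⟩

theorem leastPrime_le (x : ℕ) (hx : x ≠ 0) : leastPrime x ≤ 2 * x := by
  obtain ⟨p, hp, h1, h2⟩ := Nat.exists_prime_lt_and_le_two_mul x hx
  refine le_trans (Nat.sInf_le ?_) h2
  rw [Set.mem_ofPred_eq]
  exact ⟨h1.le, hp⟩

/-- `c * 2 ^ x ≤ 2 ^ (c + x)` -/
theorem mul_two_pow_le (c x : ℕ) : c * 2 ^ x ≤ 2 ^ (c + x) := by
  rw [pow_add]
  exact Nat.mul_le_mul_right _ (Nat.lt_two_pow_self).le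

end Est


namespace Est

/-- The basic numeric facts (`v = u + 2`). -/
structure Ctx (c0 k0 D B u ℓ M : ℕ) : Prop where
  hk0 : k0 = c0 + 8
  hu : 1 ≤ u
  hℓ1 : 1 ≤ ℓ
  hvℓ : u + 2 ≤ 2 ^ ℓ
  hℓv : ℓ ≤ u + 2
  hM : M = (u + 2) ^ 2 * ℓ ^ 2
  hD : 1 ≤ D
  hB : 2 ^ (D * M) ≤ B

namespace Ctx

variable {c0 k0 D B u ℓ M : ℕ} (h : Ctx c0 k0 D B u ℓ M)
include h

theorem powB (c x : ℕ) (hx : x ≤ c * M) : 2 ^ x ≤ B ^ c := by
  have hM : M ≤ D * M := Nat.le_mul_of_pos_left _ h.hD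
  calc 2 ^ x ≤ 2 ^ (D * M * c) := by
        apply Nat.pow_le_pow_right (by norm_num)
        refine le_trans hx ?_
        rw [mul_comm]
        exact Nat.mul_le_mul_right _ hM
    _ = (2 ^ (D * M)) ^ c := by rw [pow_mul]
    _ ≤ B ^ c := Nat.pow_le_pow_left h.hB c

theorem powB1 (x : ℕ) (hx : x ≤ D * M) : 2 ^ x ≤ B :=
  le_trans (Nat.pow_le_pow_right (by norm_num) hx) h.hB

theorem M_pos : 1 ≤ M := by
  have h1 := h.hℓ1
  rw [h.hM]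
  exact Nat.mul_pos (Nat.pow_pos (by omega)) (Nat.pow_pos (by omega))

theorem hvv : (u + 2) * ℓ ≤ M := by
  have h0 := h.hℓ1
  rw [h.hM]
  have h1 : u + 2 ≤ (u + 2) ^ 2 := by nlinarith
  have h2 : ℓ ≤ ℓ ^ 2 := by nlinarith
  exact Nat.mul_le_mul h1 h2

theorem hv2 : (u + 2) ^ 2 * ℓ ≤ M := by
  have h0 := h.hℓ1
  rw [h.hM]
  have h2 : ℓ ≤ ℓ ^ 2 := by nlinarith
  exact Nat.mul_le_mul_left _ h2

theorem hℓM : ℓ ≤ M := le_trans (Nat.le_mul_of_pos_left _ (by omega)) h.hvv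

theorem hkap2 : c0 + 8 * ℓ ≤ k0 * ℓ := by
  rw [h.hk0, add_mul]
  have : c0 ≤ c0 * ℓ := Nat.le_mul_of_pos_right _ h.hℓ1
  omega

theorem hW2' : (u ^ 2 + 2) * (c0 + 8 * ℓ) ≤ k0 * ((u + 2) ^ 2 * ℓ) := by
  have h1 : u ^ 2 + 2 ≤ (u + 2) ^ 2 := by
    have e : (u + 2) ^ 2 = u ^ 2 + 4 * u + 4 := by ring
    omega
  calc (u ^ 2 + 2) * (c0 + 8 * ℓ) ≤ (u + 2) ^ 2 * (k0 * ℓ) := Nat.mul_le_mul h1 h.hkap2
    _ = k0 * ((u + 2) ^ 2 * ℓ) := by ring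

theorem hW2 : (u ^ 2 + 1) * (c0 + 8 * ℓ) ≤ k0 * ((u + 2) ^ 2 * ℓ) :=
  le_trans (Nat.mul_le_mul_right _ (by omega)) h.hW2'

theorem hW3 : (u ^ 2 + 1) * (c0 + 8 * ℓ) ≤ k0 * (u + 2) ^ 3 := by
  calc (u ^ 2 + 1) * (c0 + 8 * ℓ) ≤ k0 * ((u + 2) ^ 2 * ℓ) := h.hW2
    _ ≤ k0 * ((u + 2) ^ 2 * (u + 2)) :=
        Nat.mul_le_mul_left _ (Nat.mul_le_mul_left _ h.hℓv)
    _ = k0 * (u + 2) ^ 3 := by ring

theorem hv3 (k : ℕ) : (u + 2) ^ k ≤ 2 ^ (k * ℓ) := by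
  calc (u + 2) ^ k ≤ (2 ^ ℓ) ^ k := Nat.pow_le_pow_left h.hvℓ k
    _ = 2 ^ (k * ℓ) := by rw [← pow_mul, mul_comm]

theorem prime_le {W p : ℕ} (hW : W = (u ^ 2 + 1) * (c0 + 8 * ℓ))
    (hp : p ≤ 2 * (u * (2 * W) + 3)) : p ≤ 2 ^ ((4 * k0 + 10) * ℓ) := by
  have h1 : u * (2 * W) + 3 ≤ (2 * k0 + 3) * (u + 2) ^ 4 := by
    have h2 : u * (2 * W) ≤ 2 * k0 * (u + 2) ^ 4 := by
      calc u * (2 * W) ≤ (u + 2) * (2 * (k0 * (u + 2) ^ 3)) := by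
            rw [hW]
            exact Nat.mul_le_mul (by omega) (Nat.mul_le_mul_left _ h.hW3)
        _ = 2 * k0 * (u + 2) ^ 4 := by ring
    have h3 : 1 ≤ (u + 2) ^ 4 := Nat.one_le_pow _ _ (by omega)
    calc u * (2 * W) + 3 ≤ 2 * k0 * (u + 2) ^ 4 + 3 * (u + 2) ^ 4 := by omega
      _ = (2 * k0 + 3) * (u + 2) ^ 4 := by ring
  calc p ≤ 2 * (u * (2 * W) + 3) := hp
    _ ≤ 2 * ((2 * k0 + 3) * (u + 2) ^ 4) := Nat.mul_le_mul_left _ h1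
    _ = (4 * k0 + 6) * (u + 2) ^ 4 := by ring
    _ ≤ (4 * k0 + 6) * 2 ^ (4 * ℓ) := Nat.mul_le_mul_left _ (h.hv3 4)
    _ ≤ 2 ^ (4 * k0 + 6 + 4 * ℓ) := Est.mul_two_pow_le _ _
    _ ≤ 2 ^ ((4 * k0 + 10) * ℓ) := by
        apply Nat.pow_le_pow_right (by norm_num)
        have e : (4 * k0 + 10) * ℓ = (4 * k0 + 6) * ℓ + 4 * ℓ := by ring
        have : 4 * k0 + 6 ≤ (4 * k0 + 6) * ℓ := Nat.le_mul_of_pos_right _ h.hℓ1
        omega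

theorem bs_le {p E bs : ℕ} (hp : p ≤ 2 ^ ((4 * k0 + 10) * ℓ)) (hE : E ≤ 2 ^ (k0 * ℓ))
    (hbs : bs = p + 2 * (u + 2) * (E + u ^ 2 + u + 3) + u + 10) :
    bs ≤ 2 ^ ((5 * k0 + 19) * ℓ) := by
  have hℓ1 := h.hℓ1
  have hk0 := h.hk0
  rw [hbs]
  have h1 : E + u ^ 2 + u + 3 ≤ 2 ^ (k0 * ℓ + 1) := by
    have h2 : u ^ 2 + u + 3 ≤ (u + 2) ^ 2 := by
      have e : (u + 2) ^ 2 = u ^ 2 + 4 * u + 4 := by ring
      omega
    have h3 : 2 ^ (2 * ℓ) ≤ 2 ^ (k0 * ℓ) :=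
      Nat.pow_le_pow_right (by norm_num) (Nat.mul_le_mul_right _ (by omega))
    have h4 := h.hv3 2
    have e : 2 ^ (k0 * ℓ + 1) = 2 ^ (k0 * ℓ) * 2 := pow_succ _ _
    rw [e]
    omega
  have h2 : 2 * (u + 2) * (E + u ^ 2 + u + 3) ≤ 2 ^ ((5 * k0 + 17) * ℓ) := by
    calc 2 * (u + 2) * (E + u ^ 2 + u + 3)
        ≤ 2 * 2 ^ ℓ * 2 ^ (k0 * ℓ + 1) :=
          Nat.mul_le_mul (Nat.mul_le_mul_left _ h.hvℓ) h1
      _ = 2 ^ (k0 * ℓ + ℓ + 2) := by ring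
      _ ≤ 2 ^ ((5 * k0 + 17) * ℓ) := by
          apply Nat.pow_le_pow_right (by norm_num)
          have e : (5 * k0 + 17) * ℓ = k0 * ℓ + ℓ + (4 * (k0 * ℓ) + 16 * ℓ) := by ring
          rw [e]
          omega
  have h3 : p ≤ 2 ^ ((5 * k0 + 17) * ℓ) :=
    le_trans hp (Nat.pow_le_pow_right (by norm_num) (Nat.mul_le_mul_right _ (by omega)))
  have h4 : u + 10 ≤ 2 ^ ((5 * k0 + 17) * ℓ) := by
    calc u + 10 ≤ 2 ^ ℓ * 2 ^ 4 := by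
          have := h.hvℓ
          have : 1 ≤ 2 ^ ℓ := Nat.one_le_two_pow
          omega
      _ = 2 ^ (ℓ + 4) := by rw [pow_add]
      _ ≤ 2 ^ ((5 * k0 + 17) * ℓ) := by
          apply Nat.pow_le_pow_right (by norm_num)
          have e : (5 * k0 + 17) * ℓ = ℓ + 4 * ℓ + (5 * (k0 * ℓ) + 12 * ℓ) := by ring
          rw [e]
          omega
  calc p + 2 * (u + 2) * (E + u ^ 2 + u + 3) + u + 10
      ≤ 4 * 2 ^ ((5 * k0 + 17) * ℓ) := by omega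
    _ = 2 ^ ((5 * k0 + 17) * ℓ + 2) := by rw [pow_add]; ring
    _ ≤ 2 ^ ((5 * k0 + 19) * ℓ) := by
        apply Nat.pow_le_pow_right (by norm_num)
        have e : (5 * k0 + 19) * ℓ = (5 * k0 + 17) * ℓ + 2 * ℓ := by ring
        rw [e]
        omega

theorem hku : (c0 + 8 * ℓ) * (u + 1) ≤ k0 * ((u + 2) * ℓ) := by
  calc (c0 + 8 * ℓ) * (u + 1) ≤ (k0 * ℓ) * (u + 2) := Nat.mul_le_mul h.hkap2 (by omega)
    _ = k0 * ((u + 2) * ℓ) := by ring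

theorem bg_le {W bg : ℕ} (hW : W = (u ^ 2 + 1) * (c0 + 8 * ℓ))
    (hbg : bg = 2 ^ ((c0 + 8 * ℓ) * (u + 1)) + W + 1) :
    bg ≤ 2 ^ ((2 * k0 + 5) * ((u + 2) * ℓ)) := by
  have hℓ1 := h.hℓ1
  rw [hbg]
  have hW3 := h.hW3
  rw [← hW] at hW3
  have h1 : W + 1 ≤ 2 ^ ((k0 + 4) * ((u + 2) * ℓ)) := by
    calc W + 1 ≤ k0 * (u + 2) ^ 3 + 1 := by omega
      _ ≤ (k0 + 1) * (u + 2) ^ 3 := by
          have : 1 ≤ (u + 2) ^ 3 := Nat.one_le_pow _ _ (by omega)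
          rw [add_mul]; omega
      _ ≤ (k0 + 1) * 2 ^ (3 * ℓ) := Nat.mul_le_mul_left _ (h.hv3 3)
      _ ≤ 2 ^ (k0 + 1 + 3 * ℓ) := Est.mul_two_pow_le _ _
      _ ≤ 2 ^ ((k0 + 4) * ((u + 2) * ℓ)) := by
          apply Nat.pow_le_pow_right (by norm_num)
          have h2 : ℓ ≤ (u + 2) * ℓ := Nat.le_mul_of_pos_left _ (by omega)
          have h3 : (k0 + 4) * ℓ ≤ (k0 + 4) * ((u + 2) * ℓ) := Nat.mul_le_mul_left _ h2
          have h4 : (k0 + 4) * ℓ = k0 * ℓ + ℓ + 3 * ℓ := by ring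
          have h5 : k0 ≤ k0 * ℓ := Nat.le_mul_of_pos_right _ hℓ1
          omega
  have h2 : 2 ^ ((c0 + 8 * ℓ) * (u + 1)) ≤ 2 ^ ((k0 + 4) * ((u + 2) * ℓ)) := by
    apply Nat.pow_le_pow_right (by norm_num)
    exact le_trans h.hku (Nat.mul_le_mul_right _ (by omega))
  calc 2 ^ ((c0 + 8 * ℓ) * (u + 1)) + W + 1 ≤ 2 * 2 ^ ((k0 + 4) * ((u + 2) * ℓ)) := by omega
    _ = 2 ^ ((k0 + 4) * ((u + 2) * ℓ) + 1) := by rw [pow_succ]; ring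
    _ ≤ 2 ^ ((2 * k0 + 5) * ((u + 2) * ℓ)) := by
        apply Nat.pow_le_pow_right (by norm_num)
        have h3 : 1 ≤ (u + 2) * ℓ := Nat.mul_pos (by omega) hℓ1
        have e : (2 * k0 + 5) * ((u + 2) * ℓ) = (k0 + 4) * ((u + 2) * ℓ) +
          (k0 + 1) * ((u + 2) * ℓ) := by ring
        have h4 : 1 ≤ (k0 + 1) * ((u + 2) * ℓ) := Nat.mul_pos (by omega) h3
        omega

theorem concl_kapE {nQ : ℕ} (hnQ : 3 * nQ ≤ c0) :
    (2 * (u + 2) ^ 8 + 1) * nQ ≤ 2 ^ (c0 + 8 * ℓ) := by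
  have hc0pow : c0 ≤ 2 ^ c0 := (Nat.lt_two_pow_self).le
  have hZ1 : 1 ≤ (u + 2) ^ 8 := Nat.one_le_pow _ _ (by omega)
  calc (2 * (u + 2) ^ 8 + 1) * nQ ≤ (3 * (u + 2) ^ 8) * nQ :=
        Nat.mul_le_mul_right _ (by omega)
    _ = 3 * nQ * (u + 2) ^ 8 := by ring
    _ ≤ 2 ^ c0 * 2 ^ (8 * ℓ) := Nat.mul_le_mul (by omega) (h.hv3 8)
    _ = 2 ^ (c0 + 8 * ℓ) := by rw [pow_add]

theorem concl_B (hD : k0 + 10 ≤ D) :
    2 ^ ((u ^ 2 + 2) * (c0 + 8 * ℓ)) * (u + 2) ^ 10 ≤ B := by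
  calc 2 ^ ((u ^ 2 + 2) * (c0 + 8 * ℓ)) * (u + 2) ^ 10
      ≤ 2 ^ ((u ^ 2 + 2) * (c0 + 8 * ℓ)) * 2 ^ (10 * ℓ) := Nat.mul_le_mul_left _ (h.hv3 10)
    _ = 2 ^ ((u ^ 2 + 2) * (c0 + 8 * ℓ) + 10 * ℓ) := by rw [pow_add]
    _ ≤ B := by
        apply h.powB1
        have h2 : k0 * ((u + 2) ^ 2 * ℓ) ≤ k0 * M := Nat.mul_le_mul_left _ h.hv2
        have h3 : (k0 + 10) * M ≤ D * M := Nat.mul_le_mul_right _ hD
        have h4 : (k0 + 10) * M = k0 * M + 10 * M := by ring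
        have h5 := h.hW2'
        have h6 := h.hℓM
        omega

theorem concl_pW {W p : ℕ} (hW : W = (u ^ 2 + 1) * (c0 + 8 * ℓ))
    (hp : p ≤ 2 ^ ((4 * k0 + 10) * ℓ)) (hD : 3 * k0 * (4 * k0 + 10) ≤ D) : p ^ (3 * W) ≤ B := by
  have hW2 := h.hW2
  rw [← hW] at hW2
  calc p ^ (3 * W) ≤ (2 ^ ((4 * k0 + 10) * ℓ)) ^ (3 * W) := Nat.pow_le_pow_left hp _
    _ = 2 ^ ((4 * k0 + 10) * ℓ * (3 * W)) := by rw [← pow_mul]
    _ ≤ B := by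
        apply h.powB1
        calc (4 * k0 + 10) * ℓ * (3 * W) ≤ (4 * k0 + 10) * ℓ * (3 * (k0 * ((u + 2) ^ 2 * ℓ))) :=
              Nat.mul_le_mul_left _ (Nat.mul_le_mul_left _ hW2)
          _ = 3 * k0 * (4 * k0 + 10) * M := by rw [h.hM]; ring
          _ ≤ D * M := Nat.mul_le_mul_right _ hD

theorem concl_stk {bs bg C : ℕ} (hbs : bs ≤ 2 ^ ((5 * k0 + 19) * ℓ))
    (hbg : bg ≤ 2 ^ ((2 * k0 + 5) * ((u + 2) * ℓ))) (hC : 37 * k0 + 138 ≤ C) :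
    (bs ^ 7) ^ ((u + 1) * (u + 2) + (u + 2)) * bg ^ (u + 2) ≤ B ^ C := by
  have e1 : (u + 1) * (u + 2) + (u + 2) = (u + 2) ^ 2 := by ring
  rw [e1]
  calc (bs ^ 7) ^ ((u + 2) ^ 2) * bg ^ (u + 2)
      ≤ ((2 ^ ((5 * k0 + 19) * ℓ)) ^ 7) ^ ((u + 2) ^ 2) *
        (2 ^ ((2 * k0 + 5) * ((u + 2) * ℓ))) ^ (u + 2) :=
        Nat.mul_le_mul (Nat.pow_le_pow_left (Nat.pow_le_pow_left hbs 7) _)
          (Nat.pow_le_pow_left hbg _)
    _ = 2 ^ ((5 * k0 + 19) * ℓ * 7 * (u + 2) ^ 2 + (2 * k0 + 5) * ((u + 2) * ℓ) * (u + 2)) := by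
        rw [← pow_mul, ← pow_mul, ← pow_mul, ← pow_add]
        congr 1
        ring
    _ ≤ B ^ C := by
        apply h.powB
        calc (5 * k0 + 19) * ℓ * 7 * (u + 2) ^ 2 + (2 * k0 + 5) * ((u + 2) * ℓ) * (u + 2)
            = (37 * k0 + 138) * ((u + 2) ^ 2 * ℓ) := by ring
          _ ≤ C * M := Nat.mul_le_mul hC h.hv2

theorem concl_sum {bs bg C : ℕ} (hbs : bs ≤ 2 ^ ((5 * k0 + 19) * ℓ))
    (hbg : bg ≤ 2 ^ ((2 * k0 + 5) * ((u + 2) * ℓ))) (hC : 7 * k0 + 26 ≤ C) :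
    bs + bg + u ^ 2 + 20 ≤ B ^ C := by
  have h1 : bs ≤ 2 ^ ((7 * k0 + 24) * M) := by
    refine le_trans hbs (Nat.pow_le_pow_right (by norm_num) ?_)
    exact Nat.mul_le_mul (by omega) h.hℓM
  have h2 : bg ≤ 2 ^ ((7 * k0 + 24) * M) := by
    refine le_trans hbg (Nat.pow_le_pow_right (by norm_num) ?_)
    exact Nat.mul_le_mul (by omega) h.hvv
  have h3 : u ^ 2 ≤ 2 ^ ((7 * k0 + 24) * M) := by
    calc u ^ 2 ≤ (u + 2) ^ 2 := Nat.pow_le_pow_left (by omega) 2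
      _ ≤ 2 ^ (2 * ℓ) := h.hv3 2
      _ ≤ 2 ^ ((7 * k0 + 24) * M) := by
          apply Nat.pow_le_pow_right (by norm_num)
          exact Nat.mul_le_mul (by omega) h.hℓM
  have h4 : 20 ≤ 2 ^ ((7 * k0 + 24) * M) := by
    calc 20 ≤ 2 ^ (5 * 1) := by norm_num
      _ ≤ 2 ^ ((7 * k0 + 24) * M) := by
          apply Nat.pow_le_pow_right (by norm_num)
          exact Nat.mul_le_mul (by omega) h.M_pos
  calc bs + bg + u ^ 2 + 20 ≤ 4 * 2 ^ ((7 * k0 + 24) * M) := by omega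
    _ = 2 ^ ((7 * k0 + 24) * M + 2) := by rw [pow_add]; ring
    _ ≤ B ^ C := by
        apply h.powB
        have h5 : (7 * k0 + 26) * M ≤ C * M := Nat.mul_le_mul_right _ hC
        have h6 : (7 * k0 + 26) * M = (7 * k0 + 24) * M + 2 * M := by ring
        have h7 := h.M_pos
        omega

end Ctx

theorem ctx {c0 D B : ℕ} (hD : 1 ≤ D) (hu : 1 ≤ uOf D B) :
    Ctx c0 (c0 + 8) D B (uOf D B) (ell (uOf D B)) ((uOf D B + 2) ^ 2 * ell (uOf D B) ^ 2) := by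
  refine ⟨rfl, hu, one_le_ell _, (lt_two_pow_ell _).le, ell_le _, rfl, hD, ?_⟩
  have hspec := uOf_spec D B hu
  have hBu := uOf_le D B
  have hB0 : B ≠ 0 := by omega
  refine le_trans (Nat.pow_le_pow_right (by norm_num) ?_) (Nat.pow_log_le_self 2 hB0)
  rw [← mul_assoc]
  exact hspec

theorem prm_kap (c0 D B r : ℕ) : (prm c0 D B r).kap = c0 + 8 * ell (uOf D B) := rfl

theorem prm_W (c0 D B r : ℕ) :
    (prm c0 D B r).W = (uOf D B ^ 2 + 1) * (c0 + 8 * ell (uOf D B)) := rfl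

theorem prm_b (c0 D B r : ℕ) : (prm c0 D B r).b = uOf D B ^ 2 := rfl

theorem prm_E (c0 D B r : ℕ) :
    (prm c0 D B r).E = min (2 ^ (c0 + 8 * ell (uOf D B))) B := rfl

end Est

theorem est (N : NTM) : ∃ c0 D C : ℕ, 1 ≤ D ∧ ∀ B r : ℕ, 1 ≤ uOf D B → r < uOf D B ^ 2 →
    (prm c0 D B r).OK N ∧ (pOf c0 D B).Prime ∧
    uOf D B * (2 * (prm c0 D B r).W) + 2 < pOf c0 D B ∧
    pOf c0 D B ^ (3 * (prm c0 D B r).W) ≤ B ∧
    2 ^ (prm c0 D B r).W ≤ B ∧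
    2 * (uOf D B + 2) * ((prm c0 D B r).E + (prm c0 D B r).b + uOf D B + 3) ≤ bsOf c0 D B ∧
    pOf c0 D B ≤ bsOf c0 D B ∧ uOf D B < bsOf c0 D B ∧ 10 ≤ bsOf c0 D B ∧
    2 ^ ((prm c0 D B r).kap * (uOf D B + 1)) + (prm c0 D B r).W < bgOf c0 D B ∧
    (bsOf c0 D B ^ 7) ^ ((uOf D B + 1) * (uOf D B + 2) + (uOf D B + 2)) *
      bgOf c0 D B ^ (uOf D B + 2) ≤ B ^ C ∧
    bsOf c0 D B + bgOf c0 D B + uOf D B ^ 2 + 20 ≤ B ^ C := by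
  obtain ⟨c0, hc0⟩ : ∃ c0 : ℕ, c0 = 3 * N.nQ + N.nG := ⟨_, rfl⟩
  obtain ⟨D, hD⟩ : ∃ D : ℕ, D = 3 * (c0 + 8) * (4 * (c0 + 8) + 10) + (c0 + 8) + 10 := ⟨_, rfl⟩
  refine ⟨c0, D, 37 * (c0 + 8) + 138, by omega, ?_⟩
  intro B r hu hr
  have h := Est.ctx (c0 := c0) (D := D) (B := B) (by omega) hu
  have hpdef : pOf c0 D B = leastPrime (uOf D B * (2 * (prm c0 D B 0).W) + 3) := rfl
  have hpp := Est.leastPrime_prime (uOf D B * (2 * (prm c0 D B 0).W) + 3)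
  have hple := Est.leastPrime_le (uOf D B * (2 * (prm c0 D B 0).W) + 3) (by omega)
  rw [← hpdef, Est.prm_W] at hpp hple
  have hp2 := h.prime_le rfl hple
  have hE : (prm c0 D B 0).E ≤ 2 ^ ((c0 + 8) * ell (uOf D B)) := by
    rw [Est.prm_E]
    exact le_trans (min_le_left _ _) (Nat.pow_le_pow_right (by norm_num) h.hkap2)
  have hbsdef : bsOf c0 D B = pOf c0 D B +
      2 * (uOf D B + 2) * ((prm c0 D B 0).E + uOf D B ^ 2 + uOf D B + 3) + uOf D B + 10 := rfl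
  have hbs := h.bs_le hp2 hE hbsdef
  have hbgdef : bgOf c0 D B = 2 ^ ((c0 + 8 * ell (uOf D B)) * (uOf D B + 1)) +
      (uOf D B ^ 2 + 1) * (c0 + 8 * ell (uOf D B)) + 1 := by
    have h1 : bgOf c0 D B = min (2 ^ ((c0 + 8 * ell (uOf D B)) * (uOf D B + 1))) B +
      (uOf D B ^ 2 + 1) * (c0 + 8 * ell (uOf D B)) + 1 := rfl
    rw [h1, min_eq_left]
    apply h.powB1
    refine le_trans h.hku ?_
    exact Nat.mul_le_mul (by omega) h.hvv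
  have hbg := h.bg_le rfl hbgdef
  rw [Est.prm_W, Est.prm_kap, Est.prm_b]
  have hEr : (prm c0 D B r).E = (prm c0 D B 0).E := rfl
  rw [hEr]
  refine ⟨?_, hpp.1, ?_, ?_, ?_, ?_, ?_, ?_, ?_, ?_, ?_, ?_⟩
  · refine ⟨hu, hr, ?_, ?_, ?_⟩
    · exact h.concl_kapE (by omega)
    · rw [Est.prm_kap]
      have hc0pow : c0 ≤ 2 ^ c0 := (Nat.lt_two_pow_self).le
      calc N.nG ≤ 2 ^ c0 := by omega
        _ ≤ 2 ^ (c0 + 8 * ell (uOf D B)) := Nat.pow_le_pow_right (by norm_num) (by omega)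
    · exact h.concl_B (by omega)
  · have := hpp.2; omega
  · exact h.concl_pW rfl hp2 (by omega)
  · apply h.powB1
    refine le_trans h.hW2 (le_trans (Nat.mul_le_mul_left _ h.hv2) ?_)
    exact Nat.mul_le_mul_right _ (by omega)
  · rw [hbsdef]; omega
  · rw [hbsdef]; omega
  · rw [hbsdef]; omega
  · rw [hbsdef]; omega
  · rw [hbgdef]; omega
  · exact h.concl_stk hbs hbg le_rfl
  · exact h.concl_sum hbs hbg (by omega)


namespace Est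

theorem log_le_bound (n T m : ℕ) (hn : n ≤ T) :
    Nat.log 2 (n + 2 ^ m + 2) ≤ m + ell (T + 1) := by
  have h1 := lt_two_pow_ell (T + 1)
  have h2 : 1 ≤ 2 ^ m := Nat.one_le_two_pow
  have h3 : n + 2 ^ m + 2 < 2 ^ (m + ell (T + 1)) := by
    calc n + 2 ^ m + 2 ≤ 2 ^ m * (T + 3) := by nlinarith
      _ < 2 ^ m * 2 ^ ell (T + 1) := by
          apply Nat.mul_lt_mul_of_pos_left _ (by omega)
          omega
      _ = 2 ^ (m + ell (T + 1)) := by rw [pow_add]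
  exact (Nat.log_lt_of_lt_pow (by omega) h3).le

theorem ell_real (T : ℕ) : (ell (T + 1) : ℝ) ≤ 5 * Real.log (T + 2) := by
  have hT : (0 : ℝ) ≤ T := Nat.cast_nonneg T
  have hlog2 : (0.69 : ℝ) < Real.log 2 := by
    have := Real.log_two_gt_d9
    linarith
  have hΛ : Real.log 2 ≤ Real.log (T + 2) := Real.log_le_log (by norm_num) (by linarith)
  have h1 : (Nat.log 2 (T + 3) : ℝ) ≤ Real.log (T + 3) / Real.log 2 := by
    rw [le_div_iff₀ (by linarith)]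
    have h2 : 2 ^ Nat.log 2 (T + 3) ≤ T + 3 := Nat.pow_log_le_self 2 (by omega)
    have h3 : ((2 : ℝ) ^ Nat.log 2 (T + 3)) ≤ (T : ℝ) + 3 := by exact_mod_cast h2
    have h4 := Real.log_le_log (by positivity) h3
    rw [Real.log_pow] at h4
    exact h4
  have h5 : Real.log ((T : ℝ) + 3) ≤ 2 * Real.log (T + 2) := by
    have h6 : Real.log ((T : ℝ) + 3) ≤ Real.log (((T : ℝ) + 2) ^ 2) := by
      apply Real.log_le_log (by linarith)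
      nlinarith
    rw [Real.log_pow] at h6
    exact_mod_cast h6
  have h7 : (ell (T + 1) : ℝ) = (Nat.log 2 (T + 3) : ℝ) + 1 := by
    have : ell (T + 1) = Nat.log 2 (T + 3) + 1 := rfl
    rw [this]; push_cast; ring
  rw [h7]
  have h8 : Real.log ((T : ℝ) + 3) / Real.log 2 + 1 ≤ 3 * Real.log (T + 2) / Real.log 2 := by
    rw [div_add_one (by linarith)]
    apply div_le_div_of_nonneg_right _ (by linarith)
    linarith
  have h9 : 3 * Real.log ((T : ℝ) + 2) / Real.log 2 ≤ 5 * Real.log (T + 2) := by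
    rw [div_le_iff₀ (by linarith)]
    nlinarith
  linarith

theorem real_part (d x Λ : ℝ) (hd : 0 ≤ d) (hx : 1 ≤ x) (hΛ : 0.69 < Λ) :
    d * ((x + 3) ^ 2 * (5 * Λ) ^ 2) + 5 * Λ ≤ (400 * d + 10) * (x ^ 2 * Λ ^ 2 + 1) := by
  have h7 : (x + 3) ^ 2 ≤ (4 * x) ^ 2 := pow_le_pow_left₀ (by linarith) (by linarith) 2
  have h8 : (x + 3) ^ 2 * (5 * Λ) ^ 2 ≤ (4 * x) ^ 2 * (5 * Λ) ^ 2 :=
    mul_le_mul_of_nonneg_right h7 (by positivity)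
  have h9 : d * ((x + 3) ^ 2 * (5 * Λ) ^ 2) ≤ d * ((4 * x) ^ 2 * (5 * Λ) ^ 2) :=
    mul_le_mul_of_nonneg_left h8 hd
  have h11 : 1 ≤ x ^ 2 := one_le_pow₀ hx
  have h12 : Λ ≤ 2 * Λ ^ 2 := by nlinarith
  have h13 : 1 * Λ ^ 2 ≤ x ^ 2 * Λ ^ 2 := mul_le_mul_of_nonneg_right h11 (by positivity)
  have h14 : (400 * d + 10) * (x ^ 2 * Λ ^ 2 + 1) =
      d * ((4 * x) ^ 2 * (5 * Λ) ^ 2) + 10 * (x ^ 2 * Λ ^ 2) + (400 * d + 10) := by
    ring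
  rw [h14]
  linarith

end Est

/-- Final estimate: the space bound in terms of `t`. -/
theorem final_est (D C : ℕ) : ∃ K : ℝ, ∀ n T : ℕ, n ≤ T → ∃ u : ℕ, 1 ≤ u ∧ T ≤ u ^ 5 ∧
    (Nat.log 2 (n + (2 ^ (D * (u + 2) ^ 2 * ell u ^ 2)) ^ C + 2) : ℝ) ≤
      K * ((T : ℝ) ^ ((2 : ℝ) / 5) * Real.log (T + 2) ^ 2 + 1) := by
  refine ⟨400 * (D * C) + 10, ?_⟩
  intro n T hn
  -- choice of u
  have hex : ∃ a : ℕ, T ≤ (a + 1) ^ 5 := by
    refine ⟨T, ?_⟩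
    calc T ≤ T + 1 := by omega
      _ = (T + 1) ^ 1 := (pow_one _).symm
      _ ≤ (T + 1) ^ 5 := Nat.pow_le_pow_right (by omega) (by norm_num)
  obtain ⟨a, ha1, ha2⟩ : ∃ a : ℕ, T ≤ (a + 1) ^ 5 ∧ a ^ 5 ≤ T := by
    refine ⟨Nat.find hex, Nat.find_spec hex, ?_⟩
    rcases Nat.eq_zero_or_pos (Nat.find hex) with h0 | h0
    · rw [h0]; simp
    · have h1 := Nat.find_min hex (show Nat.find hex - 1 < Nat.find hex by omega)
      have h2 : Nat.find hex - 1 + 1 = Nat.find hex := by omega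
      rw [h2] at h1
      omega
  refine ⟨a + 1, by omega, ha1, ?_⟩
  have haT : a ≤ T := by
    refine le_trans ?_ ha2
    exact Nat.le_self_pow (by norm_num) a
  have hell : ell (a + 1) ≤ ell (T + 1) := Est.ell_mono (by omega)
  have h1 : Nat.log 2 (n + (2 ^ (D * (a + 1 + 2) ^ 2 * ell (a + 1) ^ 2)) ^ C + 2) ≤
      D * (a + 1 + 2) ^ 2 * ell (T + 1) ^ 2 * C + ell (T + 1) := by
    rw [← pow_mul]
    refine le_trans (Est.log_le_bound n T _ hn) ?_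
    apply Nat.add_le_add_right
    apply Nat.mul_le_mul_right
    apply Nat.mul_le_mul_left
    exact Nat.pow_le_pow_left hell 2
  have h2 : (Nat.log 2 (n + (2 ^ (D * (a + 1 + 2) ^ 2 * ell (a + 1) ^ 2)) ^ C + 2) : ℝ) ≤
      D * ((a : ℝ) + 3) ^ 2 * (ell (T + 1) : ℝ) ^ 2 * C + ell (T + 1) := by
    have h3 : (Nat.log 2 (n + (2 ^ (D * (a + 1 + 2) ^ 2 * ell (a + 1) ^ 2)) ^ C + 2) : ℝ) ≤
      ((D * (a + 1 + 2) ^ 2 * ell (T + 1) ^ 2 * C + ell (T + 1) : ℕ) : ℝ) := by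
      exact_mod_cast h1
    refine le_trans h3 (le_of_eq ?_)
    push_cast
    ring
  refine le_trans h2 ?_
  have hT : (0 : ℝ) ≤ T := Nat.cast_nonneg T
  obtain ⟨x, hx⟩ : ∃ x : ℝ, x = (T : ℝ) ^ ((1 : ℝ) / 5) := ⟨_, rfl⟩
  have hx0 : 0 ≤ x := by rw [hx]; positivity
  have hx5 : x ^ 5 = T := by
    rw [hx, ← Real.rpow_natCast, ← Real.rpow_mul hT]
    norm_num
  have hx2 : (T : ℝ) ^ ((2 : ℝ) / 5) = x ^ 2 := by
    rw [hx, ← Real.rpow_natCast, ← Real.rpow_mul hT]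
    norm_num
  rw [hx2]
  have hax : (a : ℝ) ≤ x := by
    have h3 : (a : ℝ) ^ 5 ≤ x ^ 5 := by
      rw [hx5]; exact_mod_cast ha2
    exact le_of_pow_le_pow_left₀ (by norm_num) hx0 h3
  have hℓ := Est.ell_real T
  obtain ⟨Λ, hΛ⟩ : ∃ Λ : ℝ, Λ = Real.log ((T : ℝ) + 2) := ⟨_, rfl⟩
  have hΛ2 : (0.69 : ℝ) < Λ := by
    have h3 := Real.log_two_gt_d9
    have h4 : Real.log 2 ≤ Real.log ((T : ℝ) + 2) :=
      Real.log_le_log (by norm_num) (by linarith)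
    rw [hΛ]
    linarith
  rw [← hΛ] at hℓ ⊢
  have hℓ0 : (0 : ℝ) ≤ ell (T + 1) := Nat.cast_nonneg _
  have ha0 : (0 : ℝ) ≤ a := Nat.cast_nonneg _
  have hDC : (0 : ℝ) ≤ (D : ℝ) * C := by positivity
  have hsq : (ell (T + 1) : ℝ) ^ 2 ≤ (5 * Λ) ^ 2 := pow_le_pow_left₀ hℓ0 hℓ 2
  have hsq2 : ((a : ℝ) + 3) ^ 2 ≤ (x + 3) ^ 2 := pow_le_pow_left₀ (by linarith) (by linarith) 2
  have h5 : D * ((a : ℝ) + 3) ^ 2 * (ell (T + 1) : ℝ) ^ 2 * C + ell (T + 1) ≤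
      D * C * ((x + 3) ^ 2 * (5 * Λ) ^ 2) + 5 * Λ := by
    have h6 : ((a : ℝ) + 3) ^ 2 * (ell (T + 1) : ℝ) ^ 2 ≤ (x + 3) ^ 2 * (5 * Λ) ^ 2 :=
      mul_le_mul hsq2 hsq (by positivity) (by positivity)
    have h7 := mul_le_mul_of_nonneg_left h6 hDC
    calc D * ((a : ℝ) + 3) ^ 2 * (ell (T + 1) : ℝ) ^ 2 * C + ell (T + 1)
        = D * C * (((a : ℝ) + 3) ^ 2 * (ell (T + 1) : ℝ) ^ 2) + ell (T + 1) := by ring
      _ ≤ D * C * ((x + 3) ^ 2 * (5 * Λ) ^ 2) + 5 * Λ := by linarith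
  refine le_trans h5 ?_
  rcases Nat.eq_zero_or_pos T with hT0 | hT0
  · have hx0' : x = 0 := by
      have h6 : x ^ 5 = 0 := by rw [hx5, hT0]; simp
      exact pow_eq_zero_iff (by norm_num) |>.mp h6
    have hΛ1 : Λ ≤ 1 := by
      rw [hΛ, hT0]
      have := Real.log_two_lt_d9
      norm_num
      linarith
    rw [hx0']
    have h7 : Λ ^ 2 ≤ 1 := by nlinarith
    have h8 : (D : ℝ) * C * ((0 + 3) ^ 2 * (5 * Λ) ^ 2) ≤ D * C * 225 := by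
      apply mul_le_mul_of_nonneg_left _ hDC
      nlinarith
    have h9 : (400 * ((D : ℝ) * C) + 10) * (0 ^ 2 * Λ ^ 2 + 1) = 400 * ((D : ℝ) * C) + 10 := by
      ring
    rw [h9]
    linarith
  · have hx1 : 1 ≤ x := by
      by_contra hcon
      push Not at hcon
      have h6 : x ^ 5 < 1 := pow_lt_one₀ hx0 hcon (by norm_num)
      rw [hx5] at h6
      have h7 : (1 : ℝ) ≤ T := by exact_mod_cast hT0
      linarith
    exact Est.real_part _ x Λ hDC hx1 hΛ2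

end Vale.Agent.P312
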