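import Vale.Agent.P312.LSBasic
import Vale.Agent.P312.Compile

/-!
# P312: from `LS` step functions to space-bounded machines
-/

namespace Vale.Agent.P312

open Finset

variable {α : Type} {n : ℕ}

/-- A machine whose configurations are vectors of natural numbers and whose transition function is
componentwise `LS` decides its language in space `O(log (largest number occurring) + log n)`.
Component `0` is the status: `0` running, `1` accept, `2` reject. -/
theorem mem_SPACE_of_LS {m : ℕ} (L : Set (List α)) (s : ℕ → ℝ) (hs : ∀ n, 0 ≤ s n)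
    (f : Fin (m + 1) → List α → (Fin (m + 1) → ℕ) → ℕ) (hf : ∀ i, LS (f i))
    (hrun : ∃ C : ℝ, ∀ w : List α, ∃ N B : ℕ,
      (∀ j < N, (fun v i => f i w v)^[j] (fun _ => 0) 0 = 0) ∧
      ((w ∈ L ∧ (fun v i => f i w v)^[N] (fun _ => 0) 0 = 1) ∨
        (w ∉ L ∧ (fun v i => f i w v)^[N] (fun _ => 0) 0 = 2)) ∧
      (∀ j ≤ N, ∀ i, (fun v i => f i w v)^[j] (fun _ => 0) i ≤ B) ∧
      (Nat.log 2 (w.length + B + 2) : ℝ) ≤ C * (s w.length + 1)) :
    L ∈ SPACE s :=
  mem_SPACE_of_LS_of_compile L s hs (fun cmd k hk h => mem_SPACE_of_run cmd k hk L s hs h) f hf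
    hrun

end Vale.Agent.P312
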