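import Vale.Agent.P312.Num
import Vale.Agent.P312.Cmd

/-!
# P312: the vector machine

The catalytic evaluator for the rules of `Num.lean`, with memory and stack coded by natural
numbers, driven by an outer loop over `B = 1, 2, 3, …` and over the offsets `r < u ^ 2`.
-/

namespace Vale.Agent.P312

open Finset

/-! ### Memory numbers: three blocks of `W` digits in base `p` -/

/-- Replace the digits `t * W + j`, `j < W`, by `nd j`. -/
def updN (B p W mm t : ℕ) (nd : ℕ → ℕ) : ℕ :=
  mm + ∑ j ∈ range W, nd j * cpow B p (t * W + j) -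
    ∑ j ∈ range W, dig p mm (t * W + j) * cpow B p (t * W + j)

/-- Add `c` times the bits of `y` to block `t`. -/
def addN (B p W mm t c y : ℕ) : ℕ :=
  updN B p W mm t (fun j => (dig p mm (t * W + j) + c * Cat.bit y j) % p)

/-- Add `- c * cp * lam * (block (t + 1))` to block `t`. -/
def copyN (B p W mm t c cp lam : ℕ) : ℕ :=
  updN B p W mm t (fun j => (dig p mm (t * W + j) +
    (p - c * cp * (lam * dig p mm ((t + 1) % 3 * W + j)) % p)) % p)

/-- The `j`-th coordinate of `lam` times block `t`. -/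
def zdig (p W mm t lam j : ℕ) : ℕ := lam * dig p mm (t * W + j) % p

/-- Numeric version of `Cat.delta`. -/
def deltaN (p W mm t lam a : ℕ) : ℕ :=
  (∏ j ∈ range W, if Cat.bit a j = 1 then zdig p W mm t lam j
    else 1 + (p - zdig p W mm t lam j)) % p

/-- Numeric version of `Cat.chiHat` (blocks `t + 1` and `t + 2`). -/
def chN (B p W mm t lam : ℕ) (chi : ℕ → ℕ → ℕ) : ℕ :=
  (∑ a ∈ range (cpow B 2 W), ∑ x ∈ range (cpow B 2 W),
    chi a x * deltaN p W mm ((t + 1) % 3) lam a * deltaN p W mm ((t + 2) % 3) lam x) % p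

/-- The natural number coding a memory. -/
def encMem (R : Cat.Rules) (M : Cat.Mem R) : ℕ :=
  ∑ t : Fin 3, ∑ j : Fin R.W, (M t j).val * R.p ^ ((t : ℕ) * R.W + j)

/-! ### Parameters as functions of `B` (and the constants `c0`, `D` of the machine) -/

/-- logarithm -/
def ell (u : ℕ) : ℕ := Nat.log 2 (u + 2) + 1

/-- the parameter `u` for the space budget `B` -/
noncomputable def uOf (D B : ℕ) : ℕ :=
  sInf ({a | a < B ∧ Nat.log 2 B < D * (a + 3) ^ 2 * ell (a + 1) ^ 2} ∪ {B})

noncomputable def prm (c0 D B r : ℕ) : Prm := ⟨B, uOf D B, r, c0 + 8 * ell (uOf D B)⟩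

noncomputable def pOf (c0 D B : ℕ) : ℕ :=
  leastPrime (uOf D B * (2 * (prm c0 D B 0).W) + 3)

/-- base for the small fields of frames -/
noncomputable def bsOf (c0 D B : ℕ) : ℕ :=
  pOf c0 D B + 2 * (uOf D B + 2) * ((prm c0 D B 0).E + (prm c0 D B 0).b + uOf D B + 3) +
    uOf D B + 10

/-- base for guesses -/
noncomputable def bgOf (c0 D B : ℕ) : ℕ :=
  cpow B 2 ((prm c0 D B 0).kap * (uOf D B + 1)) + (prm c0 D B 0).W + 1

/-! ### Frames and stack -/

/-- Code of the small fields of a frame. -/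
def frameN (bs ret v c t lam i acc : ℕ) : ℕ :=
  ret + bs * (v + bs * (c + bs * (t + bs * (lam + bs * (i + bs * acc)))))

/-- Push a frame without guess. -/
def pushS (bs stk fr : ℕ) : ℕ := stk * bs ^ 7 + fr

/-- Push a frame with guess `g`. -/
def pushB (bs bg stk g fr : ℕ) : ℕ := (stk * bg + g) * bs ^ 7 + fr

/-- Field `k` of the top frame. -/
def fld (bs stk k : ℕ) : ℕ := dig bs (stk % bs ^ 7) k

/-- Code of a stack. -/
def encStk (bs bg : ℕ) : List Cat.Frame → ℕ
  | [] => 0
  | f :: l => if f.isBig then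
      pushB bs bg (encStk bs bg l) f.g (frameN bs f.ret f.v f.c f.t f.lam f.i f.acc)
    else pushS bs (encStk bs bg l) (frameN bs f.ret f.v f.c f.t f.lam f.i f.acc)

/-! ### The vector machine

Components: `0` status, `1` B, `2` r, `3` pc, `4` v, `5` c, `6` t, `7` lam, `8` g, `9` i,
`10` acc, `11` stk, `12` mem.  Program counters: `0` next `B`; `k + 1` = program counter `k` of
`Cat.step`; `9` start the run for the offset `r`. -/

variable (N : NTM) (c0 D : ℕ) {α : Type} (code : α → ℕ) (w : List α)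

/-- The rules used in state `x`. -/
noncomputable def rulesAt (B r : ℕ) : Cat.Rules :=
  rules N (prm c0 D B r) code w (pOf c0 D B)

/-- The encoding of an evaluator state. -/
noncomputable def encSt (B r : ℕ) (s : Cat.St (rulesAt N c0 D code w B r)) : Fin 13 → ℕ :=
  ![0, B, r, s.pc + 1, s.v, s.c, s.t, s.lam, s.g, s.i, s.acc,
    encStk (bsOf c0 D B) (bgOf c0 D B) s.stk, encMem _ s.mem]

/-- The transition function. -/
noncomputable def stepM (x : Fin 13 → ℕ) : Fin 13 → ℕ :=
  let B := x 1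
  let r := x 2
  let v := x 4
  let c := x 5
  let t := x 6
  let lam := x 7
  let g := x 8
  let i := x 9
  let acc := x 10
  let stk := x 11
  let mm := x 12
  let R := rulesAt N c0 D code w B r
  let p := pOf c0 D B
  let W := (prm c0 D B r).W
  let bs := bsOf c0 D B
  let bg := bgOf c0 D B
  let P := prm c0 D B r
  if x 0 ≠ 0 then x
  else if x 3 = 0 then ![0, B + 1, 0, 9, 0, 0, 0, 0, 0, 0, 0, 0, 0]
  else if x 3 = 9 then
    (if 1 ≤ P.u ∧ r < P.u ^ 2 then
      ![0, B, r, 1, nodeP P 0 (P.u + 1), 1, 0, 0, 0, 0, 0, 0, 0]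
    else ![0, B, r, 0, 0, 0, 0, 0, 0, 0, 0, 0, 0])
  else if x 3 = 1 then
    (if R.leaf v = true then ![0, B, r, 8, v, c, t, lam, g, i, acc, stk, addN B p W mm t c (R.lval v)]
    else ![0, B, r, 1, R.al v, Cat.inv p 1, (t + 1) % 3, 0, 0, 0, 0,
      pushS bs stk (frameN bs 1 v c t 1 0 0), mm])
  else if x 3 = 2 then
    ![0, B, r, 3, v, c, t, lam, 0, i, acc, stk, copyN B p W mm t c (R.cp v) lam]
  else if x 3 = 3 then
    (if g < R.G v then ![0, B, r, 4, v, c, t, lam, g, 0, Cat.neg p c, stk, mm]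
    else ![0, B, r, 1, R.al v, Cat.neg p (Cat.inv p lam), (t + 1) % 3, 0, 0, 0, 0,
      pushS bs stk (frameN bs 5 v c t lam 0 0), mm])
  else if x 3 = 4 then
    (if i < R.n v then ![0, B, r, 1, R.be v g i, Cat.inv p lam, (t + 2) % 3, 0, 0, 0, 0,
      pushB bs bg stk g (frameN bs 4 v c t lam i acc), mm]
    else ![0, B, r, 3, v, c, t, lam, g + 1, i, acc, stk, addN B p W mm t acc (R.out v g)])
  else if x 3 = 5 then
    ![0, B, r, 1, R.be v g i, Cat.neg p (Cat.inv p lam), (t + 2) % 3, 0, 0, 0, 0,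
      pushB bs bg stk g (frameN bs 6 v c t lam i
        (acc * chN B p W mm t lam (fun a x => R.chi v g i a x) % p)), mm]
  else if x 3 = 6 then
    (if lam + 1 < p then ![0, B, r, 1, R.al v, Cat.inv p (lam + 1), (t + 1) % 3, 0, 0, 0, 0,
      pushS bs stk (frameN bs 1 v c t (lam + 1) 0 0), mm]
    else ![0, B, r, 8, v, c, t, lam, g, i, acc, stk, mm])
  else if x 3 = 7 then ![0, B, r, 4, v, c, t, lam, g, i + 1, acc, stk, mm]
  else if x 3 = 8 then
    (if stk = 0 then
      ![N.hal ((∑ j ∈ range W, dig p mm j * cpow B 2 j) % N.nQ), B, r + 1, 9,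
        0, 0, 0, 0, 0, 0, 0, 0, 0]
    else if fld bs stk 0 = 4 ∨ fld bs stk 0 = 6 then
      ![0, B, r, fld bs stk 0 + 1, fld bs stk 1, fld bs stk 2, fld bs stk 3, fld bs stk 4,
        stk / bs ^ 7 % bg, fld bs stk 5, fld bs stk 6, stk / bs ^ 7 / bg, mm]
    else
      ![0, B, r, fld bs stk 0 + 1, fld bs stk 1, fld bs stk 2, fld bs stk 3, fld bs stk 4,
        0, fld bs stk 5, fld bs stk 6, stk / bs ^ 7, mm])
  else x

end Vale.Agent.P312
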