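import Vale.Agent.P312.LSLib
import Vale.Agent.P312.Mach

/-!
# P312: the transition function of the vector machine is `LS`
-/

namespace Vale.Agent.P312

open Finset

variable {α : Type} {n : ℕ}

section
variable {f g h q : List α → (Fin n → ℕ) → ℕ}

theorem LS.powConst (hf : LS f) (k : ℕ) : LS (fun w v => f w v ^ k) := by
  induction k with
  | zero => exact (LS.const 1).congr (fun w v => by simp)
  | succ k ih => exact (ih.mul hf).congr (fun w v => by rw [pow_succ])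

/-- Sums with a higher-order body. -/
theorem LS.sumH {F : List α → (Fin n → ℕ) → ℕ → ℕ}
    (hF : LS (fun w (u : Fin (n + 1) → ℕ) => F w (fun i => u i.succ) (u 0))) (hf : LS f) :
    LS (fun w v => ∑ a ∈ range (f w v), F w v a) :=
  (LS.sum hF hf).congr (fun w v => by simp)

theorem LS.prodModH {F : List α → (Fin n → ℕ) → ℕ → ℕ}
    (hF : LS (fun w (u : Fin (n + 1) → ℕ) => F w (fun i => u i.succ) (u 0))) (hf : LS f)
    (hq : LS q) (hq0 : ∀ w v, 0 < q w v) :
    LS (fun w v => (∏ a ∈ range (f w v), F w v a) % q w v) :=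
  (LS.prodMod hF hf hq hq0).congr (fun w v => by simp)

theorem LS.muH {F : List α → (Fin n → ℕ) → ℕ → Prop}
    (hF : LSP (fun w (u : Fin (n + 1) → ℕ) => F w (fun i => u i.succ) (u 0))) (hf : LS f) :
    LS (fun w v => sInf ({a | a < f w v ∧ F w v a} ∪ {f w v})) := by
  classical
  exact (LS.mu hF hf).congr (fun w v => by simp)

theorem LS.cpow (hf : LS f) (hg : LS g) (hh : LS h) :
    LS (fun w v => cpow (f w v) (g w v) (h w v)) := LS.powClamp hg hh hf

theorem LS.dig (hf : LS f) (hg : LS g) (hh : LS h) :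
    LS (fun w v => dig (f w v) (g w v) (h w v)) := (LS.divPow hg hf hh).mod hf

theorem LS.bit (hf : LS f) (hg : LS g) : LS (fun w v => Cat.bit (f w v) (g w v)) :=
  (LS.divPow hf (LS.const 2) hg).mod (LS.const 2)

theorem LS.cinv (hf : LS f) (hg : LS g) (hf0 : ∀ w v, 0 < f w v) :
    LS (fun w v => Cat.inv (f w v) (g w v)) :=
  LS.powMod hg (hf.sub (LS.const 2)) hf hf0

theorem LS.cneg (hf : LS f) (hg : LS g) : LS (fun w v => Cat.neg (f w v) (g w v)) :=
  (hf.sub (hg.mod hf)).mod hf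

theorem LS.iterC {m : ℕ} {B cnt : List α → (Fin n → ℕ) → ℕ}
    {stp : List α → (Fin n → ℕ) → (Fin m → ℕ) → Fin m → ℕ}
    {init : List α → (Fin n → ℕ) → Fin m → ℕ} (hB : LS B) (hcnt : LS cnt)
    (hinit : ∀ i, LS (fun w v => init w v i))
    (hstp : ∀ i, LS (fun w (u : Fin (m + n) → ℕ) =>
      stp w (fun j => u (Fin.natAdd m j)) (fun j => u (Fin.castAdd n j)) i)) (out : Fin m) :
    LS (fun w v => iterC (B w v) (cnt w v) (stp w v) (init w v) out) := by
  refine (LS.iterClamp (init := fun i w v => init w v i)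
    (step := fun i w (u : Fin (m + n) → ℕ) =>
      stp w (fun j => u (Fin.natAdd m j)) (fun j => u (Fin.castAdd n j)) i)
    hinit hstp hcnt hB out).congr (fun w v => ?_)
  unfold Vale.Agent.P312.iterC
  simp only [Fin.append_right, Fin.append_left]

end

/-! ### Parameters -/

/-- Parameters depending on the variables. -/
structure LSPrm (P : List α → (Fin n → ℕ) → Prm) : Prop where
  B : LS (fun w v => (P w v).B)
  u : LS (fun w v => (P w v).u)
  r : LS (fun w v => (P w v).r)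
  kap : LS (fun w v => (P w v).kap)

namespace LSPrm

variable {P : List α → (Fin n → ℕ) → Prm} {f g h : List α → (Fin n → ℕ) → ℕ}

theorem lift (hP : LSPrm P) (m : ℕ) :
    LSPrm (fun w (u : Fin (m + n) → ℕ) => P w (fun i => u (Fin.natAdd m i))) :=
  ⟨hP.B.lift m, hP.u.lift m, hP.r.lift m, hP.kap.lift m⟩

theorem tail (hP : LSPrm P) : LSPrm (fun w (u : Fin (n + 1) → ℕ) => P w (fun i => u i.succ)) :=
  ⟨hP.B.tail, hP.u.tail, hP.r.tail, hP.kap.tail⟩

variable (hP : LSPrm P)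
include hP

theorem b : LS (fun w v => (P w v).b) := hP.u.powConst 2
theorem T : LS (fun w v => (P w v).T) := hP.u.powConst 5
theorem Z : LS (fun w v => (P w v).Z) := (hP.u.add (LS.const 2)).powConst 8
theorem E : LS (fun w v => (P w v).E) := LS.cpow hP.B (LS.const 2) hP.kap
theorem W : LS (fun w v => (P w v).W) := ((hP.u.powConst 2).succ).mul hP.kap
theorem blkOf (hf : LS f) : LS (fun w v => (P w v).blkOf (f w v)) := (hf.add hP.r).div hP.b
theorem idx (hf : LS f) : LS (fun w v => (P w v).idx (f w v)) := (hf.add hP.r).mod hP.b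
theorem setDig (hf : LS f) (hg : LS g) (hh : LS h) :
    LS (fun w v => (P w v).setDig (f w v) (g w v) (h w v)) :=
  (hf.sub ((LS.dig hP.E hf hg).mul (LS.cpow hP.B hP.E hg))).add
    (hh.mul (LS.cpow hP.B hP.E hg))

end LSPrm

/-! ### The numeric machine -/

section
variable (N : NTM) {P : List α → (Fin n → ℕ) → Prm} {f g h q e I : List α → (Fin n → ℕ) → ℕ}

theorem LS.hal (hf : LS f) : LS (fun w v => N.hal (f w v)) :=
  LS.table1 N.hal N.nQ N.hal_zero hf

theorem LS.tq (hf : LS f) (hg : LS g) : LS (fun w v => N.tq (f w v) (g w v)) :=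
  LS.table2 N.tq (Max.max N.nQ N.nG) (fun x y hxy => N.tq_zero x y (by omega)) hf hg

theorem LS.ts (hf : LS f) (hg : LS g) : LS (fun w v => N.ts (f w v) (g w v)) :=
  LS.table2 N.ts (Max.max N.nQ N.nG) (fun x y hxy => N.ts_zero x y (by omega)) hf hg

theorem LS.tm (hf : LS f) (hg : LS g) : LS (fun w v => N.tm (f w v) (g w v)) :=
  LS.table2 N.tm (Max.max N.nQ N.nG) (fun x y hxy => N.tm_zero x y (by omega)) hf hg

theorem LS.lstep (hP : LSPrm P) (hI : LS I) {st : List α → (Fin n → ℕ) → Fin 3 → ℕ}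
    (hst : ∀ j, LS (fun w v => st w v j)) (i : Fin 3) :
    LS (fun w v => lstep N (P w v) (I w v) (st w v) i) := by
  have hdig := LS.dig hP.E (hst 0) (hP.idx (hst 1))
  unfold Vale.Agent.P312.lstep
  apply LS.ite
  · exact (LSP.eq (LS.hal N (hst 2)) (LS.const 0)).and (LSP.eq (hP.blkOf (hst 1)) hI)
  · fin_cases i
    · exact hP.setDig (hst 0) (hP.idx (hst 1)) (LS.ts N (hst 2) hdig)
    · exact ((hst 1).add (LS.tm N (hst 2) hdig)).sub (LS.const 1)
    · exact LS.tq N (hst 2) hdig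
  · exact hst i

theorem LS.visit (hP : LSPrm P) (hf : LS f) (he : LS e) (i : Fin 3) :
    LS (fun w v => visit N (P w v) (f w v) (e w v) i) := by
  unfold Vale.Agent.P312.visit
  apply LS.iterC hP.B hP.T
  · intro i
    fin_cases i
    · exact hf
    · exact he.div (LS.const N.nQ)
    · exact he.mod (LS.const N.nQ)
  · intro i
    exact LS.lstep N (hP.lift 3) ((hP.lift 3).blkOf ((he.lift 3).div (LS.const N.nQ)))
      (fun j => LS.var _) i

theorem LS.vx (hP : LSPrm P) (hf : LS f) (he : LS e) :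
    LS (fun w v => vx N (P w v) (f w v) (e w v)) := LS.visit N hP hf he 0

theorem LS.ve (hP : LSPrm P) (hf : LS f) (he : LS e) :
    LS (fun w v => ve N (P w v) (f w v) (e w v)) :=
  ((LS.visit N hP hf he 1).mul (LS.const N.nQ)).add (LS.visit N hP hf he 2)

theorem LS.replay (hP : LSPrm P) (hI : LS I) (hf : LS f) (hg : LS g) (hh : LS h) :
    LS (fun w v => replay N (P w v) (I w v) (f w v) (g w v) (h w v)) := by
  unfold Vale.Agent.P312.replay
  apply LS.iterC hP.B hg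
  · intro i
    fin_cases i
    · exact hh
    · exact LS.const 0
  · intro i
    have hd : LS (fun w (u : Fin (2 + n) → ℕ) =>
        Vale.Agent.P312.dig (P w (fun j => u (Fin.natAdd 2 j))).E
          (f w (fun j => u (Fin.natAdd 2 j))) (u (Fin.castAdd n 1))) :=
      LS.dig (hP.lift 2).E (hf.lift 2) (LS.var _)
    fin_cases i
    · exact LS.ite (LSP.eq ((hP.lift 2).blkOf (hd.div (LS.const N.nQ))) (hI.lift 2))
        (LS.vx N (hP.lift 2) (LS.var _) hd) (LS.var _)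
    · exact (LS.var _).succ

variable [Finite α] (code : α → ℕ)

theorem LS.symAtN (hf : LS f) : LS (fun w v => Vale.Agent.P312.symAt code w (f w v)) :=
  LS.symAt code hf

theorem LS.initSym (hP : LSPrm P) (hf : LS f) :
    LS (fun w v => initSym N (P w v) code w (f w v)) := by
  unfold Vale.Agent.P312.initSym
  have hs := LS.symAtN code (hf.sub (hP.r.add hP.Z))
  exact LS.ite ((LSP.le (hP.r.add hP.Z) hf).and (LSP.ne hs (LS.const 0)))
    (hs.sub (LS.const 1)) (LS.const N.bl)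

theorem LS.initCont (hP : LSPrm P) (hf : LS f) :
    LS (fun w v => initCont N (P w v) code w (f w v)) := by
  unfold Vale.Agent.P312.initCont
  apply LS.sumH _ hP.b
  exact (LS.initSym N code hP.tail ((hf.tail.mul hP.tail.b).add (LS.var 0))).mul
    (LS.cpow hP.tail.B hP.tail.E (LS.var 0))

omit [Finite α] in
theorem LS.nodeX (hP : LSPrm P) (hf : LS f) (hg : LS g) :
    LS (fun w v => nodeX (P w v) (f w v) (g w v)) :=
  (LS.const 2).mul (hg.add ((hP.u.add (LS.const 2)).mul hf))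

omit [Finite α] in
theorem LS.nodeP (hP : LSPrm P) (hf : LS f) (hg : LS g) :
    LS (fun w v => nodeP (P w v) (f w v) (g w v)) :=
  ((LS.const 2).mul (hg.add ((hP.u.add (LS.const 2)).mul hf))).succ

omit [Finite α] in
theorem LS.kind (hf : LS f) : LS (fun w v => kind (f w v)) := hf.mod (LS.const 2)

omit [Finite α] in
theorem LS.tau (hP : LSPrm P) (hf : LS f) : LS (fun w v => tau (P w v) (f w v)) :=
  (hf.div (LS.const 2)).mod (hP.u.add (LS.const 2))

omit [Finite α] in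
theorem LS.idn (hP : LSPrm P) (hf : LS f) : LS (fun w v => idn (P w v) (f w v)) :=
  (hf.div (LS.const 2)).div (hP.u.add (LS.const 2))

omit [Finite α] in
theorem LS.fullLog (hP : LSPrm P) (hf : LS f) (hg : LS g) (hh : LS h) :
    LS (fun w v => fullLog (P w v) (f w v) (g w v) (h w v)) :=
  (hf.mod (LS.cpow hP.B hP.E hh)).add (hg.mul (LS.cpow hP.B hP.E hh))

/-! ### The rules -/

variable {p : List α → (Fin n → ℕ) → ℕ} {v0 : List α → (Fin n → ℕ) → ℕ}

omit [Finite α] in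
theorem LSP.isP (hP : LSPrm P) (hv : LS v0) :
    LSP (fun w v => Vale.Agent.P312.kind (v0 w v) = 1 ∧ Vale.Agent.P312.idn (P w v) (v0 w v) ≠ 0) :=
  (LSP.eq (LS.kind hv) (LS.const 1)).and (LSP.ne (LS.idn hP hv) (LS.const 0))

omit [Finite α] in
theorem LSP.kind0 (hv : LS v0) :
    LSP (fun w v => Vale.Agent.P312.kind (v0 w v) = 0) := LSP.eq (LS.kind hv) (LS.const 0)

omit [Finite α] in
theorem LSP.idn0 (hP : LSPrm P) (hv : LS v0) :
    LSP (fun w v => Vale.Agent.P312.idn (P w v) (v0 w v) ≠ 0) :=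
  LSP.ne (LS.idn hP hv) (LS.const 0)

omit [Finite α] in
theorem LSP.leaf (hP : LSPrm P) (hv : LS v0) :
    LSP (fun w v => (rules N (P w v) code w (p w v)).leaf (v0 w v) = true) := by
  refine ((LSP.eq (LS.tau hP hv) (LS.const 0)).and
    ((LSP.kind0 hv).or (LSP.eq (LS.idn hP hv) (LS.const 0)))).congr (fun w v => ?_)
  simp [rules]

theorem LS.lval (hP : LSPrm P) (hv : LS v0) :
    LS (fun w v => (rules N (P w v) code w (p w v)).lval (v0 w v)) :=
  LS.ite (LSP.kind0 hv) (LS.initCont N code hP (LS.idn hP hv))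
    ((hP.Z.mul (LS.const N.nQ)).add (LS.const N.q0))

omit [Finite α] in
theorem LS.al (hP : LSPrm P) (hv : LS v0) :
    LS (fun w v => (rules N (P w v) code w (p w v)).al (v0 w v)) :=
  LS.ite (LSP.isP hP hv) (LS.nodeP hP ((LS.idn hP hv).sub (LS.const 1)) (LS.tau hP hv))
    (LS.nodeP hP hP.u ((LS.tau hP hv).sub (LS.const 1)))

omit [Finite α] in
theorem LS.cpR (hP : LSPrm P) (hv : LS v0) :
    LS (fun w v => (rules N (P w v) code w (p w v)).cp (v0 w v)) :=
  LS.ite (LSP.isP hP hv) (LS.const 1) (LS.const 0)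

omit [Finite α] in
theorem LS.GR (hP : LSPrm P) (hv : LS v0) :
    LS (fun w v => (rules N (P w v) code w (p w v)).G (v0 w v)) :=
  LS.ite (LSP.kind0 hv) hP.W (LS.ite (LSP.idn0 hP hv)
    (LS.cpow hP.B (LS.const 2) (hP.kap.mul hP.u.succ)) hP.E)

omit [Finite α] in
theorem LS.nR (hP : LSPrm P) (hv : LS v0) :
    LS (fun w v => (rules N (P w v) code w (p w v)).n (v0 w v)) :=
  LS.ite (LSP.isP hP hv) hP.u (LS.const 1)

omit [Finite α] in
theorem LS.beR (hP : LSPrm P) (hv : LS v0) (hg : LS g) (hi : LS I) :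
    LS (fun w v => (rules N (P w v) code w (p w v)).be (v0 w v) (g w v) (I w v)) :=
  LS.ite (LSP.kind0 hv) (LS.nodeX hP (LS.idn hP hv) ((LS.tau hP hv).sub (LS.const 1)))
    (LS.ite (LSP.idn0 hP hv)
      (LS.nodeX hP (hP.blkOf ((LS.dig hP.E hg hi).div (LS.const N.nQ))) (LS.tau hP hv))
      (LS.const 0))

omit [Finite α] in
theorem LS.chiR (hP : LSPrm P) (hv : LS v0) (hg : LS g) (hi : LS I) (hf : LS f) (hh : LS h) :
    LS (fun w v => (rules N (P w v) code w (p w v)).chi (v0 w v) (g w v) (I w v) (f w v)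
      (h w v)) := by
  have hid := LS.idn hP hv
  have hs := (hid.sub (LS.const 1)).mul hP.u
  have hd := LS.dig hP.E hg hi
  exact LS.ite (LSP.kind0 hv) (LS.bit (LS.replay N hP hid hf hP.b hh) hg)
    (LS.ite (LSP.idn0 hP hv)
      (LS.ite ((LSP.eq (LS.dig hP.E hf hs) (LS.dig hP.E hg (LS.const 0))).and
        (LSP.eq (LS.ve N hP (LS.replay N hP (hP.blkOf (hd.div (LS.const N.nQ)))
          (LS.fullLog hP hf hg hs) (hs.add hi) hh) hd) (LS.dig hP.E hg hi.succ)))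
        (LS.const 1) (LS.const 0))
      (LS.ite (LSP.eq (LS.dig hP.E hf hP.b) hg) (LS.const 1) (LS.const 0)))

omit [Finite α] in
theorem LS.outR (hP : LSPrm P) (hv : LS v0) (hg : LS g) :
    LS (fun w v => (rules N (P w v) code w (p w v)).out (v0 w v) (g w v)) :=
  LS.ite (LSP.kind0 hv) (LS.cpow hP.B (LS.const 2) hg)
    (LS.ite (LSP.idn0 hP hv)
      ((hg.div hP.E).mul (LS.cpow hP.B hP.E
        ((((LS.idn hP hv).sub (LS.const 1)).mul hP.u).succ))) hg)

end

/-! ### Memory -/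

section
variable {B p W mm t c y lam cp : List α → (Fin n → ℕ) → ℕ}

theorem LS.updN {nd : List α → (Fin n → ℕ) → ℕ → ℕ} (hB : LS B) (hp : LS p) (hW : LS W)
    (hm : LS mm) (ht : LS t)
    (hnd : LS (fun w (u : Fin (n + 1) → ℕ) => nd w (fun i => u i.succ) (u 0))) :
    LS (fun w v => updN (B w v) (p w v) (W w v) (mm w v) (t w v) (nd w v)) := by
  have hc : LS (fun w (u : Fin (n + 1) → ℕ) => Vale.Agent.P312.cpow (B w (fun i => u i.succ))
      (p w (fun i => u i.succ)) (t w (fun i => u i.succ) * W w (fun i => u i.succ) + u 0)) :=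
    LS.cpow hB.tail hp.tail ((ht.tail.mul hW.tail).add (LS.var 0))
  exact (hm.add (LS.sumH (hnd.mul hc) hW)).sub (LS.sumH
    ((LS.dig hp.tail hm.tail ((ht.tail.mul hW.tail).add (LS.var 0))).mul hc) hW)

theorem LS.addN (hB : LS B) (hp : LS p) (hW : LS W) (hm : LS mm) (ht : LS t) (hc : LS c)
    (hy : LS y) :
    LS (fun w v => addN (B w v) (p w v) (W w v) (mm w v) (t w v) (c w v) (y w v)) := by
  unfold Vale.Agent.P312.addN
  apply LS.updN hB hp hW hm ht
  exact ((LS.dig hp.tail hm.tail ((ht.tail.mul hW.tail).add (LS.var 0))).add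
    (hc.tail.mul (LS.bit hy.tail (LS.var 0)))).mod hp.tail

theorem LS.copyN (hB : LS B) (hp : LS p) (hW : LS W) (hm : LS mm) (ht : LS t) (hc : LS c)
    (hcp : LS cp) (hl : LS lam) :
    LS (fun w v => copyN (B w v) (p w v) (W w v) (mm w v) (t w v) (c w v) (cp w v)
      (lam w v)) := by
  unfold Vale.Agent.P312.copyN
  apply LS.updN hB hp hW hm ht
  exact ((LS.dig hp.tail hm.tail ((ht.tail.mul hW.tail).add (LS.var 0))).add
    (hp.tail.sub (((hc.tail.mul hcp.tail).mul (hl.tail.mul (LS.dig hp.tail hm.tail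
      (((ht.tail.succ.mod (LS.const 3)).mul hW.tail).add (LS.var 0))))).mod hp.tail))).mod hp.tail

theorem LS.zdig {j : List α → (Fin n → ℕ) → ℕ} (hp : LS p) (hW : LS W) (hm : LS mm) (ht : LS t)
    (hl : LS lam) (hj : LS j) :
    LS (fun w v => zdig (p w v) (W w v) (mm w v) (t w v) (lam w v) (j w v)) :=
  (hl.mul (LS.dig hp hm ((ht.mul hW).add hj))).mod hp

theorem LS.deltaN (hp : LS p) (hp0 : ∀ w v, 0 < p w v) (hW : LS W) (hm : LS mm) (ht : LS t)
    (hl : LS lam) (hy : LS y) :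
    LS (fun w v => deltaN (p w v) (W w v) (mm w v) (t w v) (lam w v) (y w v)) := by
  unfold Vale.Agent.P312.deltaN
  apply LS.prodModH _ hW hp hp0
  have hz := LS.zdig hp.tail hW.tail hm.tail ht.tail hl.tail (LS.var (0 : Fin (n + 1)))
  exact LS.ite (LSP.eq (LS.bit hy.tail (LS.var 0)) (LS.const 1)) hz
    ((LS.const 1).add (hp.tail.sub hz))

/-- Tail for two extra variables, in the form produced by nested sums. -/
theorem LS.chN {chi : List α → (Fin n → ℕ) → ℕ → ℕ → ℕ} (hB : LS B) (hp : LS p)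
    (hp0 : ∀ w v, 0 < p w v) (hW : LS W) (hm : LS mm) (ht : LS t) (hl : LS lam)
    (hchi : LS (fun w (u : Fin (n + 1 + 1) → ℕ) => chi w (fun i => u i.succ.succ) (u 1) (u 0))) :
    LS (fun w v => chN (B w v) (p w v) (W w v) (mm w v) (t w v) (lam w v) (chi w v)) := by
  unfold Vale.Agent.P312.chN
  refine LS.mod ?_ hp
  apply LS.sumH _ (LS.cpow hB (LS.const 2) hW)
  apply LS.sumH _ (LS.cpow hB.tail (LS.const 2) hW.tail)
  have h1 := LS.deltaN hp.tail.tail (fun w v => hp0 _ _) hW.tail.tail hm.tail.tail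
    ((ht.tail.tail.succ).mod (LS.const 3)) hl.tail.tail (LS.var (1 : Fin (n + 1 + 1)))
  have h2 := LS.deltaN hp.tail.tail (fun w v => hp0 _ _) hW.tail.tail hm.tail.tail
    (((ht.tail.tail.add (LS.const 2))).mod (LS.const 3)) hl.tail.tail
    (LS.var (0 : Fin (n + 1 + 1)))
  exact (hchi.mul h1).mul h2

end

/-! ### The parameters as functions of `B` -/

section
variable (c0 D : ℕ) {B r : List α → (Fin n → ℕ) → ℕ}

theorem LS.ell {f : List α → (Fin n → ℕ) → ℕ} (hf : LS f) : LS (fun w v => ell (f w v)) :=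
  (LS.log2 (hf.add (LS.const 2))).succ

theorem LS.uOf (hB : LS B) : LS (fun w v => uOf D (B w v)) := by
  unfold Vale.Agent.P312.uOf
  apply LS.muH _ hB
  exact LSP.lt (LS.log2 hB.tail) (((LS.const D).mul (((LS.var 0).add (LS.const 3)).powConst 2)).mul
    ((LS.ell ((LS.var 0).succ)).powConst 2))

theorem LSPrm.prm (hB : LS B) (hr : LS r) : LSPrm (fun w v => prm c0 D (B w v) (r w v)) :=
  ⟨hB, LS.uOf D hB, hr, (LS.const c0).add ((LS.const 8).mul (LS.ell (LS.uOf D hB)))⟩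

theorem LS.pOf (hB : LS B) : LS (fun w v => pOf c0 D (B w v)) :=
  LS.leastPrime (((LS.uOf D hB).mul ((LS.const 2).mul
    (LSPrm.prm c0 D hB (LS.const 0)).W)).add (LS.const 3))

theorem pOf_pos (B : ℕ) : 0 < pOf c0 D B := by
  have hne : {p | uOf D B * (2 * (Vale.Agent.P312.prm c0 D B 0).W) + 3 ≤ p ∧ p.Prime}.Nonempty := by
    obtain ⟨p, h1, h2⟩ := Nat.exists_infinite_primes
      (uOf D B * (2 * (Vale.Agent.P312.prm c0 D B 0).W) + 3)
    exact ⟨p, h1, h2⟩
  exact (Nat.sInf_mem hne).2.pos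

theorem LS.bsOf (hB : LS B) : LS (fun w v => bsOf c0 D (B w v)) := by
  have hP := LSPrm.prm c0 D hB (LS.const 0)
  have hu := LS.uOf D hB
  exact ((((LS.pOf c0 D hB).add (((LS.const 2).mul (hu.add (LS.const 2))).mul
    (((hP.E.add hP.b).add hu).add (LS.const 3)))).add hu).add (LS.const 10))

theorem LS.bgOf (hB : LS B) : LS (fun w v => bgOf c0 D (B w v)) := by
  have hP := LSPrm.prm c0 D hB (LS.const 0)
  have hu := LS.uOf D hB
  exact ((LS.cpow hB (LS.const 2) (hP.kap.mul hu.succ)).add hP.W).succ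

end

/-! ### Frames -/

section
variable {bs bg ret v0 c t lam i acc stk g fr : List α → (Fin n → ℕ) → ℕ}

theorem LS.frameN (hbs : LS bs) (h1 : LS ret) (h2 : LS v0) (h3 : LS c) (h4 : LS t) (h5 : LS lam)
    (h6 : LS i) (h7 : LS acc) :
    LS (fun w v => frameN (bs w v) (ret w v) (v0 w v) (c w v) (t w v) (lam w v) (i w v)
      (acc w v)) :=
  h1.add (hbs.mul (h2.add (hbs.mul (h3.add (hbs.mul (h4.add (hbs.mul (h5.add (hbs.mul
    (h6.add (hbs.mul h7)))))))))))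

theorem LS.pushS (hbs : LS bs) (hs : LS stk) (hf : LS fr) :
    LS (fun w v => pushS (bs w v) (stk w v) (fr w v)) := (hs.mul (hbs.powConst 7)).add hf

theorem LS.pushB (hbs : LS bs) (hbg : LS bg) (hs : LS stk) (hg : LS g) (hf : LS fr) :
    LS (fun w v => pushB (bs w v) (bg w v) (stk w v) (g w v) (fr w v)) :=
  (((hs.mul hbg).add hg).mul (hbs.powConst 7)).add hf

theorem LS.fld (hbs : LS bs) (hs : LS stk) (k : ℕ) :
    LS (fun w v => fld (bs w v) (stk w v) k) :=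
  LS.dig hbs (hs.mod (hbs.powConst 7)) (LS.const k)

end

/-! ### Vectors -/

/-- Componentwise `LS`. -/
def LSV {k : ℕ} (F : List α → (Fin n → ℕ) → Fin k → ℕ) : Prop := ∀ i, LS (fun w v => F w v i)

theorem LSV.ite {k : ℕ} {p : List α → (Fin n → ℕ) → Prop} [∀ w v, Decidable (p w v)]
    {F G : List α → (Fin n → ℕ) → Fin k → ℕ} (hp : LSP p) (hF : LSV F) (hG : LSV G) :
    LSV (fun w v => if p w v then F w v else G w v) := by
  intro i
  refine (LS.ite hp (hF i) (hG i)).congr (fun w v => ?_)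
  by_cases h : p w v
  · simp [h]
  · simp [h]

theorem LSV.nil : LSV (fun (_ : List α) (_ : Fin n → ℕ) => (![] : Fin 0 → ℕ)) :=
  fun i => i.elim0

theorem LSV.cons {k : ℕ} {f : List α → (Fin n → ℕ) → ℕ} {F : List α → (Fin n → ℕ) → Fin k → ℕ}
    (hf : LS f) (hF : LSV F) : LSV (fun w v => Matrix.vecCons (f w v) (F w v)) := by
  intro i
  refine Fin.cases ?_ (fun j => ?_) i
  · exact hf
  · exact hF j

theorem LSV.v13 {f0 f1 f2 f3 f4 f5 f6 f7 f8 f9 f10 f11 f12 : List α → (Fin n → ℕ) → ℕ}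
    (h0 : LS f0) (h1 : LS f1) (h2 : LS f2) (h3 : LS f3) (h4 : LS f4) (h5 : LS f5) (h6 : LS f6)
    (h7 : LS f7) (h8 : LS f8) (h9 : LS f9) (h10 : LS f10) (h11 : LS f11) (h12 : LS f12) :
    LSV (fun w v => ![f0 w v, f1 w v, f2 w v, f3 w v, f4 w v, f5 w v, f6 w v, f7 w v, f8 w v,
      f9 w v, f10 w v, f11 w v, f12 w v]) :=
  LSV.cons h0 (LSV.cons h1 (LSV.cons h2 (LSV.cons h3 (LSV.cons h4 (LSV.cons h5 (LSV.cons h6
    (LSV.cons h7 (LSV.cons h8 (LSV.cons h9 (LSV.cons h10 (LSV.cons h11 (LSV.cons h12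
      LSV.nil))))))))))))

theorem LS_stepM (N : NTM) (c0 D : ℕ) {α : Type} [Finite α] (code : α → ℕ) (i : Fin 13) :
    LS (fun w x => stepM N c0 D code w x i) := by
  have X : ∀ j : Fin 13, LS (fun (_ : List α) (x : Fin 13 → ℕ) => x j) := fun j => LS.var j
  have C : ∀ k : ℕ, LS (fun (_ : List α) (_ : Fin 13 → ℕ) => k) := fun k => LS.const k
  have hP : LSPrm (fun (_ : List α) (x : Fin 13 → ℕ) => prm c0 D (x 1) (x 2)) :=
    LSPrm.prm c0 D (X 1) (X 2)
  have hp := LS.pOf (α := α) c0 D (X 1)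
  have hp0 : ∀ (_ : List α) (x : Fin 13 → ℕ), 0 < pOf c0 D (x 1) := fun _ x => pOf_pos c0 D _
  have hbs := LS.bsOf (α := α) c0 D (X 1)
  have hbg := LS.bgOf (α := α) c0 D (X 1)
  have hW := hP.W
  have t1 : LS (fun (_ : List α) (x : Fin 13 → ℕ) => (x 6 + 1) % 3) := (X 6).succ.mod (C 3)
  have t2 : LS (fun (_ : List α) (x : Fin 13 → ℕ) => (x 6 + 2) % 3) :=
    ((X 6).add (C 2)).mod (C 3)
  have il : LS (fun (_ : List α) (x : Fin 13 → ℕ) => Cat.inv (pOf c0 D (x 1)) (x 7)) :=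
    LS.cinv hp (X 7) hp0
  have nil' : LS (fun (_ : List α) (x : Fin 13 → ℕ) =>
      Cat.neg (pOf c0 D (x 1)) (Cat.inv (pOf c0 D (x 1)) (x 7))) := LS.cneg hp il
  have hal : LS (fun w (x : Fin 13 → ℕ) => (rules N (prm c0 D (x 1) (x 2)) code w
    (pOf c0 D (x 1))).al (x 4)) := LS.al N code hP (X 4)
  have hbe : LS (fun w (x : Fin 13 → ℕ) => (rules N (prm c0 D (x 1) (x 2)) code w
    (pOf c0 D (x 1))).be (x 4) (x 8) (x 9)) := LS.beR N code hP (X 4) (X 8) (X 9)
  have hleaf : LSP (fun w (x : Fin 13 → ℕ) => (rules N (prm c0 D (x 1) (x 2)) code w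
    (pOf c0 D (x 1))).leaf (x 4) = true) := LSP.leaf N code hP (X 4)
  have hlval : LS (fun w (x : Fin 13 → ℕ) => (rules N (prm c0 D (x 1) (x 2)) code w
    (pOf c0 D (x 1))).lval (x 4)) := LS.lval N code hP (X 4)
  have hcp : LS (fun w (x : Fin 13 → ℕ) => (rules N (prm c0 D (x 1) (x 2)) code w
    (pOf c0 D (x 1))).cp (x 4)) := LS.cpR N code hP (X 4)
  have hG : LS (fun w (x : Fin 13 → ℕ) => (rules N (prm c0 D (x 1) (x 2)) code w
    (pOf c0 D (x 1))).G (x 4)) := LS.GR N code hP (X 4)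
  have hn : LS (fun w (x : Fin 13 → ℕ) => (rules N (prm c0 D (x 1) (x 2)) code w
    (pOf c0 D (x 1))).n (x 4)) := LS.nR N code hP (X 4)
  have hout : LS (fun w (x : Fin 13 → ℕ) => (rules N (prm c0 D (x 1) (x 2)) code w
    (pOf c0 D (x 1))).out (x 4) (x 8)) := LS.outR N code hP (X 4) (X 8)
  have hch : LS (fun w (x : Fin 13 → ℕ) => chN (x 1) (pOf c0 D (x 1)) (prm c0 D (x 1) (x 2)).W
      (x 12) (x 6) (x 7) (fun a y => (rules N (prm c0 D (x 1) (x 2)) code w
        (pOf c0 D (x 1))).chi (x 4) (x 8) (x 9) a y)) := by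
    apply LS.chN (X 1) hp hp0 hW (X 12) (X 6) (X 7)
    exact LS.chiR N code hP.tail.tail (X 4).tail.tail (X 8).tail.tail (X 9).tail.tail
      (LS.var 1) (LS.var 0)
  have hres : LS (fun (_ : List α) (x : Fin 13 → ℕ) => ∑ j ∈ range (prm c0 D (x 1) (x 2)).W,
      dig (pOf c0 D (x 1)) (x 12) j * cpow (x 1) 2 j) := by
    apply LS.sumH _ hW
    exact (LS.dig hp.tail (X 12).tail (LS.var 0)).mul (LS.cpow (X 1).tail (LS.const 2) (LS.var 0))
  have fr := fun (k : ℕ) => LS.fld hbs (X 11) k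
  suffices H : LSV (fun w x => stepM N c0 D code w x) from H i
  unfold stepM rulesAt
  refine LSV.ite (LSP.ne (X 0) (C 0)) X ?_
  refine LSV.ite (LSP.eq (X 3) (C 0)) ?_ ?_
  · exact LSV.v13 (C 0) (X 1).succ (C 0) (C 9) (C 0) (C 0) (C 0) (C 0) (C 0) (C 0) (C 0) (C 0)
      (C 0)
  refine LSV.ite (LSP.eq (X 3) (C 9)) ?_ ?_
  · refine LSV.ite ((LSP.le (C 1) hP.u).and (LSP.lt (X 2) (hP.u.powConst 2))) ?_ ?_
    · exact LSV.v13 (C 0) (X 1) (X 2) (C 1) (LS.nodeP hP (C 0) hP.u.succ) (C 1) (C 0) (C 0)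
        (C 0) (C 0) (C 0) (C 0) (C 0)
    · exact LSV.v13 (C 0) (X 1) (X 2) (C 0) (C 0) (C 0) (C 0) (C 0) (C 0) (C 0) (C 0) (C 0)
        (C 0)
  refine LSV.ite (LSP.eq (X 3) (C 1)) ?_ ?_
  · refine LSV.ite hleaf ?_ ?_
    · exact LSV.v13 (C 0) (X 1) (X 2) (C 8) (X 4) (X 5) (X 6) (X 7) (X 8) (X 9) (X 10) (X 11)
        (LS.addN (X 1) hp hW (X 12) (X 6) (X 5) hlval)
    · exact LSV.v13 (C 0) (X 1) (X 2) (C 1) hal (LS.cinv hp (C 1) hp0) t1 (C 0) (C 0) (C 0)
        (C 0) (LS.pushS hbs (X 11) (LS.frameN hbs (C 1) (X 4) (X 5) (X 6) (C 1) (C 0) (C 0)))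
        (X 12)
  refine LSV.ite (LSP.eq (X 3) (C 2)) ?_ ?_
  · exact LSV.v13 (C 0) (X 1) (X 2) (C 3) (X 4) (X 5) (X 6) (X 7) (C 0) (X 9) (X 10) (X 11)
      (LS.copyN (X 1) hp hW (X 12) (X 6) (X 5) hcp (X 7))
  refine LSV.ite (LSP.eq (X 3) (C 3)) ?_ ?_
  · refine LSV.ite (LSP.lt (X 8) hG) ?_ ?_
    · exact LSV.v13 (C 0) (X 1) (X 2) (C 4) (X 4) (X 5) (X 6) (X 7) (X 8) (C 0)
        (LS.cneg hp (X 5)) (X 11) (X 12)
    · exact LSV.v13 (C 0) (X 1) (X 2) (C 1) hal nil' t1 (C 0) (C 0) (C 0)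
        (C 0) (LS.pushS hbs (X 11) (LS.frameN hbs (C 5) (X 4) (X 5) (X 6) (X 7) (C 0) (C 0)))
        (X 12)
  refine LSV.ite (LSP.eq (X 3) (C 4)) ?_ ?_
  · refine LSV.ite (LSP.lt (X 9) hn) ?_ ?_
    · exact LSV.v13 (C 0) (X 1) (X 2) (C 1) hbe il t2 (C 0) (C 0) (C 0)
        (C 0) (LS.pushB hbs hbg (X 11) (X 8)
          (LS.frameN hbs (C 4) (X 4) (X 5) (X 6) (X 7) (X 9) (X 10))) (X 12)
    · exact LSV.v13 (C 0) (X 1) (X 2) (C 3) (X 4) (X 5) (X 6) (X 7) (X 8).succ (X 9) (X 10)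
        (X 11) (LS.addN (X 1) hp hW (X 12) (X 6) (X 10) hout)
  refine LSV.ite (LSP.eq (X 3) (C 5)) ?_ ?_
  · exact LSV.v13 (C 0) (X 1) (X 2) (C 1) hbe nil' t2 (C 0) (C 0) (C 0)
      (C 0) (LS.pushB hbs hbg (X 11) (X 8)
        (LS.frameN hbs (C 6) (X 4) (X 5) (X 6) (X 7) (X 9) (((X 10).mul hch).mod hp))) (X 12)
  refine LSV.ite (LSP.eq (X 3) (C 6)) ?_ ?_
  · refine LSV.ite (LSP.lt (X 7).succ hp) ?_ ?_
    · exact LSV.v13 (C 0) (X 1) (X 2) (C 1) hal (LS.cinv hp (X 7).succ hp0) t1 (C 0) (C 0)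
        (C 0) (C 0) (LS.pushS hbs (X 11)
          (LS.frameN hbs (C 1) (X 4) (X 5) (X 6) (X 7).succ (C 0) (C 0))) (X 12)
    · exact LSV.v13 (C 0) (X 1) (X 2) (C 8) (X 4) (X 5) (X 6) (X 7) (X 8) (X 9) (X 10) (X 11)
        (X 12)
  refine LSV.ite (LSP.eq (X 3) (C 7)) ?_ ?_
  · exact LSV.v13 (C 0) (X 1) (X 2) (C 4) (X 4) (X 5) (X 6) (X 7) (X 8) (X 9).succ (X 10)
      (X 11) (X 12)
  refine LSV.ite (LSP.eq (X 3) (C 8)) ?_ X
  refine LSV.ite (LSP.eq (X 11) (C 0)) ?_ ?_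
  · exact LSV.v13 (LS.hal N (hres.mod (C N.nQ))) (X 1) (X 2).succ (C 9) (C 0) (C 0) (C 0)
      (C 0) (C 0) (C 0) (C 0) (C 0) (C 0)
  refine LSV.ite ((LSP.eq (fr 0) (C 4)).or (LSP.eq (fr 0) (C 6))) ?_ ?_
  · exact LSV.v13 (C 0) (X 1) (X 2) (fr 0).succ (fr 1) (fr 2) (fr 3) (fr 4)
      (((X 11).div (hbs.powConst 7)).mod hbg) (fr 5) (fr 6)
      (((X 11).div (hbs.powConst 7)).div hbg) (X 12)
  · exact LSV.v13 (C 0) (X 1) (X 2) (fr 0).succ (fr 1) (fr 2) (fr 3) (fr 4)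
      (C 0) (fr 5) (fr 6) ((X 11).div (hbs.powConst 7)) (X 12)

end Vale.Agent.P312
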