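import Vale.Agent.P312.Outer
import Vale.Agent.P312.Est
import Vale.Agent.P312.StepLS
import Vale.Agent.P312.LSSpace

/-! # P312: the main theorem (package F5c) -/

namespace Vale.Agent.P312

open Finset

variable {α : Type}

/-- Halting configurations are fixed. -/
theorem OneTapeTM.step_of_halted (M : OneTapeTM α) (c : M.Cfg) (b : Bool)
    (h : M.answer c.q = some b) : M.step c = c := by
  unfold OneTapeTM.step
  rw [h]

theorem OneTapeTM.iterate_of_halted (M : OneTapeTM α) (c : M.Cfg) (b : Bool)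
    (h : M.answer c.q = some b) (k : ℕ) : M.step^[k] c = c := by
  induction k with
  | zero => rfl
  | succ k ih => rw [Function.iterate_succ_apply', ih, M.step_of_halted c b h]

/-- The answer is unique. -/
theorem OneTapeTM.answer_unique (M : OneTapeTM α) (c : M.Cfg) (b b' : Bool) (j k : ℕ)
    (h : M.answer (M.step^[j] c).q = some b) (h' : M.answer (M.step^[k] c).q = some b') :
    b = b' := by
  rcases le_total j k with hjk | hjk
  · obtain ⟨d, rfl⟩ := Nat.exists_eq_add_of_le hjk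
    rw [Nat.add_comm, Function.iterate_add_apply, M.iterate_of_halted _ b h, h] at h'
    exact Option.some.inj h'
  · obtain ⟨d, rfl⟩ := Nat.exists_eq_add_of_le hjk
    rw [Nat.add_comm, Function.iterate_add_apply, M.iterate_of_halted _ b' h', h'] at h
    exact (Option.some.inj h).symm

/-- Main theorem: `TIME₁[t] ⊆ SPACE[t^{2/5} log² t]`. -/
theorem TIME1_subset_SPACE [Finite α] (t : ℕ → ℕ) (ht : ∀ n, n ≤ t n) :
    (TIME1 t : Set (Set (List α))) ⊆
      SPACE (fun n => (t n : ℝ) ^ ((2 : ℝ) / 5) * Real.log (t n + 2) ^ 2) := by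
  rintro L ⟨M, hM⟩
  obtain ⟨N, code, hcode, hcod⟩ := exists_coding M
  obtain ⟨c0, D, C, hD, hest⟩ := est N
  have hpar : ∀ B r, 1 ≤ uOf D B → r < uOf D B ^ 2 → ParOK N c0 D C B r := by
    intro B r hu hr
    obtain ⟨h1, h2, h3, h4, h5, h6, h7, h8, h9, h10, h11, h12⟩ := hest B r hu hr
    exact ⟨hu, hr, h1, h2, h3, h4, h5, h6, h7, h8, h9, h10, h11, h12⟩
  obtain ⟨K, hK⟩ := final_est D (C + 2)
  refine mem_SPACE_of_LS (m := 12) L _ (fun n => by positivity)
    (fun i w v => stepM N c0 D code w v i) (fun i => LS_stepM N c0 D code i) ?_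
  refine ⟨K, fun w => ?_⟩
  obtain ⟨u, hu1, hTu, hlog⟩ := hK w.length (t w.length) (ht _)
  obtain ⟨j, hj, hans⟩ := hM w
  set Bt := 2 ^ (D * (u + 2) ^ 2 * ell u ^ 2) with hBt
  have huBt : uOf D Bt = u := uOf_target D hD u hu1
  -- the machine halts within `u ^ 5` steps
  have hhalt : N.hal ((N.step^[j] (N.init code w)).q) ≠ 0 := by
    rw [hcod w j]
    rcases hans with ⟨-, h⟩ | ⟨-, h⟩
    · rw [h]; simp
    · rw [h]; simp
  obtain ⟨r, hr, hrh⟩ := halt_of_time N code w Bt u (c0 + 8 * ell u) hu1 j (hj.trans hTu) hhalt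
  have hprm : prm c0 D Bt r = ⟨Bt, u, r, c0 + 8 * ell u⟩ := by
    unfold prm; rw [huBt]
  have hp1 := hpar Bt r (by rw [huBt]; exact hu1) (by rw [huBt]; exact hr)
  have h20 : 20 ≤ Bt ^ C + Bt := by
    have h1 := hp1.small
    have h2 : 20 ≤ Bt ^ C := le_trans (Nat.le_add_left _ _) h1
    exact h2.trans (Nat.le_add_right _ _)
  obtain ⟨y, ⟨n, hy, hst, hbd⟩, hy0, k, hk⟩ := run_outer N c0 D code w hcode C hpar Bt h20
    (by rw [huBt]; exact hu1) r (by rw [huBt]; exact hr) (by rw [hprm, huBt]; exact hrh)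
  have hBt2 : 2 ≤ Bt := by
    have h1 : 0 < D * (u + 2) ^ 2 * ell u ^ 2 := by
      have : 0 < ell u := by unfold ell; omega
      positivity
    calc 2 = 2 ^ 1 := rfl
      _ ≤ Bt := Nat.pow_le_pow_right (by norm_num) h1
  have hBC : Bt ^ C + Bt ≤ Bt ^ (C + 2) := by
    have e1 : 1 ≤ Bt ^ C := Nat.one_le_pow _ _ (by omega)
    have e2 : Bt ≤ Bt ^ C * Bt := Nat.le_mul_of_pos_left _ e1
    have e3 : Bt ^ C ≤ Bt ^ C * Bt := Nat.le_mul_of_pos_right _ (by omega)
    calc Bt ^ C + Bt ≤ Bt ^ C * Bt + Bt ^ C * Bt := Nat.add_le_add e3 e2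
      _ = Bt ^ C * Bt * 2 := by ring
      _ ≤ Bt ^ C * Bt * Bt := Nat.mul_le_mul_left _ hBt2
      _ = Bt ^ (C + 2) := by ring
  have hfun : (fun (v : Fin (12 + 1) → ℕ) (i : Fin (12 + 1)) => stepM N c0 D code w v i) =
      stepM N c0 D code w := rfl
  refine ⟨n, Bt ^ (C + 2), ?_, ?_, ?_, ?_⟩
  · intro j' hj'
    exact hst j' hj'
  · have hy0' : (stepM N c0 D code w)^[n] (fun _ => 0) 0 =
        N.hal (N.step^[k] (N.init code w)).q := by rw [hy, hk]
    have hy0'' : N.hal (N.step^[k] (N.init code w)).q ≠ 0 := by rw [← hk]; exact hy0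
    rw [hfun]
    rw [hcod w k] at hy0' hy0''
    rcases hans with ⟨hw, h⟩ | ⟨hw, h⟩
    · left
      refine ⟨hw, ?_⟩
      rcases hb : M.answer (M.step^[k] (M.init w)).q with _ | b
      · rw [hb] at hy0''; exact absurd rfl hy0''
      · have := M.answer_unique (M.init w) true b j k h hb
        subst this
        rw [hb] at hy0'
        exact hy0'
    · right
      refine ⟨hw, ?_⟩
      rcases hb : M.answer (M.step^[k] (M.init w)).q with _ | b
      · rw [hb] at hy0''; exact absurd rfl hy0''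
      · have := M.answer_unique (M.init w) false b j k h hb
        subst this
        rw [hb] at hy0'
        exact hy0'
  · intro j' hj' i
    exact (hbd j' hj' i).trans hBC
  · exact hlog

end Vale.Agent.P312
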