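import Vale.Agent.P312.Num

/-!
# P312: package E2, the macro run reaches halting (pigeonhole over offsets)
-/

namespace Vale.Agent.P312

open Finset

variable {α : Type}

namespace Halting

/-- A guarded iteration follows the plain iteration up to a time `m`, when the guard fails. -/
theorem guarded_iter {S : Type} (f : S → S) (p : S → Prop) [DecidablePred p] (c : S) (m : ℕ)
    (h1 : ∀ i < m, p (f^[i] c)) (h2 : ¬ p (f^[m] c)) (n : ℕ) (hn : m ≤ n) :
    (fun x => if p x then f x else x)^[n] c = f^[m] c := by
  have h3 : ∀ i ≤ m, (fun x => if p x then f x else x)^[i] c = f^[i] c := by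
    intro i
    induction i with
    | zero => intro _; rfl
    | succ i ih =>
      intro hi
      rw [Function.iterate_succ_apply', Function.iterate_succ_apply', ih (by omega)]
      change (if p (f^[i] c) then f (f^[i] c) else f^[i] c) = _
      rw [if_pos (h1 i (by omega))]
  obtain ⟨k, rfl⟩ := Nat.exists_eq_add_of_le hn
  induction k with
  | zero => exact h3 m le_rfl
  | succ k ih =>
    rw [← add_assoc, Function.iterate_succ_apply', ih (by omega)]
    change (if p (f^[m] c) then f (f^[m] c) else f^[m] c) = _
    rw [if_neg h2]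

/-- A guarded iteration is a plain iteration. -/
theorem guarded_reach {S : Type} (f : S → S) (p : S → Prop) [DecidablePred p] (c : S) (n : ℕ) :
    ∃ k, (fun x => if p x then f x else x)^[n] c = f^[k] c := by
  induction n with
  | zero => exact ⟨0, rfl⟩
  | succ n ih =>
    obtain ⟨k, hk⟩ := ih
    rw [Function.iterate_succ_apply', hk]
    by_cases h : p (f^[k] c)
    · refine ⟨k + 1, ?_⟩
      rw [Function.iterate_succ_apply']
      change (if p (f^[k] c) then f (f^[k] c) else f^[k] c) = _
      rw [if_pos h]
    · refine ⟨k, ?_⟩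
      change (if p (f^[k] c) then f (f^[k] c) else f^[k] c) = _
      rw [if_neg h]

/-- For neighbouring positions at most one offset yields a crossing. -/
theorem card_cross_le (b x y : ℕ) (hxy : x ≤ y + 1) (hyx : y ≤ x + 1) :
    ((range b).filter (fun r => (x + r) / b ≠ (y + r) / b)).card ≤ 1 := by
  have key : ∀ z r : ℕ, (z + r) / b ≠ (z + 1 + r) / b → b ∣ z + r + 1 := by
    intro z r h
    by_contra hd
    apply h
    have e : z + 1 + r = z + r + 1 := by ring
    rw [e, Nat.succ_div, if_neg hd, Nat.add_zero]
  have uniq : ∀ z r1 r2 : ℕ, r1 < b → r2 < b → b ∣ z + r1 + 1 → b ∣ z + r2 + 1 → r1 = r2 := by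
    intro z r1 r2 h1 h2 d1 d2
    have d : (b : ℤ) ∣ (r1 : ℤ) - r2 := by
      have e : (r1 : ℤ) - r2 = ((z + r1 + 1 : ℕ) : ℤ) - ((z + r2 + 1 : ℕ) : ℤ) := by
        push_cast; ring
      rw [e]
      exact dvd_sub (by exact_mod_cast d1) (by exact_mod_cast d2)
    have h3 : (r1 : ℤ) - r2 = 0 := by
      apply Int.eq_zero_of_abs_lt_dvd d
      rw [abs_lt]
      constructor <;> omega
    omega
  rw [Finset.card_le_one]
  intro r1 h1 r2 h2
  rw [Finset.mem_filter, Finset.mem_range] at h1 h2
  rcases Nat.lt_trichotomy x y with h | h | h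
  · have e : y = x + 1 := by omega
    subst e
    exact uniq x r1 r2 h1.1 h2.1 (key x r1 h1.2) (key x r2 h2.2)
  · subst h
    exact absurd rfl h1.2
  · have e : x = y + 1 := by omega
    subst e
    exact uniq y r1 r2 h1.1 h2.1 (key y r1 (Ne.symm h1.2)) (key y r2 (Ne.symm h2.2))

theorem pos_step (N : NTM) (c : NCfg) : |(N.step c).pos - c.pos| ≤ 1 := by
  unfold NTM.step
  split_ifs with h
  · simp
  · simp only
    have := N.tm_le c.q (c.tape c.pos)
    rw [abs_le]
    constructor <;> omega

theorem pos_le (N : NTM) (code : α → ℕ) (w : List α) (t : ℕ) :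
    |(N.step^[t] (N.init code w)).pos| ≤ t := by
  induction t with
  | zero => simp [NTM.init]
  | succ t ih =>
    rw [Function.iterate_succ_apply']
    have h := pos_step N (N.step^[t] (N.init code w))
    rw [abs_le] at h ih ⊢
    push_cast
    constructor <;> linarith [h.1, h.2, ih.1, ih.2]

end Halting

/-- E2a: the macro run consists of configurations of the run. -/
theorem ncfg_reach (N : NTM) (P : Prm) (code : α → ℕ) (w : List α) (j : ℕ) :
    ∃ k, ncfg N P code w j = N.step^[k] (N.init code w) := by
  induction j with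
  | zero => exact ⟨0, rfl⟩
  | succ j ih =>
    obtain ⟨k, hk⟩ := ih
    have h1 : ncfg N P code w (j + 1) = vstep N P (ncfg N P code w j) := by
      unfold ncfg
      rw [Function.iterate_succ_apply']
    rw [h1, hk]
    obtain ⟨m, hm⟩ := Halting.guarded_reach N.step
      (fun c' => N.hal c'.q = 0 ∧ nblk P c' = nblk P (N.step^[k] (N.init code w)))
      (N.step^[k] (N.init code w)) P.T
    refine ⟨m + k, ?_⟩
    rw [Function.iterate_add_apply]
    exact hm

/-- E2b: if the machine halts within `u ^ 5` steps then for some offset `r < u ^ 2` it has halted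
after `(u + 1) * u ^ 2` visits. -/
theorem halt_of_time (N : NTM) (code : α → ℕ) (w : List α) (B u kap : ℕ) (hu : 1 ≤ u) (h : ℕ)
    (hh : h ≤ u ^ 5) (hhalt : N.hal ((N.step^[h] (N.init code w)).q) ≠ 0) :
    ∃ r < u ^ 2, N.hal (ncfg N ⟨B, u, r, kap⟩ code w ((u + 1) * u ^ 2)).q ≠ 0 := by
  classical
  set c : ℕ → NCfg := fun t => N.step^[t] (N.init code w) with hc
  set pp : ℕ → ℕ := fun t => ((c t).pos + ((u + 2) ^ 8 : ℕ)).toNat with hpp
  have hblk : ∀ r t, nblk ⟨B, u, r, kap⟩ (c t) = (pp t + r) / u ^ 2 := fun r t => rfl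
  -- positions
  have hZ : u ^ 5 < (u + 2) ^ 8 := by
    calc u ^ 5 ≤ (u + 2) ^ 5 := Nat.pow_le_pow_left (by omega) 5
      _ < (u + 2) ^ 8 := Nat.pow_lt_pow_right (by omega) (by norm_num)
  have hcsucc : ∀ t, c (t + 1) = N.step (c t) := by
    intro t
    simp only [hc]
    rw [Function.iterate_succ_apply']
  have hppstep : ∀ t < h, pp t ≤ pp (t + 1) + 1 ∧ pp (t + 1) ≤ pp t + 1 := by
    intro t ht
    have h1 := Halting.pos_le N code w t
    have h2 := Halting.pos_step N (c t)
    rw [← hcsucc] at h2
    have h3 : |(c t).pos| ≤ t := h1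
    rw [abs_le] at h2 h3
    simp only [hpp]
    have h4 : (t : ℤ) < ((u + 2) ^ 8 : ℕ) := by
      have : t < (u + 2) ^ 8 := by omega
      exact_mod_cast this
    omega
  -- crossings
  set cr : ℕ → ℕ → ℕ := fun r k =>
    ((range k).filter (fun t => (pp t + r) / u ^ 2 ≠ (pp (t + 1) + r) / u ^ 2)).card with hcr
  have hsum : ∑ r ∈ range (u ^ 2), cr r h ≤ h := by
    have e1 : ∑ r ∈ range (u ^ 2), cr r h = ∑ t ∈ range h,
        ((range (u ^ 2)).filter
          (fun r => (pp t + r) / u ^ 2 ≠ (pp (t + 1) + r) / u ^ 2)).card := by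
      simp only [hcr, Finset.card_filter]
      rw [Finset.sum_comm]
    rw [e1]
    calc ∑ t ∈ range h, ((range (u ^ 2)).filter
          (fun r => (pp t + r) / u ^ 2 ≠ (pp (t + 1) + r) / u ^ 2)).card
        ≤ ∑ t ∈ range h, 1 := by
          apply Finset.sum_le_sum
          intro t ht
          rw [Finset.mem_range] at ht
          exact Halting.card_cross_le _ _ _ (hppstep t ht).1 (hppstep t ht).2
      _ = h := by simp
  obtain ⟨r, hr, hrc⟩ : ∃ r < u ^ 2, cr r h ≤ u ^ 3 := by
    by_contra hcon
    push Not at hcon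
    have h1 : ∑ r ∈ range (u ^ 2), (u ^ 3 + 1) ≤ ∑ r ∈ range (u ^ 2), cr r h := by
      apply Finset.sum_le_sum
      intro r hr
      rw [Finset.mem_range] at hr
      exact hcon r hr
    rw [Finset.sum_const, Finset.card_range, smul_eq_mul] at h1
    have h2 : u ^ 2 * (u ^ 3 + 1) = u ^ 5 + u ^ 2 := by ring
    have h3 : 1 ≤ u ^ 2 := Nat.one_le_pow _ _ hu
    omega
  refine ⟨r, hr, ?_⟩
  -- the macro run
  have key : ∀ j, ∃ k, ncfg N ⟨B, u, r, kap⟩ code w j = c k ∧
      (N.hal (c k).q ≠ 0 ∨ (k ≤ h ∧ j ≤ cr r k)) := by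
    intro j
    induction j with
    | zero => exact ⟨0, rfl, Or.inr ⟨Nat.zero_le _, Nat.zero_le _⟩⟩
    | succ j ih =>
      obtain ⟨k, hk, hk2⟩ := ih
      have h1 : ncfg N ⟨B, u, r, kap⟩ code w (j + 1) =
          vstep N ⟨B, u, r, kap⟩ (ncfg N ⟨B, u, r, kap⟩ code w j) := by
        unfold ncfg
        rw [Function.iterate_succ_apply']
      rw [h1, hk]
      have hck : ∀ i, N.step^[i] (c k) = c (k + i) := by
        intro i
        simp only [hc]
        rw [add_comm k i, Function.iterate_add_apply]
      by_cases hhk : N.hal (c k).q ≠ 0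
      · refine ⟨k, ?_, Or.inl hhk⟩
        have := Halting.guarded_iter N.step
          (fun c' => N.hal c'.q = 0 ∧ nblk ⟨B, u, r, kap⟩ c' = nblk ⟨B, u, r, kap⟩ (c k))
          (c k) 0 (by intro i hi; omega) (by intro hx; exact hhk hx.1) (Prm.T ⟨B, u, r, kap⟩)
          (Nat.zero_le _)
        exact this
      · push Not at hhk
        have hkk : k ≤ h ∧ j ≤ cr r k := by
          rcases hk2 with h2 | h2
          · exact absurd hhk h2
          · exact h2
        -- the least time at which the guard fails
        have hex : ∃ m, ¬ (N.hal (c (k + m)).q = 0 ∧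
            nblk ⟨B, u, r, kap⟩ (c (k + m)) = nblk ⟨B, u, r, kap⟩ (c k)) := by
          refine ⟨h - k, ?_⟩
          intro hx
          apply hhalt
          have e : k + (h - k) = h := by omega
          rw [e] at hx
          exact hx.1
        set m := Nat.find hex with hm
        have hm1 := Nat.find_spec hex
        rw [← hm] at hm1
        have hm2 : ∀ i < m, (N.hal (c (k + i)).q = 0 ∧
            nblk ⟨B, u, r, kap⟩ (c (k + i)) = nblk ⟨B, u, r, kap⟩ (c k)) := by
          intro i hi
          have := Nat.find_min hex hi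
          exact not_not.mp this
        have hm3 : m ≤ h - k := by
          apply Nat.find_min' hex
          intro hx
          apply hhalt
          have e : k + (h - k) = h := by omega
          rw [e] at hx
          exact hx.1
        have hv : vstep N ⟨B, u, r, kap⟩ (c k) = c (k + m) := by
          have hT : Prm.T ⟨B, u, r, kap⟩ = u ^ 5 := rfl
          have := Halting.guarded_iter N.step
            (fun c' => N.hal c'.q = 0 ∧ nblk ⟨B, u, r, kap⟩ c' = nblk ⟨B, u, r, kap⟩ (c k))
            (c k) m (by intro i hi; rw [hck]; exact hm2 i hi) (by rw [hck]; exact hm1)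
            (Prm.T ⟨B, u, r, kap⟩) (by rw [hT]; omega)
          rw [hck] at this
          exact this
        refine ⟨k + m, hv, ?_⟩
        by_cases hhm : N.hal (c (k + m)).q = 0
        · right
          refine ⟨by omega, ?_⟩
          have hne : nblk ⟨B, u, r, kap⟩ (c (k + m)) ≠ nblk ⟨B, u, r, kap⟩ (c k) := by
            intro hx
            exact hm1 ⟨hhm, hx⟩
          have hm0 : m ≠ 0 := by
            intro h0
            apply hne
            rw [h0, Nat.add_zero]
          obtain ⟨l, hl⟩ : ∃ l, m = l + 1 := Nat.exists_eq_succ_of_ne_zero hm0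
          have hl2 := (hm2 l (by omega)).2
          have hcross : (pp (k + l) + r) / u ^ 2 ≠ (pp (k + l + 1) + r) / u ^ 2 := by
            rw [← hblk, ← hblk, hl2]
            have e : k + l + 1 = k + m := by omega
            rw [e]
            exact Ne.symm hne
          have hstrict : cr r k < cr r (k + m) := by
            simp only [hcr]
            apply Finset.card_lt_card
            rw [Finset.ssubset_iff_of_subset]
            · refine ⟨k + l, ?_, ?_⟩
              · rw [Finset.mem_filter, Finset.mem_range]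
                exact ⟨by omega, hcross⟩
              · rw [Finset.mem_filter, Finset.mem_range]
                intro hx
                omega
            · intro t ht
              rw [Finset.mem_filter, Finset.mem_range] at ht ⊢
              exact ⟨by omega, ht.2⟩
          omega
        · left
          exact hhm
  obtain ⟨k, hk, hk2⟩ := key ((u + 1) * u ^ 2)
  rw [hk]
  rcases hk2 with h2 | ⟨h2, h3⟩
  · exact h2
  · exfalso
    have h4 : cr r k ≤ cr r h := by
      simp only [hcr]
      apply Finset.card_le_card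
      intro t ht
      rw [Finset.mem_filter, Finset.mem_range] at ht ⊢
      exact ⟨by omega, ht.2⟩
    have h5 : (u + 1) * u ^ 2 = u ^ 3 + u ^ 2 := by ring
    have h6 : 1 ≤ u ^ 2 := Nat.one_le_pow _ _ hu
    omega

end Vale.Agent.P312
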