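import Vale.Agent.P312.Final

/-! # P312: corollaries -/

namespace Vale.Agent.P312

variable {α : Type}

theorem SPACE_mono {s s' : ℕ → ℝ} (hs : ∀ n, 0 ≤ s n) (hs' : ∀ n, 0 ≤ s' n) (C : ℝ)
    (h : ∀ n, s n ≤ C * (s' n + 1)) : (SPACE s : Set (Set (List α))) ⊆ SPACE s' := by
  rintro L ⟨M, C', hM, hsp⟩
  refine ⟨M, |C'| * (|C| + 1), hM, fun w => ?_⟩
  obtain ⟨hfin, hle⟩ := hsp w
  refine ⟨hfin, hle.trans ?_⟩
  have h0 := hs w.length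
  have h1 := h w.length
  have h2 := hs' w.length
  have h3 : s w.length + 1 ≤ (|C| + 1) * (s' w.length + 1) := by
    have h4 : C * (s' w.length + 1) ≤ |C| * (s' w.length + 1) :=
      mul_le_mul_of_nonneg_right (le_abs_self C) (by linarith)
    nlinarith
  calc C' * (s w.length + 1) ≤ |C'| * (s w.length + 1) :=
      mul_le_mul_of_nonneg_right (le_abs_self C') (by linarith)
    _ ≤ |C'| * ((|C| + 1) * (s' w.length + 1)) :=
      mul_le_mul_of_nonneg_left h3 (abs_nonneg _)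
    _ = |C'| * (|C| + 1) * (s' w.length + 1) := by ring

theorem rpow_log_le {e : ℝ} (he : 2 / 5 < e) : ∃ C : ℝ, ∀ x : ℕ,
    (x : ℝ) ^ ((2 : ℝ) / 5) * Real.log (x + 2) ^ 2 ≤ C * ((x : ℝ) ^ e + 1) := by
  set ε := (e - 2 / 5) / 2 with hε
  have hεp : 0 < ε := by rw [hε]; linarith
  refine ⟨(3 : ℝ) ^ e / ε ^ 2, fun x => ?_⟩
  have hx0 : (0 : ℝ) ≤ x := Nat.cast_nonneg _
  have h2 : (0 : ℝ) < (x : ℝ) + 2 := by linarith
  have hlog : Real.log (x + 2) ≤ ((x : ℝ) + 2) ^ ε / ε := Real.log_le_rpow_div h2.le hεp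
  have hlog0 : 0 ≤ Real.log ((x : ℝ) + 2) := Real.log_nonneg (by linarith)
  have h3 : Real.log ((x : ℝ) + 2) ^ 2 ≤ (((x : ℝ) + 2) ^ ε / ε) ^ 2 :=
    pow_le_pow_left₀ hlog0 hlog 2
  have h4 : (((x : ℝ) + 2) ^ ε / ε) ^ 2 = ((x : ℝ) + 2) ^ (2 * ε) / ε ^ 2 := by
    rw [div_pow, ← Real.rpow_natCast, ← Real.rpow_mul h2.le]
    norm_num
    ring_nf
  have h5 : (x : ℝ) ^ ((2 : ℝ) / 5) ≤ ((x : ℝ) + 2) ^ ((2 : ℝ) / 5) :=
    Real.rpow_le_rpow hx0 (by linarith) (by norm_num)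
  have h6 : ((x : ℝ) + 2) ^ ((2 : ℝ) / 5) * ((x : ℝ) + 2) ^ (2 * ε) = ((x : ℝ) + 2) ^ e := by
    rw [← Real.rpow_add h2]
    congr 1
    rw [hε]; ring
  have he0 : 0 ≤ e := by linarith
  have h7 : ((x : ℝ) + 2) ^ e ≤ 3 ^ e * ((x : ℝ) ^ e + 1) := by
    rcases Nat.eq_zero_or_pos x with h0 | h0
    · subst h0
      have h8 : ((0 : ℕ) : ℝ) + 2 ≤ 3 := by norm_num
      have h9 : (((0 : ℕ) : ℝ) + 2) ^ e ≤ 3 ^ e := Real.rpow_le_rpow (by norm_num) h8 he0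
      have h10 : (0 : ℝ) ≤ (((0 : ℕ) : ℝ)) ^ e := Real.rpow_nonneg (by norm_num) _
      have h11 : (0 : ℝ) < 3 ^ e := Real.rpow_pos_of_pos (by norm_num) _
      nlinarith
    · have hx1 : (1 : ℝ) ≤ x := by exact_mod_cast h0
      have h8 : (x : ℝ) + 2 ≤ 3 * x := by linarith
      have h9 : ((x : ℝ) + 2) ^ e ≤ (3 * (x : ℝ)) ^ e := Real.rpow_le_rpow h2.le h8 he0
      rw [Real.mul_rpow (by norm_num) hx0] at h9
      have h11 : (0 : ℝ) < 3 ^ e := Real.rpow_pos_of_pos (by norm_num) _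
      nlinarith
  calc (x : ℝ) ^ ((2 : ℝ) / 5) * Real.log (x + 2) ^ 2
      ≤ ((x : ℝ) + 2) ^ ((2 : ℝ) / 5) * (((x : ℝ) + 2) ^ (2 * ε) / ε ^ 2) := by
        rw [← h4]
        exact mul_le_mul h5 h3 (by positivity) (by positivity)
    _ = ((x : ℝ) + 2) ^ e / ε ^ 2 := by rw [← h6]; ring
    _ ≤ (3 ^ e * ((x : ℝ) ^ e + 1)) / ε ^ 2 := by
        apply div_le_div_of_nonneg_right h7 (by positivity)
    _ = 3 ^ e / ε ^ 2 * ((x : ℝ) ^ e + 1) := by ring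

theorem TIME1_subset_SPACE_rpow [Finite α] (t : ℕ → ℕ) (ht : ∀ n, n ≤ t n) {e : ℝ}
    (he : 2 / 5 < e) : (TIME1 t : Set (Set (List α))) ⊆ SPACE (fun n => (t n : ℝ) ^ e) := by
  obtain ⟨C, hC⟩ := rpow_log_le he
  refine (TIME1_subset_SPACE t ht).trans (SPACE_mono (fun n => by positivity) (fun n => by positivity) C ?_)
  intro n
  exact hC (t n)

theorem e1_le (𝒯 : Set (ℕ → ℕ)) : e1 𝒯 ≤ 2 / 5 := by
  apply le_of_forall_gt_imp_ge_of_dense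
  intro e he
  apply csInf_le
  · exact ⟨0, fun x hx => hx.1⟩
  · refine ⟨by linarith, ?_⟩
    intro t _ ht β _
    exact TIME1_subset_SPACE_rpow t ht he

end Vale.Agent.P312
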