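import Vale.Agent.P312.Mach
import Vale.Agent.P312.Digits

/-! # P312: memory numbers (package F1) -/

namespace Vale.Agent.P312

open Finset

/-- Digit `j` of block `t` of a memory. -/
def mdig (R : Cat.Rules) (M : Cat.Mem R) (t j : ℕ) : ℕ :=
  if h : j < R.W then (M (Cat.blk t) ⟨j, h⟩).val else 0

/-- Contribution of block `t`. -/
def msum (R : Cat.Rules) (M : Cat.Mem R) (t : ℕ) : ℕ :=
  ∑ j ∈ range R.W, mdig R M t j * R.p ^ (t * R.W + j)

variable (R : Cat.Rules) (hp : R.p.Prime) (M : Cat.Mem R)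

theorem encMem_eq_msum : encMem R M = msum R M 0 + msum R M 1 + msum R M 2 := by
  unfold encMem msum
  rw [Fin.sum_univ_three]
  have key : ∀ t : Fin 3, ∑ j : Fin R.W, (M t j).val * R.p ^ ((t : ℕ) * R.W + (j : ℕ)) =
      ∑ j ∈ range R.W, mdig R M t j * R.p ^ ((t : ℕ) * R.W + j) := by
    intro t
    rw [Finset.sum_range]
    apply Finset.sum_congr rfl
    intro j _
    unfold mdig
    rw [dif_pos j.2]
    have : Cat.blk (t : ℕ) = t := by
      unfold Cat.blk; ext; exact Nat.mod_eq_of_lt t.2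
    rw [this]
  rw [key 0, key 1, key 2]
  rfl

include hp in
theorem mdig_lt (t j : ℕ) : mdig R M t j < R.p := by
  have : NeZero R.p := ⟨hp.ne_zero⟩
  unfold mdig
  split_ifs
  · exact ZMod.val_lt _
  · exact hp.pos

theorem encMem_eq_num : encMem R M =
    num R.p (3 * R.W) (fun k => mdig R M (k / R.W) (k % R.W)) := by
  rcases Nat.eq_zero_or_pos R.W with h0 | hW
  · rw [encMem_eq_msum]
    unfold msum
    rw [h0]
    simp [num]
  have e : 3 * R.W = R.W + (R.W + R.W) := by ring
  rw [encMem_eq_msum, e, num_add, num_add]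
  have h0 : num R.p R.W (fun k => mdig R M (k / R.W) (k % R.W)) = msum R M 0 := by
    unfold msum num
    apply Finset.sum_congr rfl
    intro j hj
    rw [Finset.mem_range] at hj
    beta_reduce
    rw [Nat.div_eq_of_lt hj, Nat.mod_eq_of_lt hj, Nat.zero_mul, Nat.zero_add]
  have h1 : R.p ^ R.W * num R.p R.W (fun i => mdig R M ((R.W + i) / R.W) ((R.W + i) % R.W)) =
      msum R M 1 := by
    unfold msum num
    rw [Finset.mul_sum]
    apply Finset.sum_congr rfl
    intro j hj
    rw [Finset.mem_range] at hj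
    beta_reduce
    rw [Nat.add_div_left _ hW, Nat.div_eq_of_lt hj, Nat.add_mod_left, Nat.mod_eq_of_lt hj,
      Nat.one_mul, pow_add]
    ring
  have h2 : R.p ^ R.W * num R.p R.W (fun i => mdig R M ((R.W + (R.W + i)) / R.W)
      ((R.W + (R.W + i)) % R.W)) * R.p ^ R.W = msum R M 2 := by
    unfold msum num
    rw [Finset.mul_sum, Finset.sum_mul]
    apply Finset.sum_congr rfl
    intro j hj
    rw [Finset.mem_range] at hj
    beta_reduce
    rw [Nat.add_div_left _ hW, Nat.add_div_left _ hW, Nat.div_eq_of_lt hj, Nat.add_mod_left,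
      Nat.add_mod_left, Nat.mod_eq_of_lt hj, two_mul, pow_add, pow_add]
    ring
  rw [h0, Nat.mul_add, ← Nat.mul_assoc]
  rw [h1, ← h2]
  ring

include hp

theorem encMem_lt : encMem R M < R.p ^ (3 * R.W) := by
  rw [encMem_eq_num]
  exact num_lt (fun k _ => mdig_lt R hp M _ _)

theorem dig_encMem' (t : ℕ) (ht : t < 3) (j : ℕ) (hj : j < R.W) :
    dig R.p (encMem R M) (t * R.W + j) = mdig R M t j := by
  have hlt : t * R.W + j < 3 * R.W := by
    have : (t + 1) * R.W ≤ 3 * R.W := Nat.mul_le_mul_right _ (by omega)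
    rw [Nat.add_mul] at this
    omega
  rw [encMem_eq_num, dig_num hlt (fun k _ => mdig_lt R hp M _ _)]
  have h1 : (t * R.W + j) / R.W = t := by
    rw [Nat.add_comm, Nat.add_mul_div_right _ _ (by omega), Nat.div_eq_of_lt hj, Nat.zero_add]
  have h2 : (t * R.W + j) % R.W = j := by
    rw [Nat.add_comm, Nat.add_mul_mod_self_right, Nat.mod_eq_of_lt hj]
  rw [h1, h2]

theorem dig_encMem (t : ℕ) (ht : t < 3) (j : Fin R.W) :
    dig R.p (encMem R M) (t * R.W + j) = (M (Cat.blk t) j).val := by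
  rw [dig_encMem' R hp M t ht j j.2]
  unfold mdig
  rw [dif_pos j.2]

/-- Replacing one block. -/
theorem updN_encMem (B t : ℕ) (ht : t < 3) (hB : R.p ^ (3 * R.W) ≤ B) (nd : ℕ → ℕ)
    (M' : Cat.Mem R) (hne : ∀ t', t' ≠ Cat.blk t → M' t' = M t')
    (hnd : ∀ j : Fin R.W, nd j = (M' (Cat.blk t) j).val) :
    updN B R.p R.W (encMem R M) t nd = encMem R M' := by
  have hpos : ∀ j ∈ range R.W, cpow B R.p (t * R.W + j) = R.p ^ (t * R.W + j) := by
    intro j hj
    rw [Finset.mem_range] at hj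
    apply cpow_eq
    refine le_trans (Nat.pow_le_pow_right hp.pos ?_) hB
    have : (t + 1) * R.W ≤ 3 * R.W := Nat.mul_le_mul_right _ (by omega)
    rw [Nat.add_mul] at this
    omega
  have s1 : ∑ j ∈ range R.W, nd j * cpow B R.p (t * R.W + j) = msum R M' t := by
    unfold msum
    apply Finset.sum_congr rfl
    intro j hj
    rw [hpos j hj]
    rw [Finset.mem_range] at hj
    have := hnd ⟨j, hj⟩
    unfold mdig
    rw [dif_pos hj, ← this]
  have s2 : ∑ j ∈ range R.W, dig R.p (encMem R M) (t * R.W + j) * cpow B R.p (t * R.W + j) =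
      msum R M t := by
    unfold msum
    apply Finset.sum_congr rfl
    intro j hj
    rw [hpos j hj]
    rw [Finset.mem_range] at hj
    rw [dig_encMem' R hp M t ht j hj]
  unfold updN
  rw [s1, s2, encMem_eq_msum, encMem_eq_msum]
  have hother : ∀ t', t' < 3 → t' ≠ t → msum R M' t' = msum R M t' := by
    intro t' ht' hne'
    unfold msum mdig
    have : Cat.blk t' ≠ Cat.blk t := by
      unfold Cat.blk
      intro h
      rw [Fin.mk.injEq, Nat.mod_eq_of_lt ht', Nat.mod_eq_of_lt ht] at h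
      exact hne' h
    rw [hne _ this]
  interval_cases t
  · rw [hother 1 (by norm_num) (by norm_num), hother 2 (by norm_num) (by norm_num)]; omega
  · rw [hother 0 (by norm_num) (by norm_num), hother 2 (by norm_num) (by norm_num)]; omega
  · rw [hother 0 (by norm_num) (by norm_num), hother 1 (by norm_num) (by norm_num)]; omega

theorem val_eq_of_cast {x : ℕ} {y : ZMod R.p} (hx : x < R.p) (h : (x : ZMod R.p) = y) :
    x = y.val := by
  have : NeZero R.p := ⟨hp.ne_zero⟩
  rw [← h, ZMod.val_natCast, Nat.mod_eq_of_lt hx]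

theorem addN_encMem (B t c y : ℕ) (ht : t < 3) (hB : R.p ^ (3 * R.W) ≤ B) :
    addN B R.p R.W (encMem R M) t c y =
      encMem R (Cat.addBits R M (Cat.blk t) (c : ZMod R.p) y) := by
  have : NeZero R.p := ⟨hp.ne_zero⟩
  unfold addN
  apply updN_encMem R hp M B t ht hB
  · intro t' hne
    funext j
    unfold Cat.addBits
    rw [if_neg hne]
  · intro j
    apply val_eq_of_cast R hp (Nat.mod_lt _ hp.pos)
    rw [ZMod.natCast_mod, Nat.cast_add, Nat.cast_mul, dig_encMem R hp M t ht j,
      ZMod.natCast_zmod_val]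
    unfold Cat.addBits
    rw [if_pos rfl]

theorem blk_mod (t : ℕ) : Cat.blk (t % 3) = Cat.blk t := by
  unfold Cat.blk
  ext
  exact Nat.mod_mod _ _

theorem copyN_encMem (B t c cp lam : ℕ) (ht : t < 3) (hB : R.p ^ (3 * R.W) ≤ B) :
    copyN B R.p R.W (encMem R M) t c cp lam =
      encMem R (fun t' j => if t' = Cat.blk t then
        M t' j - (c : ZMod R.p) * cp * (lam * M (Cat.blk (t + 1)) j) else M t' j) := by
  have : NeZero R.p := ⟨hp.ne_zero⟩
  unfold copyN
  apply updN_encMem R hp M B t ht hB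
  · intro t' hne
    funext j
    rw [if_neg hne]
  · intro j
    apply val_eq_of_cast R hp (Nat.mod_lt _ hp.pos)
    rw [ZMod.natCast_mod, Nat.cast_add, dig_encMem R hp M t ht j, ZMod.natCast_zmod_val,
      Nat.cast_sub (Nat.mod_lt _ hp.pos).le, ZMod.natCast_mod, ZMod.natCast_self]
    push_cast
    rw [dig_encMem R hp M ((t + 1) % 3) (Nat.mod_lt _ (by norm_num)) j, ZMod.natCast_zmod_val,
      blk_mod R hp]
    rw [if_pos rfl]
    ring

theorem zdig_lt (mm t lam j : ℕ) : zdig R.p R.W mm t lam j < R.p := Nat.mod_lt _ hp.pos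

theorem zdig_cast (t lam : ℕ) (ht : t < 3) (j : Fin R.W) :
    (zdig R.p R.W (encMem R M) t lam j : ZMod R.p) = lam * M (Cat.blk t) j := by
  have : NeZero R.p := ⟨hp.ne_zero⟩
  unfold zdig
  rw [ZMod.natCast_mod, Nat.cast_mul, dig_encMem R hp M t ht j, ZMod.natCast_zmod_val]

theorem deltaN_cast (t lam a : ℕ) (ht : t < 3) :
    (deltaN R.p R.W (encMem R M) t lam a : ZMod R.p) =
      Cat.delta R a (fun j => lam * M (Cat.blk t) j) := by
  have : NeZero R.p := ⟨hp.ne_zero⟩
  unfold deltaN Cat.delta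
  rw [ZMod.natCast_mod, Nat.cast_prod, Finset.prod_range]
  apply Finset.prod_congr rfl
  intro j _
  split_ifs
  · exact zdig_cast R hp M t lam ht j
  · rw [Nat.cast_add, Nat.cast_sub (zdig_lt R hp _ _ _ _).le, ZMod.natCast_self,
      zdig_cast R hp M t lam ht j]
    push_cast
    ring

theorem chN_encMem (B t lam v g i : ℕ) (hB : 2 ^ R.W ≤ B) :
    chN B R.p R.W (encMem R M) t lam (fun a x => R.chi v g i a x) =
      (Cat.chiHat R v g i (fun j => lam * M (Cat.blk (t + 1)) j)
        (fun j => lam * M (Cat.blk (t + 2)) j)).val := by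
  have : NeZero R.p := ⟨hp.ne_zero⟩
  unfold chN
  apply val_eq_of_cast R hp (Nat.mod_lt _ hp.pos)
  unfold Cat.chiHat
  rw [ZMod.natCast_mod, cpow_eq hB, Nat.cast_sum]
  apply Finset.sum_congr rfl
  intro a _
  rw [Nat.cast_sum]
  apply Finset.sum_congr rfl
  intro x _
  rw [Nat.cast_mul, Nat.cast_mul, deltaN_cast R hp M _ _ _ (Nat.mod_lt _ (by norm_num)),
    deltaN_cast R hp M _ _ _ (Nat.mod_lt _ (by norm_num)), blk_mod R hp, blk_mod R hp]

theorem encMem_zero : encMem R (fun _ _ => 0) = 0 := by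
  have : NeZero R.p := ⟨hp.ne_zero⟩
  unfold encMem
  simp

/-- Reading off the result from block `0`. -/
theorem read_encMem (B y : ℕ) (hy : y < 2 ^ R.W) (hB : 2 ^ R.W ≤ B) :
    ∑ j ∈ range R.W, dig R.p (encMem R (Cat.addBits R (fun _ _ => 0) (Cat.blk 0) 1 y)) j *
      cpow B 2 j = y := by
  have : NeZero R.p := ⟨hp.ne_zero⟩
  have key : ∀ j ∈ range R.W,
      dig R.p (encMem R (Cat.addBits R (fun _ _ => 0) (Cat.blk 0) 1 y)) j * cpow B 2 j =
        dig 2 y j * 2 ^ j := by
    intro j hj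
    rw [Finset.mem_range] at hj
    have h1 : j = 0 * R.W + j := by ring
    have h2 : 2 ^ j ≤ B := le_trans (Nat.pow_le_pow_right (by norm_num) hj.le) hB
    rw [cpow_eq h2]
    congr 1
    have h3 := dig_encMem R hp (Cat.addBits R (fun _ _ => 0) (Cat.blk 0) 1 y) 0 (by norm_num)
      ⟨j, hj⟩
    simp only at h3
    rw [← h1] at h3
    rw [h3]
    symm
    apply val_eq_of_cast R hp
    · exact lt_of_lt_of_le (Nat.mod_lt _ (by norm_num)) hp.two_le
    · unfold Cat.addBits
      rw [if_pos rfl, zero_add, one_mul]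
      rfl
  rw [Finset.sum_congr rfl key]
  exact num_dig hy

end Vale.Agent.P312
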