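import Mathlib

/-!
# P312: machine models

Deterministic one-tape Turing machines (time) and deterministic multitape Turing machines
with a read-only input tape (space), and the classes `TIME1 t` and `SPACE s`.
-/

namespace Vale.Agent.P312

/-- A head move. -/
inductive Move where
  | left
  | stay
  | right
  deriving DecidableEq

/-- The displacement of a head move on a two-way infinite tape. -/
def Move.toInt : Move → ℤ
  | .left => -1
  | .stay => 0
  | .right => 1

/-! ## One-tape machines -/

/-- A deterministic one-tape Turing machine over the input alphabet `α`: a finite set of states
`Q`, a finite tape alphabet `Γ` containing the input alphabet and a further blank symbol, a start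
state, a total transition function (new state, written symbol, head move), and the information
which states are halting and with which answer (`none`: not halting, `some true`: accept,
`some false`: reject). -/
structure OneTapeTM (α : Type) where
  Q : Type
  Γ : Type
  finQ : Finite Q
  finΓ : Finite Γ
  embed : α → Γ
  blank : Γ
  embed_inj : Function.Injective embed
  embed_ne_blank : ∀ a, embed a ≠ blank
  start : Q
  trans : Q → Γ → Q × Γ × Move
  answer : Q → Option Bool

namespace OneTapeTM

variable {α : Type}

/-- A configuration of a one-tape machine: state, head position, tape contents. -/
structure Cfg (M : OneTapeTM α) where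
  q : M.Q
  pos : ℤ
  tape : ℤ → M.Γ

/-- The initial configuration: the input is written on cells `0, …, n-1`, all other cells are
blank, the head scans cell `0`. -/
def init (M : OneTapeTM α) (w : List α) : M.Cfg where
  q := M.start
  pos := 0
  tape := fun i => if h : 0 ≤ i ∧ i.toNat < w.length then M.embed (w[i.toNat]'h.2) else M.blank

/-- One step of the machine; halting configurations do not change. -/
def step (M : OneTapeTM α) (c : M.Cfg) : M.Cfg :=
  match M.answer c.q with
  | some _ => c
  | none =>
    { q := (M.trans c.q (c.tape c.pos)).1
      pos := c.pos + (M.trans c.q (c.tape c.pos)).2.2.toInt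
      tape := Function.update c.tape c.pos (M.trans c.q (c.tape c.pos)).2.1 }

/-- `M` decides the language `L` within time `t`: on every input `w` it halts after at most
`t |w|` steps, in an accepting state if `w ∈ L` and in a rejecting state otherwise. -/
def DecidesInTime (M : OneTapeTM α) (L : Set (List α)) (t : ℕ → ℕ) : Prop :=
  ∀ w : List α, ∃ j ≤ t w.length,
    (w ∈ L ∧ M.answer (M.step^[j] (M.init w)).q = some true) ∨
    (w ∉ L ∧ M.answer (M.step^[j] (M.init w)).q = some false)

end OneTapeTM

/-- `TIME1 t`: the languages decided by a deterministic one-tape machine which halts within
`t n` steps on every input of length `n`. -/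
def TIME1 {α : Type} (t : ℕ → ℕ) : Set (Set (List α)) :=
  {L | ∃ M : OneTapeTM α, M.DecidesInTime L t}

/-! ## Multitape machines with a read-only input tape -/

/-- What the input head can scan: the left end marker, an input symbol, the right end marker. -/
inductive InSym (α : Type) where
  | leftEnd
  | sym (a : α)
  | rightEnd

/-- The symbol scanned by the input head at position `h`: position `0` holds the left end marker,
positions `1, …, n` hold the input, positions `> n` the right end marker. -/
def inputAt {α : Type} (w : List α) (h : ℕ) : InSym α :=
  if h = 0 then .leftEnd
  else match w[h - 1]? with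
    | some a => .sym a
    | none => .rightEnd

/-- The input head moves on the positions `0, …, n + 1`; moves beyond the end markers have no
effect. -/
def moveInput (n : ℕ) (h : ℕ) : Move → ℕ
  | .left => h - 1
  | .stay => h
  | .right => min (h + 1) (n + 1)

/-- A deterministic multitape Turing machine with a read-only two-way input tape over the
alphabet `α`, `k` two-way infinite work tapes, a finite set of states `Q`, a finite work alphabet
`Γ` with a blank symbol, a total transition function (depending on the state, the scanned input
symbol and the scanned work symbols, and yielding the new state, the move of the input head and,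
for every work tape, the written symbol and the head move), and the information which states are
halting and with which answer. -/
structure SpaceTM (α : Type) where
  k : ℕ
  Q : Type
  Γ : Type
  finQ : Finite Q
  finΓ : Finite Γ
  blank : Γ
  start : Q
  trans : Q → InSym α → (Fin k → Γ) → Q × Move × (Fin k → Γ × Move)
  answer : Q → Option Bool

namespace SpaceTM

variable {α : Type}

/-- A configuration: state, position of the input head, positions of the work heads, contents of
the work tapes. -/
structure Cfg (M : SpaceTM α) where
  q : M.Q
  inp : ℕ
  pos : Fin M.k → ℤ
  tape : Fin M.k → ℤ → M.Γ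

/-- The initial configuration: all work tapes are blank, the input head is on the first input
cell. -/
def init (M : SpaceTM α) : M.Cfg where
  q := M.start
  inp := 1
  pos := fun _ => 0
  tape := fun _ _ => M.blank

/-- One step on the input `w`; halting configurations do not change. -/
def step (M : SpaceTM α) (w : List α) (c : M.Cfg) : M.Cfg :=
  match M.answer c.q with
  | some _ => c
  | none =>
    let r := M.trans c.q (inputAt w c.inp) (fun i => c.tape i (c.pos i))
    { q := r.1
      inp := moveInput w.length c.inp r.2.1
      pos := fun i => c.pos i + (r.2.2 i).2.toInt
      tape := fun i => Function.update (c.tape i) (c.pos i) (r.2.2 i).1 }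

/-- `M` decides `L`: it halts on every input, accepting exactly the members of `L`. -/
def Decides (M : SpaceTM α) (L : Set (List α)) : Prop :=
  ∀ w : List α, ∃ j,
    (w ∈ L ∧ M.answer ((M.step w)^[j] M.init).q = some true) ∨
    (w ∉ L ∧ M.answer ((M.step w)^[j] M.init).q = some false)

/-- The work-tape cells (tape index, cell) scanned during the computation on input `w`. -/
def usedCells (M : SpaceTM α) (w : List α) : Set (Fin M.k × ℤ) :=
  {x | ∃ j, x.2 = ((M.step w)^[j] M.init).pos x.1}

/-- `M` works in space `s`: on every input `w` it uses at most `s |w|` work-tape cells. -/
def InSpace (M : SpaceTM α) (s : ℕ → ℝ) : Prop :=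
  ∀ w : List α, (M.usedCells w).Finite ∧ ((M.usedCells w).ncard : ℝ) ≤ s w.length

end SpaceTM

/-- `SPACE s`: the languages decided by a deterministic multitape machine with read-only input
tape which uses `O(s n)` work-tape cells on inputs of length `n`. -/
def SPACE {α : Type} (s : ℕ → ℝ) : Set (Set (List α)) :=
  {L | ∃ (M : SpaceTM α) (C : ℝ), M.Decides L ∧ M.InSpace (fun n => C * (s n + 1))}

/-- The exponent `e₁` (relative to a class `𝒯` of time bounds, e.g. the time-constructible
functions): the infimum of all `e ≥ 0` such that `TIME1 t ⊆ SPACE (t ^ e)` for every `t ∈ 𝒯` with
`t n ≥ n` for all `n` (over every finite input alphabet). -/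
noncomputable def e1 (𝒯 : Set (ℕ → ℕ)) : ℝ :=
  sInf {e : ℝ | 0 ≤ e ∧ ∀ t ∈ 𝒯, (∀ n, n ≤ t n) → ∀ (α : Type) [Finite α],
    (TIME1 t : Set (Set (List α))) ⊆ SPACE (fun n => (t n : ℝ) ^ e)}

end Vale.Agent.P312
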