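import Vale.Agent.P312.Model
import Vale.Agent.P312.Cat

/-!
# P312: numeric definitions

Numeric one-tape machines, block/visit simulation on numbers, and the evaluation rules.
All functions are written so that they are `LS` (powers are clamped by `B`).
-/

namespace Vale.Agent.P312

open Finset

/-- Clamped power. -/
def cpow (B a k : ℕ) : ℕ := min (a ^ k) B

/-- Digit `k` of `x` in base `E`. -/
def dig (E x k : ℕ) : ℕ := x / E ^ k % E

/-- Clamped iteration of a vector-valued step function. -/
def iterC {m : ℕ} (B cnt : ℕ) (step : (Fin m → ℕ) → Fin m → ℕ) (init : Fin m → ℕ) : Fin m → ℕ :=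
  (fun st i => min (step st i) B)^[cnt] (fun i => min (init i) B)

/-- A one-tape machine with states and symbols coded by natural numbers. -/
structure NTM where
  nQ : ℕ
  nG : ℕ
  q0 : ℕ
  bl : ℕ
  /-- new state -/
  tq : ℕ → ℕ → ℕ
  /-- written symbol -/
  ts : ℕ → ℕ → ℕ
  /-- move, coded: `0` left, `1` stay, `2` right -/
  tm : ℕ → ℕ → ℕ
  /-- halting information: `0` running, `1` accept, `2` reject -/
  hal : ℕ → ℕ
  q0_lt : q0 < nQ
  bl_lt : bl < nG
  tq_lt : ∀ q s, tq q s < nQ
  ts_lt : ∀ q s, ts q s < nG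
  tm_le : ∀ q s, tm q s ≤ 2
  hal_le : ∀ q, hal q ≤ 2
  tq_zero : ∀ q s, nQ ≤ q ∨ nG ≤ s → tq q s = 0
  ts_zero : ∀ q s, nQ ≤ q ∨ nG ≤ s → ts q s = 0
  tm_zero : ∀ q s, nQ ≤ q ∨ nG ≤ s → tm q s = 0
  hal_zero : ∀ q, nQ ≤ q → hal q = 0

/-- Configurations of a numeric machine. -/
structure NCfg where
  q : ℕ
  pos : ℤ
  tape : ℤ → ℕ

/-- One step. -/
def NTM.step (N : NTM) (c : NCfg) : NCfg :=
  if N.hal c.q ≠ 0 then c else
    { q := N.tq c.q (c.tape c.pos)
      pos := c.pos + (N.tm c.q (c.tape c.pos) : ℤ) - 1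
      tape := Function.update c.tape c.pos (N.ts c.q (c.tape c.pos)) }

/-- Initial configuration for the input `w`, symbols coded by `code`. -/
def NTM.init (N : NTM) {α : Type} (code : α → ℕ) (w : List α) : NCfg where
  q := N.q0
  pos := 0
  tape := fun i => if h : 0 ≤ i ∧ i.toNat < w.length then code (w[i.toNat]'h.2) else N.bl

/-- Numeric parameters: clamp `B`, `u` (all other parameters are powers of `u`), offset `r`,
number `kap` of bits of a digit. -/
structure Prm where
  B : ℕ
  u : ℕ
  r : ℕ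
  kap : ℕ

namespace Prm

variable (P : Prm)

/-- block length = number of visits per slab -/
def b : ℕ := P.u ^ 2
/-- cap for the number of steps of a visit -/
def T : ℕ := P.u ^ 5
/-- shift of the positions -/
def Z : ℕ := (P.u + 2) ^ 8
/-- digit base -/
def E : ℕ := cpow P.B 2 P.kap
/-- number of bits of values -/
def W : ℕ := (P.u ^ 2 + 1) * P.kap

/-- block of a shifted position -/
def blkOf (pp : ℕ) : ℕ := (pp + P.r) / P.b
/-- index in its block of a shifted position -/
def idx (pp : ℕ) : ℕ := (pp + P.r) % P.b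
/-- set a digit -/
def setDig (x k s : ℕ) : ℕ := x - dig P.E x k * cpow P.B P.E k + s * cpow P.B P.E k

end Prm

variable (N : NTM) (P : Prm)

/-- One step inside block `I` on triples (block contents, shifted position, state); the step does
nothing when the machine has halted or the head has left the block. -/
def lstep (I : ℕ) (st : Fin 3 → ℕ) : Fin 3 → ℕ :=
  fun i => if N.hal (st 2) = 0 ∧ P.blkOf (st 1) = I then
    (![P.setDig (st 0) (P.idx (st 1)) (N.ts (st 2) (dig P.E (st 0) (P.idx (st 1)))),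
      st 1 + N.tm (st 2) (dig P.E (st 0) (P.idx (st 1))) - 1,
      N.tq (st 2) (dig P.E (st 0) (P.idx (st 1)))] : Fin 3 → ℕ) i
  else st i

/-- A visit: entry code `e = (shifted position) * nQ + state`. -/
def visit (x e : ℕ) : Fin 3 → ℕ :=
  iterC P.B P.T (lstep N P (P.blkOf (e / N.nQ))) ![x, e / N.nQ, e % N.nQ]

/-- New contents after a visit. -/
def vx (x e : ℕ) : ℕ := visit N P x e 0

/-- Entry code after a visit. -/
def ve (x e : ℕ) : ℕ := visit N P x e 1 * N.nQ + visit N P x e 2

/-- Contents of block `I` after replaying the first `len` entries of the log `lg`. -/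
def replay (I lg len x : ℕ) : ℕ :=
  iterC P.B len (fun st => ![if P.blkOf (dig P.E lg (st 1) / N.nQ) = I then
      vx N P (st 0) (dig P.E lg (st 1)) else st 0, st 1 + 1]) ![x, 0] 0

/-! ### The input -/

/-- Symbol `i` of the input: `code + 1`, or `0` beyond the end. -/
def symAt {α : Type} (code : α → ℕ) (w : List α) (i : ℕ) : ℕ := (w[i]?).elim 0 (fun a => code a + 1)

/-- Initial symbol of the cell with index `c` (shifted by `r + Z`). -/
def initSym {α : Type} (code : α → ℕ) (w : List α) (c : ℕ) : ℕ :=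
  if P.r + P.Z ≤ c ∧ symAt code w (c - (P.r + P.Z)) ≠ 0 then
    symAt code w (c - (P.r + P.Z)) - 1 else N.bl

/-- Initial contents of block `I`. -/
def initCont {α : Type} (code : α → ℕ) (w : List α) (I : ℕ) : ℕ :=
  ∑ k ∈ range P.b, initSym N P code w (I * P.b + k) * cpow P.B P.E k

/-! ### Nodes

`nodeX I tau` : contents of block `I` at the start of slab `tau`;
`nodeP s tau` : the entry codes number `0, …, s*u` of slab `tau`. -/

def nodeX (I tau : ℕ) : ℕ := 2 * (tau + (P.u + 2) * I)
def nodeP (s tau : ℕ) : ℕ := 2 * (tau + (P.u + 2) * s) + 1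
def kind (v : ℕ) : ℕ := v % 2
def tau (v : ℕ) : ℕ := v / 2 % (P.u + 2)
def idn (v : ℕ) : ℕ := v / 2 / (P.u + 2)

/-- Full log: the first `s0` entries of `a`, then `g`. -/
def fullLog (a g s0 : ℕ) : ℕ := a % cpow P.B P.E s0 + g * cpow P.B P.E s0

/-- The evaluation rules. -/
def rules {α : Type} (code : α → ℕ) (w : List α) (p : ℕ) : Cat.Rules where
  p := p
  W := P.W
  leaf v := decide (tau P v = 0 ∧ (kind v = 0 ∨ idn P v = 0))
  lval v := if kind v = 0 then initCont N P code w (idn P v) else P.Z * N.nQ + N.q0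
  al v := if kind v = 1 ∧ idn P v ≠ 0 then nodeP P (idn P v - 1) (tau P v)
    else nodeP P P.u (tau P v - 1)
  cp v := if kind v = 1 ∧ idn P v ≠ 0 then 1 else 0
  G v := if kind v = 0 then P.W else
    if idn P v ≠ 0 then cpow P.B 2 (P.kap * (P.u + 1)) else P.E
  n v := if kind v = 1 ∧ idn P v ≠ 0 then P.u else 1
  be v g i := if kind v = 0 then nodeX P (idn P v) (tau P v - 1) else
    if idn P v ≠ 0 then nodeX P (P.blkOf (dig P.E g i / N.nQ)) (tau P v) else 0
  chi v g i a x :=
    if kind v = 0 then Cat.bit (replay N P (idn P v) a P.b x) g else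
    if idn P v ≠ 0 then
      (if dig P.E a ((idn P v - 1) * P.u) = dig P.E g 0 ∧
          ve N P (replay N P (P.blkOf (dig P.E g i / N.nQ)) (fullLog P a g ((idn P v - 1) * P.u))
            ((idn P v - 1) * P.u + i) x) (dig P.E g i) = dig P.E g (i + 1) then 1 else 0)
    else (if dig P.E a P.b = g then 1 else 0)
  out v g := if kind v = 0 then cpow P.B 2 g else
    if idn P v ≠ 0 then g / P.E * cpow P.B P.E ((idn P v - 1) * P.u + 1) else g

/-! ### The macro run -/

/-- Block of the head (numeric, shifted). -/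
def nblk (c : NCfg) : ℕ := P.blkOf (c.pos + P.Z).toNat

/-- One visit of the machine: at most `T` steps, stopping when the machine has halted or the head
has left the block. -/
def vstep (c : NCfg) : NCfg :=
  (fun c' => if N.hal c'.q = 0 ∧ nblk P c' = nblk P c then N.step c' else c')^[P.T] c

/-- Entry code of a configuration. -/
def entry (c : NCfg) : ℕ := (c.pos + P.Z).toNat * N.nQ + c.q

/-- Contents of block `I`. -/
def cont (c : NCfg) (I : ℕ) : ℕ :=
  ∑ k ∈ range P.b, c.tape ((I * P.b + k : ℕ) - (P.r + P.Z : ℕ)) * P.E ^ k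

/-- The configuration after `j` visits. -/
def ncfg {α : Type} (code : α → ℕ) (w : List α) (j : ℕ) : NCfg := (vstep N P)^[j] (N.init code w)

/-- Conditions on the parameters. -/
structure Prm.OK (P : Prm) (N : NTM) : Prop where
  u_pos : 1 ≤ P.u
  r_lt : P.r < P.u ^ 2
  kap_E : (2 * P.Z + 1) * N.nQ ≤ 2 ^ P.kap
  kap_G : N.nG ≤ 2 ^ P.kap
  B_big : 2 ^ ((P.u ^ 2 + 2) * P.kap) * (P.u + 2) ^ 10 ≤ P.B

/-- Value of a node. -/
def nval {α : Type} (code : α → ℕ) (w : List α) (v : ℕ) : ℕ :=
  if kind v = 0 then cont P (ncfg N P code w (tau P v * P.b)) (idn P v)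
  else ∑ i ∈ range (idn P v * P.u + 1), entry N P (ncfg N P code w (tau P v * P.b + i)) * P.E ^ i

/-- Good nodes. -/
def Good (v : ℕ) : Prop :=
  (kind v = 0 ∧ idn P v < P.E + P.b + 1) ∨ (kind v = 1 ∧ idn P v ≤ P.u)

/-- Depths. -/
def nS (v : ℕ) : ℕ := if kind v = 0 then tau P v * (P.u + 2) else tau P v * (P.u + 2) + idn P v
def nB (v : ℕ) : ℕ := if kind v = 0 then tau P v else tau P v + 1

end Vale.Agent.P312
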