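import Vale.Agent.P312.SimLog

/-! # P312: validity of the evaluation rules (package E3) -/

namespace Vale.Agent.P312

open Finset

variable {N : NTM} {P : Prm} {α : Type} {code : α → ℕ} {w : List α}

/-! ### Node codes -/

theorem tau_lt (v : ℕ) : tau P v < P.u + 2 := Nat.mod_lt _ (by omega)

theorem kind_nodeX (I t : ℕ) : kind (nodeX P I t) = 0 := by unfold kind nodeX; omega

theorem kind_nodeP (s t : ℕ) : kind (nodeP P s t) = 1 := by unfold kind nodeP; omega

theorem tau_nodeX {I t : ℕ} (ht : t < P.u + 2) : tau P (nodeX P I t) = t := by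
  unfold tau nodeX
  rw [Nat.mul_div_cancel_left _ (by norm_num), Nat.add_mul_mod_self_left, Nat.mod_eq_of_lt ht]

theorem idn_nodeX {I t : ℕ} (ht : t < P.u + 2) : idn P (nodeX P I t) = I := by
  unfold idn nodeX
  rw [Nat.mul_div_cancel_left _ (by norm_num), Nat.add_mul_div_left _ _ (by omega),
    Nat.div_eq_of_lt ht, Nat.zero_add]

theorem nodeP_half (s t : ℕ) : nodeP P s t / 2 = t + (P.u + 2) * s := by
  unfold nodeP; omega

theorem tau_nodeP {s t : ℕ} (ht : t < P.u + 2) : tau P (nodeP P s t) = t := by
  unfold tau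
  rw [nodeP_half, Nat.add_mul_mod_self_left, Nat.mod_eq_of_lt ht]

theorem idn_nodeP {s t : ℕ} (ht : t < P.u + 2) : idn P (nodeP P s t) = s := by
  unfold idn
  rw [nodeP_half, Nat.add_mul_div_left _ _ (by omega), Nat.div_eq_of_lt ht, Nat.zero_add]

theorem kind_cases (v : ℕ) : kind v = 0 ∨ kind v = 1 := by unfold kind; omega

theorem node_bound {v m : ℕ} (h : idn P v ≤ m) : v < 2 * (P.u + 2) * (m + 1) := by
  have h1 := Nat.div_add_mod (v / 2) (P.u + 2)
  have h2 := tau_lt (P := P) v
  unfold idn at h
  unfold tau at h2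
  have h3 : (P.u + 2) * (v / 2 / (P.u + 2)) ≤ (P.u + 2) * m := Nat.mul_le_mul_left _ h
  have h4 : 2 * (P.u + 2) * (m + 1) = 2 * ((P.u + 2) * m + (P.u + 2)) := by ring
  rw [h4]
  omega

/-! ### Values -/

/-- The entries. -/
def en (N : NTM) (P : Prm) (code : α → ℕ) (w : List α) (j : ℕ) : ℕ :=
  entry N P (ncfg N P code w j)

theorem nval_X {v : ℕ} (hv : kind v = 0) :
    nval N P code w v = cont P (ncfg N P code w (tau P v * P.b)) (idn P v) := by
  unfold nval; rw [if_pos hv]

theorem nval_P {v : ℕ} (hv : kind v = 1) :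
    nval N P code w v =
      num P.E (idn P v * P.u + 1) (fun i => en N P code w (tau P v * P.b + i)) := by
  unfold nval; rw [if_neg (by omega)]; rfl

theorem en_lt (hP : P.OK N) (hcode : ∀ a, code a < N.nG) {j : ℕ}
    (hj : j ≤ (P.u + 2) * P.u ^ 2) : en N P code w j < P.E := by
  have hf := ncfg_fine (P := P) (w := w) hcode hj
  have h1 := hf.hi
  have h2 := hf.q
  have h3 := hP.Z_lt_E
  unfold en entry
  have h4 : ((ncfg N P code w j).pos + P.Z).toNat ≤ 2 * P.Z := by omega
  calc ((ncfg N P code w j).pos + P.Z).toNat * N.nQ + (ncfg N P code w j).q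
      < ((ncfg N P code w j).pos + P.Z).toNat * N.nQ + N.nQ := by omega
    _ = (((ncfg N P code w j).pos + P.Z).toNat + 1) * N.nQ := by ring
    _ ≤ (2 * P.Z + 1) * N.nQ := Nat.mul_le_mul_right _ (by omega)
    _ ≤ P.E := h3

theorem slab_le {t s : ℕ} (ht : t < P.u + 2) (hs : s ≤ P.u) {i : ℕ} (hi : i ≤ s * P.u) :
    t * P.b + i ≤ (P.u + 2) * P.u ^ 2 := by
  have h1 : s * P.u ≤ P.u * P.u := Nat.mul_le_mul_right _ hs
  have h2 : (t + 1) * P.b ≤ (P.u + 2) * P.b := Nat.mul_le_mul_right _ (by omega)
  have h3 : P.b = P.u ^ 2 := rfl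
  have h4 : P.u * P.u = P.u ^ 2 := by ring
  rw [Nat.add_mul] at h2
  rw [h3] at h2 ⊢
  omega

theorem nval_lt (hP : P.OK N) (hcode : ∀ a, code a < N.nG) {v : ℕ} (hv : Good P v) :
    nval N P code w v < 2 ^ P.W := by
  have hW : 2 ^ P.W = P.E ^ (P.u ^ 2 + 1) := by rw [hP.E_pow]; rfl
  rw [hW]
  rcases kind_cases v with hk | hk
  · rw [nval_X hk]
    have h1 := cont_lt hP (ncfg_inv (w := w) (P := P) hcode (tau P v * P.b)).tape (idn P v)
    refine lt_of_lt_of_le h1 (Nat.pow_le_pow_right hP.E_pos ?_)
    unfold Prm.b; omega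
  · rw [nval_P hk]
    have hs : idn P v ≤ P.u := by
      rcases hv with h | h
      · omega
      · exact h.2
    have h1 : num P.E (idn P v * P.u + 1) (fun i => en N P code w (tau P v * P.b + i)) <
        P.E ^ (idn P v * P.u + 1) := by
      apply num_lt
      intro i hi
      exact en_lt hP hcode (slab_le (tau_lt v) hs (by omega))
    refine lt_of_lt_of_le h1 (Nat.pow_le_pow_right hP.E_pos ?_)
    have : idn P v * P.u ≤ P.u * P.u := Nat.mul_le_mul_right _ hs
    have h4 : P.u * P.u = P.u ^ 2 := by ring
    omega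

/-! ### Leaves -/

theorem initSym_eq (c : ℕ) :
    initSym N P code w c = (N.init code w).tape ((c : ℤ) - (P.r + P.Z : ℕ)) := by
  unfold initSym symAt NTM.init
  simp only
  by_cases h : P.r + P.Z ≤ c
  · have e1 : ((c : ℤ) - (P.r + P.Z : ℕ)).toNat = c - (P.r + P.Z) := by omega
    by_cases h2 : c - (P.r + P.Z) < w.length
    · have h3 : w[c - (P.r + P.Z)]? = some (w[c - (P.r + P.Z)]) := List.getElem?_eq_getElem h2
      have e2 : ((c : ℤ) - ((P.r : ℤ) + (P.Z : ℤ))).toNat = c - (P.r + P.Z) := by omega
      rw [h3, dif_pos ⟨by omega, by omega⟩]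
      simp [h, e2]
    · have h3 : w[c - (P.r + P.Z)]? = none := List.getElem?_eq_none (by omega)
      rw [h3, dif_neg (by omega)]
      simp
  · rw [if_neg (by tauto), dif_neg (by omega)]

theorem initCont_eq (hP : P.OK N) (I : ℕ) :
    initCont N P code w I = cont P (N.init code w) I := by
  unfold initCont cont
  apply Finset.sum_congr rfl
  intro k hk
  rw [Finset.mem_range] at hk
  have hb : P.b = P.u ^ 2 := rfl
  rw [initSym_eq, hP.cpowE (by omega)]

/-! ### The recursion -/

theorem num_one (E : ℕ) (f : ℕ → ℕ) : num E 1 f = f 0 := by simp [num]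

/-- Every number is `num` of its digits up to a multiple. -/
theorem num_dig_mod (E x m : ℕ) : num E m (dig E x) = x % E ^ m := by
  induction m with
  | zero => simp [num, Nat.mod_one]
  | succ m ih =>
    have : num E (m + 1) (dig E x) = num E m (dig E x) + dig E x m * E ^ m := by
      simp [num, Finset.sum_range_succ]
    rw [this, ih, dig, pow_succ, Nat.mod_mul]
    ring

theorem dig_fullLog {a g s0 : ℕ} (hE : 0 < P.E) (hc : cpow P.B P.E s0 = P.E ^ s0) (i : ℕ) :
    dig P.E (fullLog P a g s0) i = if i < s0 then dig P.E a i else dig P.E g (i - s0) := by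
  unfold fullLog
  rw [hc]
  have hpos : 0 < P.E ^ s0 := Nat.pow_pos hE
  have hlt : a % P.E ^ s0 < P.E ^ s0 := Nat.mod_lt _ hpos
  split_ifs with h
  · obtain ⟨l, rfl⟩ := Nat.exists_eq_add_of_lt h
    unfold dig
    have e1 : P.E ^ (i + l + 1) = P.E ^ i * (P.E * P.E ^ l) := by rw [pow_add, pow_add]; ring
    have e2 : a % P.E ^ (i + l + 1) + g * P.E ^ (i + l + 1) =
        a % (P.E ^ i * (P.E * P.E ^ l)) + P.E ^ i * (P.E * (P.E ^ l * g)) := by
      rw [e1]; ring
    rw [e2, Nat.add_mul_div_left _ _ (Nat.pow_pos hE), Nat.add_mul_mod_self_left,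
      Nat.mod_mul_right_div_self, Nat.mod_mul_right_mod]
  · obtain ⟨l, rfl⟩ := Nat.exists_eq_add_of_le (not_lt.mp h)
    unfold dig
    rw [Nat.add_sub_cancel_left, pow_add, ← Nat.div_div_eq_div_mul]
    congr 2
    rw [Nat.add_mul_div_right _ _ hpos, Nat.div_eq_of_lt hlt, Nat.zero_add]

section recursion

variable (hP : P.OK N) (hcode : ∀ a, code a < N.nG)
include hP hcode

/-- The recursion at `nodeX`. -/
theorem recur_X {v : ℕ} (hk : kind v = 0) (ht : tau P v ≠ 0) (j : ℕ) (hj : j < P.W) :
    Cat.bit (nval N P code w v) j =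
      ∑ g ∈ range P.W, Cat.bit (replay N P (idn P v) (nval N P code w (nodeP P P.u (tau P v - 1)))
        P.b (nval N P code w (nodeX P (idn P v) (tau P v - 1)))) g * Cat.bit (cpow P.B 2 g) j := by
  have htl := tau_lt (P := P) v
  have hu := hP.u_pos
  have hb : P.b = P.u ^ 2 := rfl
  have hbu : P.u * P.u = P.b := by rw [hb]; ring
  have e1 : nval N P code w (nodeX P (idn P v) (tau P v - 1)) =
      cont P (ncfg N P code w ((tau P v - 1) * P.b)) (idn P v) := by
    rw [nval_X (kind_nodeX _ _), tau_nodeX (by omega), idn_nodeX (by omega)]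
  have e2 : replay N P (idn P v) (nval N P code w (nodeP P P.u (tau P v - 1)))
        P.b (nval N P code w (nodeX P (idn P v) (tau P v - 1))) = nval N P code w v := by
    rw [e1, replay_eq hP hcode (idn P v) _ ((tau P v - 1) * P.b) P.b]
    · rw [nval_X hk]
      congr 2
      obtain ⟨t, ht'⟩ := Nat.exists_eq_succ_of_ne_zero ht
      rw [ht']
      simp only [Nat.succ_eq_add_one, Nat.add_sub_cancel]
      ring
    · have h2 : (tau P v - 1 + 1) * P.b ≤ (P.u + 2) * P.b := Nat.mul_le_mul_right _ (by omega)
      rw [Nat.add_mul] at h2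
      rw [hb] at h2 ⊢
      omega
    · intro i hi
      rw [nval_P (kind_nodeP _ _), tau_nodeP (by omega), idn_nodeP (by omega), dig_num (by omega)]
      · rfl
      · intro i' hi'
        exact en_lt hP hcode (slab_le (by omega) le_rfl (by omega))
  rw [e2]
  have e3 : ∀ g ∈ range P.W, Cat.bit (nval N P code w v) g * Cat.bit (cpow P.B 2 g) j =
      if g = j then Cat.bit (nval N P code w v) j else 0 := by
    intro g hg
    rw [Finset.mem_range] at hg
    have hB : 2 ^ g ≤ P.B := by
      refine le_trans (Nat.pow_le_pow_right (by norm_num) hg.le) ?_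
      exact hP.B_ge (k := P.u ^ 2 + 1) (by omega)
    rw [cpow_eq hB, bit_two_pow]
    split_ifs with h
    · rw [h, Nat.mul_one]
    · rw [Nat.mul_zero]
  rw [Finset.sum_congr rfl e3, Finset.sum_ite_eq' (range P.W) j, if_pos (Finset.mem_range.mpr hj)]

/-- The recursion at `nodeP 0 tau`. -/
theorem recur_P0 {v : ℕ} (hk : kind v = 1) (h0 : idn P v = 0) (ht : tau P v ≠ 0) (j : ℕ) :
    Cat.bit (nval N P code w v) j =
      ∑ g ∈ range P.E, (if dig P.E (nval N P code w (nodeP P P.u (tau P v - 1))) P.b = g
        then 1 else 0) * Cat.bit g j := by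
  have htl := tau_lt (P := P) v
  have hb : P.b = P.u ^ 2 := rfl
  have hbu : P.u * P.u = P.b := by rw [hb]; ring
  have e1 : dig P.E (nval N P code w (nodeP P P.u (tau P v - 1))) P.b =
      nval N P code w v := by
    rw [nval_P (kind_nodeP _ _), tau_nodeP (by omega), idn_nodeP (by omega), dig_num (by omega),
      nval_P hk, h0, Nat.zero_mul, Nat.zero_add, num_one]
    · congr 1
      obtain ⟨t, ht'⟩ := Nat.exists_eq_succ_of_ne_zero ht
      rw [ht']
      simp only [Nat.succ_eq_add_one, Nat.add_sub_cancel]
      ring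
    · intro i' hi'
      exact en_lt hP hcode (slab_le (by omega) le_rfl (by omega))
  have e2 : nval N P code w v < P.E := by
    rw [nval_P hk, h0, Nat.zero_mul, Nat.zero_add, num_one]
    exact en_lt hP hcode (slab_le htl (Nat.zero_le _) (by omega))
  rw [e1]
  have e3 : ∀ g ∈ range P.E, (if nval N P code w v = g then 1 else 0) * Cat.bit g j =
      if nval N P code w v = g then Cat.bit (nval N P code w v) j else 0 := by
    intro g _
    split_ifs with h
    · rw [← h, Nat.one_mul]
    · rw [Nat.zero_mul]
  rw [Finset.sum_congr rfl e3, Finset.sum_ite_eq (range P.E), if_pos (Finset.mem_range.mpr e2)]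

/-- The recursion at `nodeP s tau`, `s ≠ 0`. -/
theorem recur_Ps {v : ℕ} (hk : kind v = 1) (h0 : idn P v ≠ 0) (hs : idn P v ≤ P.u) (j : ℕ) :
    Cat.bit (nval N P code w v) j =
      Cat.bit (nval N P code w (nodeP P (idn P v - 1) (tau P v))) j +
      ∑ g ∈ range (cpow P.B 2 (P.kap * (P.u + 1))),
        (∏ i ∈ range P.u,
          (if dig P.E (nval N P code w (nodeP P (idn P v - 1) (tau P v)))
              ((idn P v - 1) * P.u) = dig P.E g 0 ∧
            ve N P (replay N P (P.blkOf (dig P.E g i / N.nQ))
                (fullLog P (nval N P code w (nodeP P (idn P v - 1) (tau P v))) g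
                  ((idn P v - 1) * P.u))
                ((idn P v - 1) * P.u + i)
                (nval N P code w (nodeX P (P.blkOf (dig P.E g i / N.nQ)) (tau P v))))
              (dig P.E g i) = dig P.E g (i + 1) then 1 else 0)) *
        Cat.bit (g / P.E * cpow P.B P.E ((idn P v - 1) * P.u + 1)) j := by
  have htl := tau_lt (P := P) v
  have hu := hP.u_pos
  have hEp := hP.E_pos
  set s := idn P v with hsdef
  set t := tau P v with htdef
  set s0 := (s - 1) * P.u with hs0
  have hs0u : s0 + P.u = s * P.u := by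
    obtain ⟨s', hs'⟩ := Nat.exists_eq_succ_of_ne_zero h0
    rw [hs0, hs']; simp only [Nat.succ_eq_add_one, Nat.add_sub_cancel]; ring
  have hsu : s * P.u ≤ P.u ^ 2 := by
    have := Nat.mul_le_mul_right P.u hs
    have h4 : P.u * P.u = P.u ^ 2 := by ring
    omega
  set e : ℕ → ℕ := fun i => en N P code w (t * P.b + i) with hedef
  have he : ∀ i ≤ s * P.u, e i < P.E := fun i hi => en_lt hP hcode (slab_le htl hs hi)
  set A := nval N P code w (nodeP P (s - 1) t) with hA
  have hAeq : A = num P.E (s0 + 1) e := by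
    rw [hA, nval_P (kind_nodeP _ _), tau_nodeP htl, idn_nodeP htl]
  have hV : nval N P code w v = num P.E (s * P.u + 1) e := nval_P hk
  -- the correct guess
  set gs := num P.E (P.u + 1) (fun i => e (s0 + i)) with hgs
  have hgsdig : ∀ i ≤ P.u, dig P.E gs i = e (s0 + i) := by
    intro i hi
    rw [hgs, dig_num (by omega)]
    intro i' hi'
    exact he _ (by omega)
  have hgslt : gs < P.E ^ (P.u + 1) := num_lt (fun i hi => he _ (by omega))
  have hGe : cpow P.B 2 (P.kap * (P.u + 1)) = P.E ^ (P.u + 1) := by
    rw [hP.E_pow, Nat.mul_comm P.kap, cpow_eq]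
    apply hP.B_ge
    nlinarith
  have hcp : cpow P.B P.E (s0 + 1) = P.E ^ (s0 + 1) := hP.cpowE (by omega)
  have hcp0 : cpow P.B P.E s0 = P.E ^ s0 := hP.cpowE (by omega)
  -- decomposition of the value
  have hdec : nval N P code w v = A + P.E ^ (s0 + 1) * (gs / P.E) := by
    have h1 : s * P.u + 1 = (s0 + 1) + P.u := by omega
    rw [hV, h1, num_add, ← hAeq]
    congr 2
    have h2 : P.u + 1 = 1 + P.u := by omega
    rw [hgs, h2]
    have h3 := num_div (E := P.E) (k := 1) (m := P.u) (f := fun i => e (s0 + i))
      (fun i hi => he _ (by omega))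
    rw [pow_one] at h3
    rw [h3]
    apply num_congr
    intro i _
    congr 1
    omega
  have hAlt : A < P.E ^ (s0 + 1) := by
    rw [hAeq]
    exact num_lt (fun i hi => he _ (by omega))
  have hbit : Cat.bit (nval N P code w v) j =
      Cat.bit A j + Cat.bit (gs / P.E * P.E ^ (s0 + 1)) j := by
    rw [hdec]
    have h1 : P.E ^ (s0 + 1) = 2 ^ ((s0 + 1) * P.kap) := hP.E_pow _
    rw [Nat.mul_comm (gs / P.E), h1]
    apply bit_add
    rw [← h1]; exact hAlt
  rw [hbit]
  congr 1
  -- the checks
  have hdA : dig P.E A s0 = e s0 := by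
    rw [hAeq, dig_num (by omega) (fun i hi => he _ (by omega))]
  -- one check, provided that the guess is correct up to `i`
  have hchk : ∀ g i, i < P.u → (∀ i' ≤ i, dig P.E g i' = e (s0 + i')) →
      ve N P (replay N P (P.blkOf (dig P.E g i / N.nQ)) (fullLog P A g s0) (s0 + i)
        (nval N P code w (nodeX P (P.blkOf (dig P.E g i / N.nQ)) t))) (dig P.E g i) =
        e (s0 + i + 1) := by
    intro g i hi hg
    have hj : t * P.b + (s0 + i) < (P.u + 2) * P.u ^ 2 := by
      have h1 := slab_le (P := P) htl hs (i := s0 + i + 1) (by omega)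
      omega
    rw [nval_X (kind_nodeX _ _), tau_nodeX htl, idn_nodeX htl,
      replay_eq hP hcode _ _ (t * P.b) (s0 + i) hj.le]
    · have hgi := hg i le_rfl
      rw [hgi]
      have hf := ncfg_fine (P := P) (w := w) hcode hj.le
      have e1 : e (s0 + i) / N.nQ =
          ((ncfg N P code w (t * P.b + (s0 + i))).pos + P.Z).toNat := entry_div hf.q
      rw [e1]
      have h2 := ve_eq (w := w) hP hcode hj
      have e3 : e (s0 + i + 1) = entry N P (ncfg N P code w (t * P.b + (s0 + i) + 1)) := rfl
      rw [e3, ← h2]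
      rfl
    · intro i' hi'
      rw [dig_fullLog hEp hcp0]
      split_ifs with hlt
      · rw [hAeq, dig_num (by omega) (fun i hi => he _ (by omega))]
        rfl
      · rw [hg (i' - s0) (by omega)]
        have : s0 + (i' - s0) = i' := by omega
        rw [this]
        rfl
  -- the correct guess passes all checks
  have hgood : (∏ i ∈ range P.u, (if dig P.E A s0 = dig P.E gs 0 ∧
      ve N P (replay N P (P.blkOf (dig P.E gs i / N.nQ)) (fullLog P A gs s0) (s0 + i)
        (nval N P code w (nodeX P (P.blkOf (dig P.E gs i / N.nQ)) t)))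
        (dig P.E gs i) = dig P.E gs (i + 1) then 1 else 0)) = 1 := by
    apply Finset.prod_eq_one
    intro i hi
    rw [Finset.mem_range] at hi
    rw [if_pos]
    refine ⟨?_, ?_⟩
    · rw [hdA, hgsdig 0 (by omega)]; rfl
    · rw [hchk gs i hi (fun i' hi' => hgsdig i' (by omega)), hgsdig (i + 1) (by omega)]
      rfl
  -- a wrong guess fails one check
  have hbad : ∀ g < P.E ^ (P.u + 1), g ≠ gs → (∏ i ∈ range P.u, (if dig P.E A s0 = dig P.E g 0 ∧
      ve N P (replay N P (P.blkOf (dig P.E g i / N.nQ)) (fullLog P A g s0) (s0 + i)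
        (nval N P code w (nodeX P (P.blkOf (dig P.E g i / N.nQ)) t)))
        (dig P.E g i) = dig P.E g (i + 1) then 1 else 0)) = 0 := by
    intro g hg hne
    -- least wrong digit
    have hex : ∃ i, i ≤ P.u ∧ dig P.E g i ≠ e (s0 + i) := by
      by_contra hcon
      push Not at hcon
      apply hne
      apply eq_of_dig_eq hg hgslt
      intro k hk
      rw [hcon k (by omega), hgsdig k (by omega)]
    classical
    obtain ⟨hi1, hi2⟩ := Nat.find_spec hex
    have hmin : ∀ i' < Nat.find hex, dig P.E g i' = e (s0 + i') := by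
      intro i' hi'
      have := Nat.find_min hex hi'
      by_contra hcon
      exact this ⟨by omega, hcon⟩
    rcases Nat.eq_zero_or_pos (Nat.find hex) with hz | hpos
    · apply Finset.prod_eq_zero (i := 0) (Finset.mem_range.mpr (by omega))
      rw [if_neg]
      rintro ⟨h1, -⟩
      rw [hz] at hi2
      apply hi2
      rw [← h1, hdA]; rfl
    · obtain ⟨i, hi⟩ := Nat.exists_eq_succ_of_ne_zero hpos.ne'
      rw [hi, Nat.succ_eq_add_one] at hi1 hi2 hmin
      apply Finset.prod_eq_zero (i := i) (Finset.mem_range.mpr (by omega))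
      rw [if_neg]
      rintro ⟨-, h1⟩
      rw [hchk g i (by omega) (fun i' hi' => hmin i' (by omega))] at h1
      exact hi2 h1.symm
  rw [hGe, Finset.sum_eq_single gs]
  · rw [hgood, hcp, Nat.one_mul]
  · intro g hg hne
    rw [hbad g (Finset.mem_range.mp hg) hne, Nat.zero_mul]
  · intro h
    exact absurd (Finset.mem_range.mpr hgslt) h

end recursion

/-- Package E3: validity of the rules. -/
theorem valid_rules (N : NTM) (P : Prm) (hP : P.OK N) (code : α → ℕ) (hcode : ∀ a, code a < N.nG)
    (w : List α) (p : ℕ) (hp : p.Prime) (hdeg : P.u * (2 * P.W) + 2 < p) :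
    Cat.Valid (rules N P code w p) (Good P) (nval N P code w) (nS P) (nB P)
      (2 * (P.u + 2) * (P.E + P.b + P.u + 3)) (2 ^ (P.kap * (P.u + 1)) + P.W) P.u := by
  have hu := hP.u_pos
  have leaf_false : ∀ v, (rules N P code w p).leaf v = false →
      ¬ (tau P v = 0 ∧ (kind v = 0 ∨ idn P v = 0)) := by
    intro v hv
    simpa [rules] using hv
  refine ⟨hp, hdeg, ?_, ?_, ?_, ?_, ?_, ?_, ?_, ?_, ?_⟩
  · -- goodV
    intro v hv
    rcases hv with ⟨_, h⟩ | ⟨_, h⟩
    · have := node_bound (P := P) (v := v) (m := P.E + P.b) (by omega)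
      refine lt_of_lt_of_le this (Nat.mul_le_mul_left _ (by omega))
    · have := node_bound (P := P) (v := v) (m := P.u) h
      refine lt_of_lt_of_le this (Nat.mul_le_mul_left _ (by omega))
  · -- leaves
    intro v hv hl
    have hl' : tau P v = 0 ∧ (kind v = 0 ∨ idn P v = 0) := by simpa [rules] using hl
    obtain ⟨ht, hl2⟩ := hl'
    rcases kind_cases v with hk | hk
    · rw [nval_X hk, ht, Nat.zero_mul]
      have : (rules N P code w p).lval v = initCont N P code w (idn P v) := by
        simp [rules, hk]
      rw [this, initCont_eq hP]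
      rfl
    · have h0 : idn P v = 0 := by rcases hl2 with h | h <;> omega
      rw [nval_P hk, ht, h0, Nat.zero_mul, Nat.zero_mul, Nat.zero_add, num_one]
      have : (rules N P code w p).lval v = P.Z * N.nQ + N.q0 := by
        simp [rules, hk]
      rw [this]
      unfold en entry ncfg NTM.init
      simp
  · intro v hv
    exact nval_lt hP hcode hv
  · -- al
    intro v hv hl
    have hl' := leaf_false v hl
    have htl := tau_lt (P := P) v
    by_cases hc : kind v = 1 ∧ idn P v ≠ 0
    · have e : (rules N P code w p).al v = nodeP P (idn P v - 1) (tau P v) := by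
        simp only [rules]; rw [if_pos hc]
      have hs : idn P v ≤ P.u := by
        rcases hv with h | h
        · omega
        · exact h.2
      rw [e]
      refine ⟨Or.inr ⟨kind_nodeP _ _, ?_⟩, ?_, ?_⟩
      · rw [idn_nodeP htl]; omega
      · unfold nS
        rw [kind_nodeP, if_neg (by omega), if_neg (by omega), tau_nodeP htl, idn_nodeP htl]
        omega
      · unfold nB
        rw [kind_nodeP, if_neg (by omega), if_neg (by omega), tau_nodeP htl]
    · have e : (rules N P code w p).al v = nodeP P P.u (tau P v - 1) := by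
        simp only [rules]; rw [if_neg hc]
      have ht0 : tau P v ≠ 0 := by
        intro h0
        apply hl'
        refine ⟨h0, ?_⟩
        rcases kind_cases v with hk | hk
        · exact Or.inl hk
        · right
          by_contra h
          exact hc ⟨hk, h⟩
      rw [e]
      refine ⟨Or.inr ⟨kind_nodeP _ _, ?_⟩, ?_, ?_⟩
      · rw [idn_nodeP (by omega)]
      · have h1 : (tau P v - 1) * (P.u + 2) + P.u + 1 ≤ tau P v * (P.u + 2) := by
          have : tau P v * (P.u + 2) = (tau P v - 1) * (P.u + 2) + (P.u + 2) := by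
            obtain ⟨t, ht'⟩ := Nat.exists_eq_succ_of_ne_zero ht0
            rw [ht']; simp only [Nat.succ_eq_add_one, Nat.add_sub_cancel]; ring
          omega
        unfold nS
        rw [kind_nodeP, if_neg (by omega), tau_nodeP (by omega), idn_nodeP (by omega)]
        split_ifs <;> omega
      · unfold nB
        rw [kind_nodeP, if_neg (by omega), tau_nodeP (by omega)]
        split_ifs <;> omega
  · -- be
    intro v hv hl g hg i hi
    have hl' := leaf_false v hl
    have htl := tau_lt (P := P) v
    rcases kind_cases v with hk | hk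
    · have e : (rules N P code w p).be v g i = nodeX P (idn P v) (tau P v - 1) := by
        simp only [rules]; rw [if_pos hk]
      have ht0 : tau P v ≠ 0 := by
        intro h0
        exact hl' ⟨h0, Or.inl hk⟩
      have hid : idn P v < P.E + P.b + 1 := by
        rcases hv with h | h
        · exact h.2
        · omega
      rw [e]
      refine ⟨Or.inl ⟨kind_nodeX _ _, ?_⟩, ?_, ?_⟩
      · rw [idn_nodeX (by omega)]; exact hid
      · unfold nS
        rw [kind_nodeX, if_pos rfl, if_pos hk, tau_nodeX (by omega)]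
        exact Nat.mul_le_mul_right _ (by omega)
      · unfold nB
        rw [kind_nodeX, if_pos rfl, if_pos hk, tau_nodeX (by omega)]
        omega
    · by_cases h0 : idn P v = 0
      · have e : (rules N P code w p).be v g i = nodeX P 0 0 := by
          simp only [rules]
          rw [if_neg (by omega), if_neg (by omega)]
          unfold nodeX; simp
        rw [e]
        refine ⟨Or.inl ⟨kind_nodeX _ _, ?_⟩, ?_, ?_⟩
        · rw [idn_nodeX (by omega)]; omega
        · unfold nS
          rw [kind_nodeX, if_pos rfl, tau_nodeX (by omega)]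
          omega
        · unfold nB
          rw [kind_nodeX, if_pos rfl, tau_nodeX (by omega), if_neg (by omega)]
          omega
      · have e : (rules N P code w p).be v g i =
            nodeX P (P.blkOf (dig P.E g i / N.nQ)) (tau P v) := by
          simp only [rules]
          rw [if_neg (by omega), if_pos h0]
        rw [e]
        refine ⟨Or.inl ⟨kind_nodeX _ _, ?_⟩, ?_, ?_⟩
        · rw [idn_nodeX htl]
          have h1 : dig P.E g i < P.E := dig_lt hP.E_pos
          have h2 : dig P.E g i / N.nQ ≤ dig P.E g i := Nat.div_le_self _ _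
          have h3 := hP.r_lt_b
          unfold Prm.blkOf
          have h4 := Nat.div_le_self (dig P.E g i / N.nQ + P.r) P.b
          omega
        · unfold nS
          rw [kind_nodeX, if_pos rfl, if_neg (by omega), tau_nodeX htl]
          omega
        · unfold nB
          rw [kind_nodeX, if_pos rfl, if_neg (by omega), tau_nodeX htl]
  · -- G
    intro v hv
    simp only [rules]
    split_ifs with h1 h2
    · exact Nat.le_add_left _ _
    · exact (min_le_left _ _).trans (Nat.le_add_right _ _)
    · rw [hP.E_eq]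
      exact (Nat.pow_le_pow_right (by norm_num) (Nat.le_mul_of_pos_right _ (by omega))).trans
        (Nat.le_add_right _ _)
  · intro v hv
    simp only [rules]
    split_ifs <;> omega
  · intro v hv
    simp only [rules]
    split_ifs <;> omega
  · -- recursion
    intro v hv hl j hj
    have hl' := leaf_false v hl
    have hj' : j < P.W := hj
    rcases kind_cases v with hk | hk
    · have ht0 : tau P v ≠ 0 := by
        intro h0
        exact hl' ⟨h0, Or.inl hk⟩
      have := recur_X (w := w) hP hcode hk ht0 j hj'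
      rw [this]
      simp only [rules]
      simp [hk]
    · by_cases h0 : idn P v = 0
      · have ht0 : tau P v ≠ 0 := by
          intro h
          exact hl' ⟨h, Or.inr h0⟩
        have := recur_P0 (w := w) hP hcode hk h0 ht0 j
        rw [this]
        simp only [rules]
        simp [hk, h0]
      · have hs : idn P v ≤ P.u := by
          rcases hv with h | h
          · omega
          · exact h.2
        have := recur_Ps (w := w) hP hcode hk h0 hs j
        rw [this]
        simp only [rules]
        simp [hk, h0]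

/-- Package E3b: the root. -/
theorem root_value (N : NTM) (P : Prm) (_hP : P.OK N) (code : α → ℕ) (hcode : ∀ a, code a < N.nG)
    (w : List α) :
    Good P (nodeP P 0 (P.u + 1)) ∧
    nval N P code w (nodeP P 0 (P.u + 1)) = entry N P (ncfg N P code w ((P.u + 1) * P.u ^ 2)) ∧
    nval N P code w (nodeP P 0 (P.u + 1)) % N.nQ = (ncfg N P code w ((P.u + 1) * P.u ^ 2)).q ∧
    nS P (nodeP P 0 (P.u + 1)) = (P.u + 1) * (P.u + 2) ∧ nB P (nodeP P 0 (P.u + 1)) = P.u + 2 := by
  have e1 : nval N P code w (nodeP P 0 (P.u + 1)) =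
      entry N P (ncfg N P code w ((P.u + 1) * P.u ^ 2)) := by
    rw [nval_P (kind_nodeP _ _), tau_nodeP (by omega), idn_nodeP (by omega), Nat.zero_mul,
      Nat.zero_add, num_one]
    rfl
  refine ⟨Or.inr ⟨kind_nodeP _ _, ?_⟩, e1, ?_, ?_, ?_⟩
  · rw [idn_nodeP (by omega)]; omega
  · rw [e1]
    apply entry_mod
    exact (ncfg_inv (w := w) (P := P) hcode _).q
  · unfold nS
    rw [kind_nodeP, if_neg (by omega), tau_nodeP (by omega), idn_nodeP (by omega)]
    omega
  · unfold nB
    rw [kind_nodeP, if_neg (by omega), tau_nodeP (by omega)]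

end Vale.Agent.P312
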