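import Vale.Agent.P312.StepSim
import Vale.Agent.P312.CatRun
import Vale.Agent.P312.RulesValid

/-! # P312: orbits of the vector machine (package F5a) -/

namespace Vale.Agent.P312

open Finset

/-- `y` is reached from `x`; status `0` before, all components bounded by `Bd`. -/
def ReachB {m : ℕ} (f : (Fin (m + 1) → ℕ) → Fin (m + 1) → ℕ) (Bd : ℕ) (x y : Fin (m + 1) → ℕ) :
    Prop :=
  ∃ n, f^[n] x = y ∧ (∀ k < n, (f^[k] x) 0 = 0) ∧ ∀ k ≤ n, ∀ i, (f^[k] x) i ≤ Bd

theorem ReachB.refl {m : ℕ} {f : (Fin (m + 1) → ℕ) → Fin (m + 1) → ℕ} {Bd : ℕ}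
    {x : Fin (m + 1) → ℕ} (hx : ∀ i, x i ≤ Bd) : ReachB f Bd x x :=
  ⟨0, rfl, fun k hk => absurd hk (by omega), fun k hk i => by
    have : k = 0 := by omega
    subst this; exact hx i⟩

theorem ReachB.trans {m : ℕ} {f : (Fin (m + 1) → ℕ) → Fin (m + 1) → ℕ} {Bd : ℕ}
    {x y z : Fin (m + 1) → ℕ} (h1 : ReachB f Bd x y) (h2 : ReachB f Bd y z) : ReachB f Bd x z := by
  obtain ⟨n1, e1, s1, b1⟩ := h1
  obtain ⟨n2, e2, s2, b2⟩ := h2
  refine ⟨n2 + n1, ?_, ?_, ?_⟩
  · rw [Function.iterate_add_apply, e1, e2]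
  · intro k hk
    by_cases hk1 : k < n1
    · exact s1 k hk1
    · obtain ⟨k', rfl⟩ := Nat.exists_eq_add_of_le (not_lt.mp hk1)
      have e : f^[n1 + k'] x = f^[k'] y := by
        rw [Nat.add_comm n1 k', Function.iterate_add_apply, e1]
      rw [e]
      exact s2 k' (by omega)
  · intro k hk
    by_cases hk1 : k < n1
    · exact b1 k hk1.le
    · obtain ⟨k', rfl⟩ := Nat.exists_eq_add_of_le (not_lt.mp hk1)
      intro i
      have e : f^[n1 + k'] x = f^[k'] y := by
        rw [Nat.add_comm n1 k', Function.iterate_add_apply, e1]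
      rw [e]
      exact b2 k' (by omega) i

theorem ReachB.step {m : ℕ} {f : (Fin (m + 1) → ℕ) → Fin (m + 1) → ℕ} {Bd : ℕ}
    {x y : Fin (m + 1) → ℕ} (hx0 : x 0 = 0) (hx : ∀ i, x i ≤ Bd) (hy : f x = y)
    (hyb : ∀ i, y i ≤ Bd) : ReachB f Bd x y := by
  refine ⟨1, by simpa using hy, ?_, ?_⟩
  · intro k hk
    have : k = 0 := by omega
    subst this; exact hx0
  · intro k hk i
    rcases Nat.eq_zero_or_pos k with h | h
    · subst h; exact hx i
    · have : k = 1 := by omega
      subst this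
      simp only [Function.iterate_one]
      rw [hy]; exact hyb i

theorem ReachB.mono {m : ℕ} {f : (Fin (m + 1) → ℕ) → Fin (m + 1) → ℕ} {Bd Bd' : ℕ}
    {x y : Fin (m + 1) → ℕ} (h : ReachB f Bd x y) (hb : Bd ≤ Bd') : ReachB f Bd' x y := by
  obtain ⟨n, e, s, b⟩ := h
  exact ⟨n, e, s, fun k hk i => (b k hk i).trans hb⟩

/-- The state `pc = 9` (numeric) for `B`, `r`. -/
def nine (B r : ℕ) : Fin 13 → ℕ := ![0, B, r, 9, 0, 0, 0, 0, 0, 0, 0, 0, 0]

/-- The state `pc = 0` (numeric). -/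
def zeroSt (B r : ℕ) : Fin 13 → ℕ := ![0, B, r, 0, 0, 0, 0, 0, 0, 0, 0, 0, 0]

/-- The state after reading the result `h`. -/
def resSt (h B r : ℕ) : Fin 13 → ℕ := ![h, B, r, 9, 0, 0, 0, 0, 0, 0, 0, 0, 0]

/-- Requirements on the parameters for given `B`, `r`. -/
structure ParOK (N : NTM) (c0 D C B r : ℕ) : Prop where
  u_pos : 1 ≤ uOf D B
  r_lt : r < uOf D B ^ 2
  ok : (prm c0 D B r).OK N
  prime : (pOf c0 D B).Prime
  deg : uOf D B * (2 * (prm c0 D B r).W) + 2 < pOf c0 D B
  pB : pOf c0 D B ^ (3 * (prm c0 D B r).W) ≤ B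
  WB : 2 ^ (prm c0 D B r).W ≤ B
  bsV : 2 * (uOf D B + 2) * ((prm c0 D B r).E + (prm c0 D B r).b + uOf D B + 3) ≤ bsOf c0 D B
  bsp : pOf c0 D B ≤ bsOf c0 D B
  bsu : uOf D B < bsOf c0 D B
  bs10 : 10 ≤ bsOf c0 D B
  bgG : 2 ^ ((prm c0 D B r).kap * (uOf D B + 1)) + (prm c0 D B r).W < bgOf c0 D B
  stk : (bsOf c0 D B ^ 7) ^ ((uOf D B + 1) * (uOf D B + 2) + (uOf D B + 2)) *
      bgOf c0 D B ^ (uOf D B + 2) ≤ B ^ C
  small : bsOf c0 D B + bgOf c0 D B + uOf D B ^ 2 + 20 ≤ B ^ C

variable (N : NTM) (c0 D : ℕ) {α : Type} (code : α → ℕ) (w : List α)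

/-- The run for one offset. -/
theorem run_offset (hcode : ∀ a, code a < N.nG) (C B r : ℕ) (h : ParOK N c0 D C B r) :
    ReachB (stepM N c0 D code w) (B ^ C + B) (nine B r)
      (resSt (N.hal (ncfg N (prm c0 D B r) code w ((uOf D B + 1) * uOf D B ^ 2)).q) B (r + 1)) := by
  set P := prm c0 D B r with hPd
  set u := uOf D B with hu
  have hPu : P.u = u := rfl
  set bs := bsOf c0 D B with hbs
  set bg := bgOf c0 D B with hbg
  have hsm := h.small
  -- everything for the rules
  let R := rulesAt N c0 D code w B r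
  have hRp : R.p.Prime := h.prime
  have hval : Cat.Valid R (Good P) (nval N P code w) (nS P) (nB P)
      (2 * (P.u + 2) * (P.E + P.b + P.u + 3)) (2 ^ (P.kap * (P.u + 1)) + P.W) P.u :=
    valid_rules N P h.ok code hcode w (pOf c0 D B) h.prime h.deg
  obtain ⟨hg, hv1, hv2, hS, hBd⟩ := root_value N P h.ok code hcode w
  set V := 2 * (P.u + 2) * (P.E + P.b + P.u + 3) with hV
  set Gm := 2 ^ (P.kap * (P.u + 1)) + P.W with hGm
  have hbase : BaseOK R V Gm P.u bs bg := ⟨h.bsV, h.bsp, h.bsu, h.bs10, h.bgG⟩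
  let s0 : Cat.St R := ⟨0, nodeP P 0 (P.u + 1), 1, 0, 0, 0, 0, 0, [], fun _ _ => 0⟩
  set l := (u + 1) * (u + 2) + (u + 2) with hl
  have hroot : nodeP P 0 (P.u + 1) < V := hval.goodV _ hg
  have hs0 : s0.Bounded V Gm P.u l (u + 2) := by
    refine ⟨by norm_num, hroot, ?_, by norm_num, ?_, Nat.zero_le _, Nat.zero_le _, ?_, ?_, ?_, ?_⟩
    · exact hRp.one_lt
    · exact hRp.pos
    · exact hRp.pos
    · intro f hf; exact absurd hf (by simp [s0])
    · exact Nat.zero_le _
    · exact Nat.zero_le _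
  obtain ⟨M, hM1, hM2, hM3, hM4⟩ := Cat.run hval (nodeP P 0 (P.u + 1)) hg s0 rfl rfl l (u + 2) hs0
    (by
      change 0 + nS P (nodeP P 0 (P.u + 1)) + nB P (nodeP P 0 (P.u + 1)) ≤ l
      rw [hS, hBd, hPu]; omega)
    (by
      change 0 + nB P (nodeP P 0 (P.u + 1)) ≤ u + 2
      rw [hBd, hPu]; omega)
  -- first time the evaluator has returned
  classical
  have hex : ∃ k, ((Cat.step R)^[k] s0).pc = 7 ∧ ((Cat.step R)^[k] s0).stk = [] := ⟨M, hM1, hM2⟩
  set K := Nat.find hex with hK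
  obtain ⟨hK1, hK2⟩ := Nat.find_spec hex
  have hKM : K ≤ M := Nat.find_min' hex ⟨hM1, hM2⟩
  have hfix : ∀ s : Cat.St R, s.pc = 7 → s.stk = [] → Cat.step R s = s := by
    intro s h1 h2
    unfold Cat.step
    rw [h1]
    simp only [h2]
  have hKMeq : (Cat.step R)^[M] s0 = (Cat.step R)^[K] s0 := by
    obtain ⟨d, hd⟩ := Nat.exists_eq_add_of_le hKM
    rw [hd]
    clear hd
    induction d with
    | zero => rfl
    | succ d ih =>
      rw [← Nat.add_assoc, Function.iterate_succ_apply', ih]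
      exact hfix _ hK1 hK2
  -- simulation
  have hsim : ∀ k ≤ K, (stepM N c0 D code w)^[k] (encR R bs bg B r s0) =
      encR R bs bg B r ((Cat.step R)^[k] s0) := by
    intro k
    induction k with
    | zero => intro _; rfl
    | succ k ih =>
      intro hk
      rw [Function.iterate_succ_apply', ih (by omega), Function.iterate_succ_apply']
      have hne : ((Cat.step R)^[k] s0).pc ≠ 7 ∨ ((Cat.step R)^[k] s0).stk ≠ [] := by
        have := Nat.find_min hex (m := k) (by omega)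
        tauto
      exact stepR_encR N P R bs bg B r hRp V Gm P.u hbase h.pB h.WB
        ((Cat.step R)^[k] s0) l (u + 2) (hM4 k (by omega)) hne
  -- bounds
  have hBpos : 0 < B := lt_of_lt_of_le (by positivity) h.WB
  have hbound : ∀ s : Cat.St R, s.Bounded V Gm P.u l (u + 2) →
      ∀ i, encR R bs bg B r s i ≤ B ^ C + B := by
    intro s hs
    obtain ⟨b1, b2, b3, b4, b5, b6, b7, b8, b9, b10, b11⟩ := hs
    have hV' : V ≤ bs := h.bsV
    have hp' : R.p ≤ bs := h.bsp
    have hu' : u < bs := h.bsu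
    have hG' : Gm < bg := h.bgG
    have hstk : encStk bs bg s.stk ≤ B ^ C := by
      have e1 := encStk_lt hbase s.stk b9
      have e2 : (bs ^ 7) ^ s.stk.length * bg ^ Cat.numBig s.stk ≤ (bs ^ 7) ^ l * bg ^ (u + 2) := by
        apply Nat.mul_le_mul
        · exact Nat.pow_le_pow_right (Nat.pow_pos (by omega)) b10
        · exact Nat.pow_le_pow_right (by omega) b11
      exact (e1.le.trans e2).trans h.stk
    have hmem : encMem R s.mem ≤ B := (encMem_lt R hRp s.mem).le.trans h.pB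
    intro i
    have hr := h.r_lt
    fin_cases i
    · change 0 ≤ _; omega
    · change B ≤ _; omega
    · change r ≤ _; omega
    · change s.pc + 1 ≤ _; omega
    · change s.v ≤ _; omega
    · change s.c ≤ _; omega
    · change s.t ≤ _; omega
    · change s.lam ≤ _; omega
    · change s.g ≤ _; omega
    · change s.i ≤ _; omega
    · change s.acc ≤ _; omega
    · change encStk bs bg s.stk ≤ _; omega
    · change encMem R s.mem ≤ _; omega
  -- first step
  have hstart : stepM N c0 D code w (nine B r) = encR R bs bg B r s0 := by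
    rw [stepM_eq_stepR]
    have e1 : (nine B r) 1 = B := rfl
    have e2 : (nine B r) 2 = r := rfl
    have e0 : (nine B r) 0 = 0 := rfl
    have e3 : (nine B r) 3 = 9 := rfl
    rw [e1, e2]
    unfold stepR
    simp only [e0, e1, e2, e3]
    rw [if_neg (by decide), if_neg (by decide), if_pos trivial, if_pos ⟨h.u_pos, h.r_lt⟩]
    have e4 : encR R bs bg B r s0 = ![0, B, r, 0 + 1, nodeP P 0 (P.u + 1), 1, 0, 0, 0, 0, 0,
        encStk bs bg [], encMem R (fun _ _ => 0)] := rfl
    rw [e4, encMem_zero R hRp]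
    rfl
  have hnineb : ∀ r' ≤ r + 1, ∀ h' ≤ 2, ∀ i, resSt h' B r' i ≤ B ^ C + B := by
    intro r' hr' h' hh' i
    have hr := h.r_lt
    have hu1 := h.u_pos
    have : u ^ 2 = uOf D B ^ 2 := rfl
    fin_cases i
    · change h' ≤ _; omega
    · change B ≤ _; omega
    · change r' ≤ _; omega
    · change 9 ≤ _; omega
    all_goals (change 0 ≤ _; omega)
  refine ReachB.trans (y := encR R bs bg B r s0) (ReachB.step rfl (hnineb r (by omega) 0 (by omega))
    hstart (hbound s0 hs0)) ?_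
  refine ReachB.trans (y := encR R bs bg B r ((Cat.step R)^[K] s0)) ?_ ?_
  · refine ⟨K, hsim K le_rfl, ?_, ?_⟩
    · intro k hk
      rw [hsim k hk.le]
      rfl
    · intro k hk i
      rw [hsim k hk]
      exact hbound _ (hM4 k (by omega)) i
  · refine ReachB.step rfl (hbound _ (hM4 K hKM)) ?_ (hnineb (r + 1) le_rfl _ (N.hal_le _))
    -- reading the result
    rw [← hKMeq]
    rw [← hKMeq] at hK1 hK2
    set sf := (Cat.step R)^[M] s0 with hsf
    rw [stepM_eq_stepR]
    have e1 : (encR R bs bg B r sf) 1 = B := rfl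
    have e2 : (encR R bs bg B r sf) 2 = r := rfl
    have e0 : (encR R bs bg B r sf) 0 = 0 := rfl
    have e3 : (encR R bs bg B r sf) 3 = sf.pc + 1 := rfl
    have e11 : (encR R bs bg B r sf) 11 = encStk bs bg sf.stk := rfl
    have e12 : (encR R bs bg B r sf) 12 = encMem R sf.mem := rfl
    rw [hK1] at e3
    rw [hM2] at e11
    rw [hM3] at e12
    rw [e1, e2]
    unfold stepR
    simp only [e0, e1, e2, e3, e11, e12]
    rw [if_neg (by decide), if_neg (by decide), if_neg (by decide), if_neg (by decide),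
      if_neg (by decide), if_neg (by decide), if_neg (by decide), if_neg (by decide),
      if_neg (by decide), if_neg (by decide), if_pos (by decide)]
    have e5 : encStk bs bg s0.stk = 0 := rfl
    rw [if_pos e5]
    have hread := read_encMem R hRp B (nval N P code w (nodeP P 0 (P.u + 1)))
      (hval.valLt _ hg) h.WB
    have e6 : Cat.addBits R s0.mem (Cat.blk s0.t) (s0.c : ZMod R.p)
        (nval N P code w (nodeP P 0 (P.u + 1))) =
        Cat.addBits R (fun _ _ => 0) (Cat.blk 0) 1 (nval N P code w (nodeP P 0 (P.u + 1))) := by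
      change Cat.addBits R (fun _ _ => 0) (Cat.blk 0) ((1 : ℕ) : ZMod R.p) _ = _
      rw [Nat.cast_one]
    have e7 : ∑ j ∈ range R.W, dig R.p (encMem R (Cat.addBits R s0.mem (Cat.blk s0.t)
        (s0.c : ZMod R.p) (nval N P code w (nodeP P 0 (P.u + 1))))) j * cpow B 2 j =
        nval N P code w (nodeP P 0 (P.u + 1)) := by
      rw [e6]; exact hread
    have e8 : (∑ j ∈ range (rulesAt N c0 D code w B r).W,
        dig (rulesAt N c0 D code w B r).p (encMem R (Cat.addBits R s0.mem (Cat.blk s0.t)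
        (s0.c : ZMod R.p) (nval N P code w (nodeP P 0 (P.u + 1))))) j * cpow B 2 j) % N.nQ =
        (ncfg N P code w ((P.u + 1) * P.u ^ 2)).q := by
      have : (∑ j ∈ range (rulesAt N c0 D code w B r).W,
        dig (rulesAt N c0 D code w B r).p (encMem R (Cat.addBits R s0.mem (Cat.blk s0.t)
        (s0.c : ZMod R.p) (nval N P code w (nodeP P 0 (P.u + 1))))) j * cpow B 2 j) =
        nval N P code w (nodeP P 0 (P.u + 1)) := e7
      rw [this, hv2]
    rw [e8]
    rfl

end Vale.Agent.P312
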