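import Vale.Agent.P312.Orbit
import Vale.Agent.P312.Coding
import Vale.Agent.P312.Halting

/-! # P312: the outer loop (package F5b) -/

namespace Vale.Agent.P312

open Finset

variable (N : NTM) (c0 D : ℕ) {α : Type} (code : α → ℕ) (w : List α)

theorem step_zeroSt (B r : ℕ) : stepM N c0 D code w (zeroSt B r) = nine (B + 1) 0 := by
  rw [stepM_eq_stepR]
  have e1 : (zeroSt B r) 1 = B := rfl
  have e2 : (zeroSt B r) 2 = r := rfl
  have e0 : (zeroSt B r) 0 = 0 := rfl
  have e3 : (zeroSt B r) 3 = 0 := rfl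
  rw [e1, e2]
  unfold stepR
  simp only [e0, e1, e2, e3]
  rw [if_neg (by decide), if_pos trivial]
  rfl

theorem step_nine_end (B r : ℕ) (h : ¬ (1 ≤ uOf D B ∧ r < uOf D B ^ 2)) :
    stepM N c0 D code w (nine B r) = zeroSt B r := by
  rw [stepM_eq_stepR]
  have e1 : (nine B r) 1 = B := rfl
  have e2 : (nine B r) 2 = r := rfl
  have e0 : (nine B r) 0 = 0 := rfl
  have e3 : (nine B r) 3 = 9 := rfl
  rw [e1, e2]
  unfold stepR
  simp only [e0, e1, e2, e3]
  have h' : ¬ (1 ≤ (prm c0 D B r).u ∧ r < (prm c0 D B r).u ^ 2) := h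
  rw [if_neg (by decide), if_neg (by decide), if_pos trivial, if_neg h']
  rfl

/-- A result state: the evaluator has returned a halting state of the machine. -/
def IsFinal (y : Fin 13 → ℕ) : Prop :=
  y 0 ≠ 0 ∧ ∃ k, y 0 = N.hal (N.step^[k] (N.init code w)).q

theorem nine_le {B r b : ℕ} (h1 : B ≤ b) (h2 : r ≤ b) (h3 : 9 ≤ b) : ∀ i, nine B r i ≤ b := by
  intro i
  fin_cases i
  · change 0 ≤ _; omega
  · change B ≤ _; omega
  · change r ≤ _; omega
  · change 9 ≤ _; omega
  all_goals (change 0 ≤ _; omega)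

theorem zeroSt_le {B r b : ℕ} (h1 : B ≤ b) (h2 : r ≤ b) : ∀ i, zeroSt B r i ≤ b := by
  intro i
  fin_cases i
  · change 0 ≤ _; omega
  · change B ≤ _; omega
  · change r ≤ _; omega
  all_goals (change 0 ≤ _; omega)

theorem nine_eq_resSt (B r : ℕ) : resSt 0 B r = nine B r := rfl

/-- All offsets for one `B`. -/
theorem run_offsets (hcode : ∀ a, code a < N.nG) (C B : ℕ)
    (h : ∀ r < uOf D B ^ 2, ParOK N c0 D C B r) (hb : 20 ≤ B ^ C + B) (r : ℕ)
    (hr : r ≤ uOf D B ^ 2) :
    (∃ y, ReachB (stepM N c0 D code w) (B ^ C + B) (nine B 0) y ∧ IsFinal N code w y) ∨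
    ((∀ r' < r, N.hal (ncfg N (prm c0 D B r') code w ((uOf D B + 1) * uOf D B ^ 2)).q = 0) ∧
      ReachB (stepM N c0 D code w) (B ^ C + B) (nine B 0) (nine B r)) := by
  induction r with
  | zero =>
    right
    refine ⟨fun r' hr' => absurd hr' (by omega), ReachB.refl (nine_le (by omega) (by omega) (by omega))⟩
  | succ r ih =>
    rcases ih (by omega) with h1 | ⟨h1, h2⟩
    · exact Or.inl h1
    · have h3 := run_offset N c0 D code w hcode C B r (h r (by omega))
      by_cases h0 : N.hal (ncfg N (prm c0 D B r) code w ((uOf D B + 1) * uOf D B ^ 2)).q = 0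
      · right
        refine ⟨?_, ?_⟩
        · intro r' hr'
          rcases Nat.lt_succ_iff_lt_or_eq.mp hr' with h4 | h4
          · exact h1 r' h4
          · rw [h4]; exact h0
        · rw [h0, nine_eq_resSt] at h3
          exact h2.trans h3
      · left
        refine ⟨_, h2.trans h3, h0, ?_⟩
        obtain ⟨k, hk⟩ := ncfg_reach N (prm c0 D B r) code w ((uOf D B + 1) * uOf D B ^ 2)
        exact ⟨k, by rw [← hk]; rfl⟩

/-- The run up to the target `B`. -/
theorem run_outer (hcode : ∀ a, code a < N.nG) (C : ℕ)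
    (h : ∀ B r, 1 ≤ uOf D B → r < uOf D B ^ 2 → ParOK N c0 D C B r) (Bt : ℕ)
    (hBt : 20 ≤ Bt ^ C + Bt) (hu : 1 ≤ uOf D Bt) (rt : ℕ) (hrt : rt < uOf D Bt ^ 2)
    (hhalt : N.hal (ncfg N (prm c0 D Bt rt) code w ((uOf D Bt + 1) * uOf D Bt ^ 2)).q ≠ 0) :
    ∃ y, ReachB (stepM N c0 D code w) (Bt ^ C + Bt) (fun _ => 0) y ∧ IsFinal N code w y := by
  have hz : (fun _ => 0 : Fin 13 → ℕ) = zeroSt 0 0 := by
    funext i
    fin_cases i <;> rfl
  have hBpos : ∀ B, 1 ≤ uOf D B → 0 < B := by
    intro B hB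
    by_contra h0
    have : B = 0 := by omega
    subst this
    unfold uOf at hB
    simp at hB
  have key : ∀ m, m + 1 ≤ Bt →
      (∃ y, ReachB (stepM N c0 D code w) (Bt ^ C + Bt) (fun _ => 0) y ∧ IsFinal N code w y) ∨
      ReachB (stepM N c0 D code w) (Bt ^ C + Bt) (fun _ => 0) (nine (m + 1) 0) := by
    intro m
    induction m with
    | zero =>
      intro hm
      right
      rw [hz]
      exact ReachB.step rfl (zeroSt_le (by omega) (by omega)) (step_zeroSt N c0 D code w 0 0)
        (nine_le (by omega) (by omega) (by omega))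
    | succ m ih =>
      intro hm
      rcases ih (by omega) with h1 | h1
      · exact Or.inl h1
      · have hmono : (m + 1) ^ C + (m + 1) ≤ Bt ^ C + Bt :=
          Nat.add_le_add (Nat.pow_le_pow_left (by omega) _) (by omega)
        by_cases hum : 1 ≤ uOf D (m + 1)
        · have hu1 : 0 < uOf D (m + 1) ^ 2 := by positivity
          have hP0 := (h (m + 1) 0 hum hu1).small
          rcases run_offsets N c0 D code w hcode C (m + 1) (fun r hr => h (m + 1) r hum hr)
            (by omega) (uOf D (m + 1) ^ 2) le_rfl with ⟨y, hy1, hy2⟩ | ⟨-, h2⟩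
          · exact Or.inl ⟨y, h1.trans (hy1.mono hmono), hy2⟩
          · right
            refine (h1.trans (h2.mono hmono)).trans ?_
            refine ReachB.trans (y := zeroSt (m + 1) (uOf D (m + 1) ^ 2)) ?_ ?_
            · exact ReachB.step rfl (nine_le (by omega) (by omega) (by omega))
                (step_nine_end N c0 D code w _ _ (by omega)) (zeroSt_le (by omega) (by omega))
            · exact ReachB.step rfl (zeroSt_le (by omega) (by omega))
                (step_zeroSt N c0 D code w _ _) (nine_le (by omega) (by omega) (by omega))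
        · right
          refine h1.trans ?_
          refine ReachB.trans (y := zeroSt (m + 1) 0) ?_ ?_
          · exact ReachB.step rfl (nine_le (by omega) (by omega) (by omega))
              (step_nine_end N c0 D code w _ _ (by tauto)) (zeroSt_le (by omega) (by omega))
          · exact ReachB.step rfl (zeroSt_le (by omega) (by omega))
              (step_zeroSt N c0 D code w _ _) (nine_le (by omega) (by omega) (by omega))
  have hBt0 := hBpos Bt hu
  obtain ⟨m, hm⟩ := Nat.exists_eq_succ_of_ne_zero hBt0.ne'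
  rcases key m (by omega) with h1 | h1
  · exact h1
  · have hm' : m + 1 = Bt := hm.symm
    rw [hm'] at h1
    rcases run_offsets N c0 D code w hcode C Bt (fun r hr => h Bt r hu hr) hBt
      (uOf D Bt ^ 2) le_rfl with ⟨y, hy1, hy2⟩ | ⟨h2, -⟩
    · exact ⟨y, h1.trans hy1, hy2⟩
    · exact absurd (h2 rt hrt) hhalt

end Vale.Agent.P312
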