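import Vale.Agent.P312.SimVisit

/-! # P312: visits and logs (part of package E3) -/

namespace Vale.Agent.P312

open Finset

variable {N : NTM} {P : Prm} {α : Type} {code : α → ℕ} {w : List α}

/-- Invariant: coded state and symbols in range, position at most `m` in absolute value. -/
structure NCfg.Inv (N : NTM) (m : ℕ) (c : NCfg) : Prop where
  q : c.q < N.nQ
  tape : ∀ i, c.tape i < N.nG
  pos : |c.pos| ≤ m

theorem NCfg.Inv.step {c : NCfg} {m : ℕ} (h : c.Inv N m) : (N.step c).Inv N (m + 1) := by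
  have h3 := step_pos_abs (N := N) c
  refine ⟨?_, ?_, ?_⟩
  · unfold NTM.step
    split_ifs
    · exact h.q
    · exact N.tq_lt _ _
  · intro i
    unfold NTM.step
    split_ifs
    · exact h.tape i
    · simp only
      by_cases hi : i = c.pos
      · subst hi; rw [Function.update_self]; exact N.ts_lt _ _
      · rw [Function.update_of_ne hi]; exact h.tape i
  · have h4 := h.pos
    rw [abs_le] at h3 h4 ⊢
    push_cast
    constructor <;> linarith [h3.1, h3.2, h4.1, h4.2]

theorem NCfg.Inv.mono {c : NCfg} {m m' : ℕ} (h : c.Inv N m) (hm : m ≤ m') : c.Inv N m' :=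
  ⟨h.q, h.tape, h.pos.trans (by exact_mod_cast hm)⟩

theorem NCfg.Inv.gstep {c : NCfg} {m : ℕ} (h : c.Inv N m) (I : ℕ) :
    (gstep N P I c).Inv N (m + 1) := by
  unfold Vale.Agent.P312.gstep
  split_ifs
  · exact h.step
  · exact h.mono (by omega)

theorem NCfg.Inv.giter {c : NCfg} {m : ℕ} (h : c.Inv N m) (I : ℕ) (k : ℕ) :
    ((Vale.Agent.P312.gstep N P I)^[k] c).Inv N (m + k) := by
  induction k with
  | zero => simpa using h
  | succ k ih =>
    rw [Function.iterate_succ_apply']
    have := ih.gstep (P := P) I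
    rwa [add_assoc] at this

theorem vstep_eq (c : NCfg) : vstep N P c = (gstep N P (nblk P c))^[P.T] c := rfl

theorem NCfg.Inv.vstep {c : NCfg} {m : ℕ} (h : c.Inv N m) :
    (Vale.Agent.P312.vstep N P c).Inv N (m + P.T) := by
  rw [vstep_eq]
  exact h.giter _ _

theorem init_inv (hcode : ∀ a, code a < N.nG) : (N.init code w).Inv N 0 := by
  refine ⟨N.q0_lt, ?_, by simp [NTM.init]⟩
  intro i
  unfold NTM.init
  simp only
  split_ifs
  · exact hcode _
  · exact N.bl_lt

theorem ncfg_succ (j : ℕ) : ncfg N P code w (j + 1) = vstep N P (ncfg N P code w j) := by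
  unfold ncfg
  rw [Function.iterate_succ_apply']

theorem ncfg_inv (hcode : ∀ a, code a < N.nG) (j : ℕ) :
    (ncfg N P code w j).Inv N (j * P.T) := by
  induction j with
  | zero =>
    rw [Nat.zero_mul]
    exact init_inv (w := w) hcode
  | succ j ih =>
    rw [ncfg_succ]
    have := ih.vstep (P := P)
    rwa [← Nat.succ_mul] at this

theorem Z_bound (P : Prm) {j : ℕ} (hj : j ≤ (P.u + 2) * P.u ^ 2) : j * P.T + 1 ≤ P.Z := by
  have h1 : j * P.T ≤ (P.u + 2) * P.u ^ 2 * P.T := Nat.mul_le_mul_right _ hj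
  have h2 : (P.u + 2) * P.u ^ 2 * P.T = (P.u + 2) * P.u ^ 7 := by unfold Prm.T; ring
  have h3 : P.u ^ 7 < (P.u + 2) ^ 7 := Nat.pow_lt_pow_left (by omega) (by norm_num)
  have h4 : P.Z = (P.u + 2) * (P.u + 2) ^ 7 := by unfold Prm.Z; ring
  have h5 : (P.u + 2) * P.u ^ 7 < (P.u + 2) * (P.u + 2) ^ 7 :=
    Nat.mul_lt_mul_of_pos_left h3 (by omega)
  omega

theorem NCfg.Inv.fine {c : NCfg} {m : ℕ} (h : c.Inv N m) (hm : m + 1 ≤ P.Z) : c.Fine N P := by
  have h1 := h.pos
  rw [abs_le] at h1
  refine ⟨h.q, h.tape, ?_, ?_⟩ <;> omega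

theorem ncfg_fine (hcode : ∀ a, code a < N.nG) {j : ℕ} (hj : j ≤ (P.u + 2) * P.u ^ 2) :
    (ncfg N P code w j).Fine N P :=
  (ncfg_inv hcode j).fine (Z_bound P hj)

theorem giter_fine (hcode : ∀ a, code a < N.nG) {j : ℕ} (hj : j < (P.u + 2) * P.u ^ 2) (I k : ℕ)
    (hk : k ≤ P.T) : ((gstep N P I)^[k] (ncfg N P code w j)).Fine N P := by
  have h1 := (ncfg_inv (w := w) (P := P) hcode j).giter (P := P) I k
  apply h1.fine
  have h2 := Z_bound P (j := j + 1) hj
  rw [Nat.succ_mul] at h2
  omega

theorem entry_div {c : NCfg} (hc : c.q < N.nQ) : entry N P c / N.nQ = (c.pos + P.Z).toNat := by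
  unfold entry
  rw [Nat.add_comm, Nat.add_mul_div_right _ _ (Prm.OK.nQ_pos N), Nat.div_eq_of_lt hc,
    Nat.zero_add]

theorem entry_mod {c : NCfg} (hc : c.q < N.nQ) : entry N P c % N.nQ = c.q := by
  unfold entry
  rw [Nat.add_comm, Nat.add_mul_mod_self_right, Nat.mod_eq_of_lt hc]

/-- The numeric visit. -/
theorem visit_eq (hP : P.OK N) (hcode : ∀ a, code a < N.nG) {j : ℕ}
    (hj : j < (P.u + 2) * P.u ^ 2) :
    visit N P (cont P (ncfg N P code w j) (nblk P (ncfg N P code w j)))
        (entry N P (ncfg N P code w j)) =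
      rep P (ncfg N P code w (j + 1)) (nblk P (ncfg N P code w j)) := by
  have hf := ncfg_fine (P := P) (w := w) hcode hj.le
  unfold visit
  rw [entry_div hf.q, entry_mod hf.q, ncfg_succ, vstep_eq]
  exact iterC_rep hP (nblk P (ncfg N P code w j)) P.T (fun k hk => giter_fine hcode hj _ k hk)

theorem ve_eq (hP : P.OK N) (hcode : ∀ a, code a < N.nG) {j : ℕ}
    (hj : j < (P.u + 2) * P.u ^ 2) :
    ve N P (cont P (ncfg N P code w j) (nblk P (ncfg N P code w j)))
        (entry N P (ncfg N P code w j)) = entry N P (ncfg N P code w (j + 1)) := by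
  unfold ve
  rw [visit_eq hP hcode hj]
  rfl

theorem vx_eq (hP : P.OK N) (hcode : ∀ a, code a < N.nG) {j : ℕ}
    (hj : j < (P.u + 2) * P.u ^ 2) :
    vx N P (cont P (ncfg N P code w j) (nblk P (ncfg N P code w j)))
        (entry N P (ncfg N P code w j)) =
      cont P (ncfg N P code w (j + 1)) (nblk P (ncfg N P code w j)) := by
  unfold vx
  rw [visit_eq hP hcode hj]
  rfl

/-- Other blocks are unchanged during a visit. -/
theorem cont_vstep_ne (hP : P.OK N) (hcode : ∀ a, code a < N.nG) {j : ℕ}
    (hj : j < (P.u + 2) * P.u ^ 2) {I : ℕ} (hI : nblk P (ncfg N P code w j) ≠ I) :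
    cont P (ncfg N P code w (j + 1)) I = cont P (ncfg N P code w j) I := by
  rw [ncfg_succ, vstep_eq]
  have key : ∀ k ≤ P.T, cont P ((gstep N P (nblk P (ncfg N P code w j)))^[k]
      (ncfg N P code w j)) I = cont P (ncfg N P code w j) I := by
    intro k
    induction k with
    | zero => intro _; rfl
    | succ k ih =>
      intro hk
      rw [Function.iterate_succ_apply', ← ih (by omega)]
      have hf := giter_fine (P := P) (w := w) hcode hj (nblk P (ncfg N P code w j)) k (by omega)
      unfold gstep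
      split_ifs with hg
      · apply cont_step_ne hP hf
        have : nblk P ((gstep N P (nblk P (ncfg N P code w j)))^[k] (ncfg N P code w j)) =
            nblk P (ncfg N P code w j) := hg.2
        rw [this]
        exact hI
      · rfl
  exact key P.T le_rfl

/-- Replaying a correct log. -/
theorem replay_eq (hP : P.OK N) (hcode : ∀ a, code a < N.nG) (I lg j₀ len : ℕ)
    (hlen : j₀ + len ≤ (P.u + 2) * P.u ^ 2)
    (hlg : ∀ i < len, dig P.E lg i = entry N P (ncfg N P code w (j₀ + i))) :
    replay N P I lg len (cont P (ncfg N P code w j₀) I) =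
      cont P (ncfg N P code w (j₀ + len)) I := by
  have hB1 : (P.u + 2) * P.u ^ 2 ≤ P.B := by
    have h1 := hP.B_big
    have h2 : 1 ≤ 2 ^ ((P.u ^ 2 + 2) * P.kap) := Nat.one_le_two_pow
    have h3 : (P.u + 2) * P.u ^ 2 ≤ (P.u + 2) ^ 10 := by
      calc (P.u + 2) * P.u ^ 2 ≤ (P.u + 2) * (P.u + 2) ^ 2 :=
            Nat.mul_le_mul_left _ (Nat.pow_le_pow_left (by omega) _)
        _ = (P.u + 2) ^ 3 := by ring
        _ ≤ (P.u + 2) ^ 10 := Nat.pow_le_pow_right (by omega) (by norm_num)
    calc (P.u + 2) * P.u ^ 2 ≤ 1 * (P.u + 2) ^ 10 := by omega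
      _ ≤ 2 ^ ((P.u ^ 2 + 2) * P.kap) * (P.u + 2) ^ 10 := Nat.mul_le_mul_right _ h2
      _ ≤ P.B := h1
  have hcB : ∀ j, cont P (ncfg N P code w j) I ≤ P.B := by
    intro j
    have h1 := cont_lt hP (ncfg_inv (w := w) (P := P) hcode j).tape I
    have h2 := hP.E_pow_le (k := P.b) (by unfold Prm.b; omega)
    omega
  have key : ∀ k ≤ len, iterC P.B k (fun st => ![if P.blkOf (dig P.E lg (st 1) / N.nQ) = I then
      vx N P (st 0) (dig P.E lg (st 1)) else st 0, st 1 + 1])
      ![cont P (ncfg N P code w j₀) I, 0] = ![cont P (ncfg N P code w (j₀ + k)) I, k] := by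
    intro k
    induction k with
    | zero =>
      intro _
      unfold iterC
      funext i
      fin_cases i
      · exact min_eq_left (hcB j₀)
      · exact min_eq_left (Nat.zero_le _)
    | succ k ih =>
      intro hk
      have ih' := ih (by omega)
      unfold iterC at ih' ⊢
      rw [Function.iterate_succ_apply', ih']
      have hd := hlg k (by omega)
      have hjk : j₀ + k < (P.u + 2) * P.u ^ 2 := by omega
      have hf := ncfg_fine (P := P) (w := w) hcode hjk.le
      funext i
      fin_cases i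
      · change min (if P.blkOf (dig P.E lg k / N.nQ) = I then
          vx N P (cont P (ncfg N P code w (j₀ + k)) I) (dig P.E lg k)
          else cont P (ncfg N P code w (j₀ + k)) I) P.B =
            cont P (ncfg N P code w (j₀ + (k + 1))) I
        rw [hd, entry_div hf.q]
        have e1 : P.blkOf ((ncfg N P code w (j₀ + k)).pos + P.Z).toNat =
          nblk P (ncfg N P code w (j₀ + k)) := rfl
        rw [e1]
        split_ifs with hI
        · subst hI
          rw [vx_eq hP hcode hjk]
          exact min_eq_left (by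
            have h1 := cont_lt hP (ncfg_inv (w := w) (P := P) hcode (j₀ + k + 1)).tape
              (nblk P (ncfg N P code w (j₀ + k)))
            have h2 := hP.E_pow_le (k := P.b) (by unfold Prm.b; omega)
            omega)
        · rw [← add_assoc, cont_vstep_ne hP hcode hjk hI]
          exact min_eq_left (hcB _)
      · change min (k + 1) P.B = k + 1
        exact min_eq_left (by omega)
  unfold replay
  rw [key len le_rfl]
  rfl

end Vale.Agent.P312
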