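import Vale.Agent.P312.Digits

/-! # P312: the numeric visit simulation is correct (part of package E3) -/

namespace Vale.Agent.P312

open Finset

variable {N : NTM} {P : Prm}

namespace Prm.OK

theorem nQ_pos (N : NTM) : 0 < N.nQ := lt_of_le_of_lt (Nat.zero_le _) N.q0_lt

theorem B_ge (hP : P.OK N) {k : ℕ} (hk : k ≤ P.u ^ 2 + 2) : 2 ^ (k * P.kap) ≤ P.B := by
  have h1 : 2 ^ (k * P.kap) ≤ 2 ^ ((P.u ^ 2 + 2) * P.kap) :=
    Nat.pow_le_pow_right (by norm_num) (Nat.mul_le_mul_right _ hk)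
  have h2 : 1 ≤ (P.u + 2) ^ 10 := Nat.one_le_pow _ _ (by omega)
  have := hP.B_big
  nlinarith [Nat.zero_le (2 ^ ((P.u ^ 2 + 2) * P.kap))]

theorem E_eq (hP : P.OK N) : P.E = 2 ^ P.kap := by
  unfold Prm.E
  apply cpow_eq
  have := hP.B_ge (k := 1) (by omega)
  simpa using this

theorem E_pow (hP : P.OK N) (k : ℕ) : P.E ^ k = 2 ^ (k * P.kap) := by
  rw [hP.E_eq, ← pow_mul, Nat.mul_comm]

theorem cpowE (hP : P.OK N) {k : ℕ} (hk : k ≤ P.u ^ 2 + 2) : cpow P.B P.E k = P.E ^ k := by
  apply cpow_eq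
  rw [hP.E_pow]
  exact hP.B_ge hk

theorem E_pow_le (hP : P.OK N) {k : ℕ} (hk : k ≤ P.u ^ 2 + 2) : P.E ^ k ≤ P.B := by
  rw [hP.E_pow]
  exact hP.B_ge hk

theorem Z_lt_E (hP : P.OK N) : (2 * P.Z + 1) * N.nQ ≤ P.E := by
  rw [hP.E_eq]; exact hP.kap_E

theorem E_pos (hP : P.OK N) : 0 < P.E := by
  rw [hP.E_eq]; positivity

theorem nG_le (hP : P.OK N) : N.nG ≤ P.E := by
  rw [hP.E_eq]; exact hP.kap_G

theorem b_pos (hP : P.OK N) : 0 < P.b := by
  have := hP.u_pos
  unfold Prm.b; positivity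

theorem r_lt_b (hP : P.OK N) : P.r < P.b := hP.r_lt

end Prm.OK

/-- Configurations on which the numeric simulation is faithful. -/
structure NCfg.Fine (N : NTM) (P : Prm) (c : NCfg) : Prop where
  q : c.q < N.nQ
  tape : ∀ i, c.tape i < N.nG
  lo : 1 ≤ c.pos + P.Z
  hi : c.pos + P.Z ≤ 2 * P.Z - 1

/-- Numeric representation relative to block `I`. -/
def rep (P : Prm) (c : NCfg) (I : ℕ) : Fin 3 → ℕ := ![cont P c I, (c.pos + P.Z).toNat, c.q]

theorem cont_eq_num (c : NCfg) (I : ℕ) :
    cont P c I = num P.E P.b (fun k => c.tape ((I * P.b + k : ℕ) - (P.r + P.Z : ℕ))) := rfl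

theorem cont_lt (hP : P.OK N) {c : NCfg} (hc : ∀ i, c.tape i < N.nG) (I : ℕ) :
    cont P c I < P.E ^ P.b := by
  rw [cont_eq_num]
  apply num_lt
  intro i _
  exact lt_of_lt_of_le (hc _) hP.nG_le

/-- The cell index of the head. -/
theorem head_cell (hP : P.OK N) {c : NCfg} (hc : 0 ≤ c.pos + P.Z) :
    ((nblk P c * P.b + P.idx (c.pos + P.Z).toNat : ℕ) : ℤ) - (P.r + P.Z : ℕ) = c.pos := by
  have hb := hP.b_pos
  have h := Nat.div_add_mod ((c.pos + P.Z).toNat + P.r) P.b
  unfold nblk Prm.blkOf Prm.idx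
  have h2 : ((c.pos + P.Z).toNat + P.r) / P.b * P.b + ((c.pos + P.Z).toNat + P.r) % P.b =
      (c.pos + P.Z).toNat + P.r := by rw [Nat.mul_comm]; exact h
  rw [h2]
  push_cast
  rw [Int.toNat_of_nonneg hc]
  ring

/-- Cells of different blocks are different. -/
theorem cell_ne {I J k l : ℕ} (hk : k < P.b) (hl : l < P.b) (h : I ≠ J ∨ k ≠ l) :
    ((I * P.b + k : ℕ) : ℤ) - (P.r + P.Z : ℕ) ≠ ((J * P.b + l : ℕ) : ℤ) - (P.r + P.Z : ℕ) := by
  intro heq
  have h1 : I * P.b + k = J * P.b + l := by omega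
  have hb : 0 < P.b := by omega
  have h2 : I = J := by
    have : (I * P.b + k) / P.b = (J * P.b + l) / P.b := by rw [h1]
    rw [Nat.mul_comm I, Nat.mul_comm J, Nat.mul_add_div hb, Nat.mul_add_div hb,
      Nat.div_eq_of_lt hk, Nat.div_eq_of_lt hl] at this
    simpa using this
  subst h2
  rcases h with h | h
  · exact h rfl
  · exact h (by omega)

theorem dig_cont (hP : P.OK N) {c : NCfg} (hc : ∀ i, c.tape i < N.nG) (I : ℕ) {k : ℕ}
    (hk : k < P.b) : dig P.E (cont P c I) k = c.tape ((I * P.b + k : ℕ) - (P.r + P.Z : ℕ)) := by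
  rw [cont_eq_num, dig_num hk]
  intro i _
  exact lt_of_lt_of_le (hc _) hP.nG_le

theorem idx_lt (hP : P.OK N) (pp : ℕ) : P.idx pp < P.b := Nat.mod_lt _ hP.b_pos

/-- Reading the scanned symbol. -/
theorem dig_head (hP : P.OK N) {c : NCfg} (hc : c.Fine N P) :
    dig P.E (cont P c (nblk P c)) (P.idx (c.pos + P.Z).toNat) = c.tape c.pos := by
  have h := hc.lo
  rw [dig_cont hP hc.tape _ (idx_lt hP _), head_cell hP (by omega)]

/-- The guarded step. -/
def gstep (N : NTM) (P : Prm) (I : ℕ) (c : NCfg) : NCfg :=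
  if N.hal c.q = 0 ∧ nblk P c = I then N.step c else c

theorem step_eq {c : NCfg} (h : N.hal c.q = 0) : N.step c =
    { q := N.tq c.q (c.tape c.pos)
      pos := c.pos + (N.tm c.q (c.tape c.pos) : ℤ) - 1
      tape := Function.update c.tape c.pos (N.ts c.q (c.tape c.pos)) } := by
  unfold NTM.step
  rw [if_neg (by simp [h])]

theorem step_pos_abs (c : NCfg) : |(N.step c).pos - c.pos| ≤ 1 := by
  unfold NTM.step
  split_ifs with h
  · simp
  · simp only
    have := N.tm_le c.q (c.tape c.pos)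
    rw [abs_le]
    constructor <;> omega

/-- Contents after a step: blocks other than the current one are unchanged. -/
theorem cont_step_ne (hP : P.OK N) {c : NCfg} (hc : c.Fine N P) {I : ℕ} (hI : nblk P c ≠ I) :
    cont P (N.step c) I = cont P c I := by
  by_cases h : N.hal c.q = 0
  · rw [cont_eq_num, cont_eq_num, step_eq h]
    apply num_congr
    intro k hk
    simp only
    rw [Function.update_of_ne]
    have h2 := head_cell hP (c := c) (by have := hc.lo; omega)
    rw [← h2]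
    exact cell_ne hk (idx_lt hP _) (Or.inl (Ne.symm hI))
  · unfold NTM.step
    rw [if_pos h]

/-- Contents of the current block after a step. -/
theorem cont_step_self (hP : P.OK N) {c : NCfg} (hc : c.Fine N P) (h : N.hal c.q = 0) :
    cont P (N.step c) (nblk P c) =
      P.setDig (cont P c (nblk P c)) (P.idx (c.pos + P.Z).toNat) (N.ts c.q (c.tape c.pos)) := by
  have hk := idx_lt hP (c.pos + P.Z).toNat
  have hb : P.b ≤ P.u ^ 2 := le_of_eq rfl
  have h2 := head_cell hP (c := c) (by have := hc.lo; omega)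
  unfold Prm.setDig
  rw [dig_head hP hc, hP.cpowE (by omega)]
  have e1 : cont P (N.step c) (nblk P c) = num P.E P.b (Function.update
      (fun k => c.tape ((nblk P c * P.b + k : ℕ) - (P.r + P.Z : ℕ)))
      (P.idx (c.pos + P.Z).toNat) (N.ts c.q (c.tape c.pos))) := by
    rw [cont_eq_num, step_eq h]
    apply num_congr
    intro k hk'
    simp only
    by_cases hkk : k = P.idx (c.pos + P.Z).toNat
    · subst hkk
      rw [Function.update_self, h2, Function.update_self]
    · rw [Function.update_of_ne hkk, Function.update_of_ne]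
      intro heq
      rw [← h2] at heq
      exact cell_ne hk' hk (Or.inr hkk) heq
  rw [e1, num_update hk, h2, ← cont_eq_num]

/-- The numeric step simulates the guarded step. -/
theorem lstep_rep (hP : P.OK N) {c : NCfg} (hc : c.Fine N P) (I : ℕ) :
    lstep N P I (rep P c I) = rep P (gstep N P I c) I := by
  have hlo := hc.lo
  have e0 : P.blkOf ((c.pos + P.Z).toNat) = nblk P c := rfl
  unfold gstep
  by_cases hg : N.hal c.q = 0 ∧ nblk P c = I
  · obtain ⟨hh, rfl⟩ := hg
    rw [if_pos ⟨hh, rfl⟩]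
    have hd := dig_head hP hc
    have hcs := cont_step_self hP hc hh
    have hst := step_eq (N := N) hh
    funext i
    unfold lstep
    have r0 : rep P c (nblk P c) 0 = cont P c (nblk P c) := rfl
    have r1 : rep P c (nblk P c) 1 = (c.pos + P.Z).toNat := rfl
    have r2 : rep P c (nblk P c) 2 = c.q := rfl
    rw [r0, r1, r2, if_pos ⟨hh, e0⟩, hd, ← hcs]
    have : (c.pos + P.Z).toNat + N.tm c.q (c.tape c.pos) - 1 = ((N.step c).pos + P.Z).toNat := by
      rw [hst]; simp only; omega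
    rw [this]
    have hq : N.tq c.q (c.tape c.pos) = (N.step c).q := by rw [hst]
    rw [hq]
    rfl
  · rw [if_neg hg]
    funext i
    unfold lstep
    have r1 : rep P c I 1 = (c.pos + P.Z).toNat := rfl
    have r2 : rep P c I 2 = c.q := rfl
    rw [r1, r2, if_neg]
    intro h
    exact hg ⟨h.1, h.2⟩

theorem Fine.rep_le (hP : P.OK N) {c : NCfg} (hc : c.Fine N P) (I : ℕ) (i : Fin 3) :
    rep P c I i ≤ P.B := by
  have hE1 := hP.E_pow_le (k := 1) (by omega)
  rw [pow_one] at hE1
  have hZE := hP.Z_lt_E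
  have hnQ := Prm.OK.nQ_pos N
  fin_cases i
  · change cont P c I ≤ P.B
    have h1 := cont_lt hP hc.tape I
    have h2 := hP.E_pow_le (k := P.b) (by unfold Prm.b; omega)
    omega
  · change (c.pos + P.Z).toNat ≤ P.B
    have := hc.hi
    have h3 : (2 * P.Z + 1) * 1 ≤ (2 * P.Z + 1) * N.nQ := Nat.mul_le_mul_left _ hnQ
    omega
  · change c.q ≤ P.B
    have h3 : 1 * N.nQ ≤ (2 * P.Z + 1) * N.nQ := Nat.mul_le_mul_right _ (by omega)
    have := hc.q
    omega

/-- The clamped iteration simulates the guarded iteration, as long as configurations are fine. -/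
theorem iterC_rep (hP : P.OK N) {c : NCfg} (I : ℕ) (T : ℕ)
    (hc : ∀ k ≤ T, ((gstep N P I)^[k] c).Fine N P) :
    iterC P.B T (lstep N P I) (rep P c I) = rep P ((gstep N P I)^[T] c) I := by
  unfold iterC
  have h0 : (fun i => min (rep P c I i) P.B) = rep P c I := by
    funext i
    exact min_eq_left (Fine.rep_le hP (hc 0 (Nat.zero_le _)) I i)
  rw [h0]
  induction T with
  | zero => rfl
  | succ T ih =>
    rw [Function.iterate_succ_apply', ih (fun k hk => hc k (by omega)), lstep_rep hP (hc T (by omega)),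
      ← Function.iterate_succ_apply' (gstep N P I)]
    funext i
    exact min_eq_left (Fine.rep_le hP (hc (T + 1) le_rfl) I i)

end Vale.Agent.P312
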