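import Vale.Agent.P312.Mach
import Vale.Agent.P312.Digits

/-! # P312: stack numbers (package F2) -/

namespace Vale.Agent.P312

open Finset

variable (R : Cat.Rules) (V Gm n bs bg : ℕ)

/-- The base `bs` exceeds all small fields, `bg` exceeds all guesses. -/
structure BaseOK : Prop where
  v : V ≤ bs
  p : R.p ≤ bs
  n : n < bs
  ten : 10 ≤ bs
  g : Gm < bg

variable {R V Gm n bs bg}

theorem frameN_eq_num (ret v c t lam i acc : ℕ) :
    frameN bs ret v c t lam i acc = num bs 7 (fun k => ![ret, v, c, t, lam, i, acc] (Fin.ofNat 7 k)) := by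
  unfold frameN num
  simp only [Finset.sum_range_succ, Finset.sum_range_zero]
  have h0 : (![ret, v, c, t, lam, i, acc] : Fin 7 → ℕ) (Fin.ofNat 7 0) = ret := rfl
  have h1 : (![ret, v, c, t, lam, i, acc] : Fin 7 → ℕ) (Fin.ofNat 7 1) = v := rfl
  have h2 : (![ret, v, c, t, lam, i, acc] : Fin 7 → ℕ) (Fin.ofNat 7 2) = c := rfl
  have h3 : (![ret, v, c, t, lam, i, acc] : Fin 7 → ℕ) (Fin.ofNat 7 3) = t := rfl
  have h4 : (![ret, v, c, t, lam, i, acc] : Fin 7 → ℕ) (Fin.ofNat 7 4) = lam := rfl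
  have h5 : (![ret, v, c, t, lam, i, acc] : Fin 7 → ℕ) (Fin.ofNat 7 5) = i := rfl
  have h6 : (![ret, v, c, t, lam, i, acc] : Fin 7 → ℕ) (Fin.ofNat 7 6) = acc := rfl
  rw [h0, h1, h2, h3, h4, h5, h6]
  ring

theorem frame_lt (h : BaseOK R V Gm n bs bg) (f : Cat.Frame) (hf : f.Bounded R V Gm n) (k : ℕ)
    (hk : k < 7) :
    (![f.ret, f.v, f.c, f.t, f.lam, f.i, f.acc] : Fin 7 → ℕ) (Fin.ofNat 7 k) < bs := by
  obtain ⟨h1, h2, h3, h4, h5, h6, h7, h8, h9, h10⟩ := hf
  have := h.v
  have := h.p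
  have := h.n
  have := h.ten
  interval_cases k
  · change f.ret < bs; omega
  · change f.v < bs; omega
  · change f.c < bs; omega
  · change f.t < bs; omega
  · change f.lam < bs; omega
  · change f.i < bs; omega
  · change f.acc < bs; omega

theorem frameN_lt (h : BaseOK R V Gm n bs bg) (f : Cat.Frame) (hf : f.Bounded R V Gm n) :
    frameN bs f.ret f.v f.c f.t f.lam f.i f.acc < bs ^ 7 := by
  rw [frameN_eq_num]
  exact num_lt (fun k hk => frame_lt h f hf k hk)

theorem frameN_pos (f : Cat.Frame) (hf : f.Bounded R V Gm n) :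
    0 < frameN bs f.ret f.v f.c f.t f.lam f.i f.acc := by
  unfold frameN
  have := hf.2.1
  omega

theorem encStk_cons_eq (f : Cat.Frame) (l : List Cat.Frame) :
    ∃ x, encStk bs bg (f :: l) = x * bs ^ 7 + frameN bs f.ret f.v f.c f.t f.lam f.i f.acc ∧
      (f.isBig = true → x = encStk bs bg l * bg + f.g) ∧
      (f.isBig = false → x = encStk bs bg l) := by
  by_cases hb : f.isBig = true
  · refine ⟨encStk bs bg l * bg + f.g, ?_, fun _ => rfl, fun h => ?_⟩
    · rw [encStk, if_pos hb]; rfl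
    · rw [hb] at h; exact absurd h (by simp)
  · refine ⟨encStk bs bg l, ?_, fun h => absurd h hb, fun _ => rfl⟩
    rw [encStk, if_neg hb]; rfl

theorem encStk_eq_zero_iff (l : List Cat.Frame)
    (hl : ∀ f ∈ l, f.Bounded R V Gm n) : encStk bs bg l = 0 ↔ l = [] := by
  constructor
  · intro h0
    cases l with
    | nil => rfl
    | cons f l =>
      exfalso
      obtain ⟨x, hx, -, -⟩ := encStk_cons_eq (bs := bs) (bg := bg) f l
      have := frameN_pos (bs := bs) f (hl f (by simp))
      omega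
  · rintro rfl; rfl

theorem fld_frame (h : BaseOK R V Gm n bs bg) (f : Cat.Frame) (hf : f.Bounded R V Gm n) (x k : ℕ)
    (hk : k < 7) :
    fld bs (x * bs ^ 7 + frameN bs f.ret f.v f.c f.t f.lam f.i f.acc) k =
      (![f.ret, f.v, f.c, f.t, f.lam, f.i, f.acc] : Fin 7 → ℕ) (Fin.ofNat 7 k) := by
  unfold fld
  rw [Nat.add_comm, Nat.add_mul_mod_self_right, Nat.mod_eq_of_lt (frameN_lt h f hf),
    frameN_eq_num, dig_num hk (fun k hk => frame_lt h f hf k hk)]

/-- Fields of the top frame and rest of the stack. -/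
theorem encStk_cons (h : BaseOK R V Gm n bs bg) (f : Cat.Frame) (l : List Cat.Frame)
    (hf : f.Bounded R V Gm n) :
    fld bs (encStk bs bg (f :: l)) 0 = f.ret ∧ fld bs (encStk bs bg (f :: l)) 1 = f.v ∧
    fld bs (encStk bs bg (f :: l)) 2 = f.c ∧ fld bs (encStk bs bg (f :: l)) 3 = f.t ∧
    fld bs (encStk bs bg (f :: l)) 4 = f.lam ∧ fld bs (encStk bs bg (f :: l)) 5 = f.i ∧
    fld bs (encStk bs bg (f :: l)) 6 = f.acc ∧
    (f.isBig = true → encStk bs bg (f :: l) / bs ^ 7 % bg = f.g ∧
      encStk bs bg (f :: l) / bs ^ 7 / bg = encStk bs bg l) ∧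
    (f.isBig = false → encStk bs bg (f :: l) / bs ^ 7 = encStk bs bg l) := by
  obtain ⟨x, hx, hbig, hsmall⟩ := encStk_cons_eq (bs := bs) (bg := bg) f l
  have hlt := frameN_lt h f hf
  have hbs : 0 < bs := by have := h.ten; omega
  have hdiv : (x * bs ^ 7 + frameN bs f.ret f.v f.c f.t f.lam f.i f.acc) / bs ^ 7 = x := by
    rw [Nat.add_comm, Nat.add_mul_div_right _ _ (Nat.pow_pos hbs), Nat.div_eq_of_lt hlt,
      Nat.zero_add]
  have hg : f.g < bg := lt_of_le_of_lt hf.2.2.2.2.2.2.1 h.g
  rw [hx]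
  refine ⟨fld_frame h f hf x 0 (by norm_num), fld_frame h f hf x 1 (by norm_num),
    fld_frame h f hf x 2 (by norm_num), fld_frame h f hf x 3 (by norm_num),
    fld_frame h f hf x 4 (by norm_num), fld_frame h f hf x 5 (by norm_num),
    fld_frame h f hf x 6 (by norm_num), ?_, ?_⟩
  · intro hb
    rw [hdiv, hbig hb]
    constructor
    · rw [Nat.add_comm, Nat.add_mul_mod_self_right, Nat.mod_eq_of_lt hg]
    · rw [Nat.add_comm, Nat.add_mul_div_right _ _ (by omega), Nat.div_eq_of_lt hg, Nat.zero_add]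
  · intro hb
    rw [hdiv, hsmall hb]

theorem encStk_lt (h : BaseOK R V Gm n bs bg) (l : List Cat.Frame)
    (hl : ∀ f ∈ l, f.Bounded R V Gm n) :
    encStk bs bg l < (bs ^ 7) ^ l.length * bg ^ (Cat.numBig l) := by
  induction l with
  | nil => simp [encStk, Cat.numBig]
  | cons f l ih =>
    have ih' := ih (fun f' hf' => hl f' (by simp [hf']))
    have hf := hl f (by simp)
    obtain ⟨x, hx, hbig, hsmall⟩ := encStk_cons_eq (bs := bs) (bg := bg) f l
    have hlt := frameN_lt h f hf
    have hg : f.g < bg := lt_of_le_of_lt hf.2.2.2.2.2.2.1 h.g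
    rw [hx]
    have key : ∀ m, x < m → x * bs ^ 7 + frameN bs f.ret f.v f.c f.t f.lam f.i f.acc <
        bs ^ 7 * m := by
      intro m hm
      calc x * bs ^ 7 + frameN bs f.ret f.v f.c f.t f.lam f.i f.acc
          < x * bs ^ 7 + bs ^ 7 := by omega
        _ = (x + 1) * bs ^ 7 := by ring
        _ ≤ m * bs ^ 7 := Nat.mul_le_mul_right _ hm
        _ = bs ^ 7 * m := by ring
    by_cases hb : f.isBig = true
    · have e1 : Cat.numBig (f :: l) = Cat.numBig l + 1 := by
        unfold Cat.numBig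
        rw [List.countP_cons_of_pos hb]
      rw [e1, List.length_cons, pow_succ, pow_succ]
      have h2 : x < (bs ^ 7) ^ l.length * bg ^ Cat.numBig l * bg := by
        rw [hbig hb]
        calc encStk bs bg l * bg + f.g < encStk bs bg l * bg + bg := by omega
          _ = (encStk bs bg l + 1) * bg := by ring
          _ ≤ ((bs ^ 7) ^ l.length * bg ^ Cat.numBig l) * bg := Nat.mul_le_mul_right _ ih'
      have := key _ h2
      calc _ < _ := this
        _ = _ := by ring
    · have hb' : f.isBig = false := by simpa using hb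
      have e1 : Cat.numBig (f :: l) = Cat.numBig l := by
        unfold Cat.numBig
        rw [List.countP_cons_of_neg hb]
      rw [e1, List.length_cons, pow_succ]
      have h2 : x < (bs ^ 7) ^ l.length * bg ^ Cat.numBig l := by
        rw [hsmall hb']; exact ih'
      have := key _ h2
      calc _ < _ := this
        _ = _ := by ring

end Vale.Agent.P312
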