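import Vale.Agent.P312.MemNum
import Vale.Agent.P312.StkNum

/-! # P312: the vector machine simulates the evaluator (package F3) -/

namespace Vale.Agent.P312

open Finset

/-- The transition function with explicit parameters. -/
noncomputable def stepR (N : NTM) (P : Prm) (R : Cat.Rules) (bs bg : ℕ) (x : Fin 13 → ℕ) :
    Fin 13 → ℕ :=
  let B := x 1
  let r := x 2
  let v := x 4
  let c := x 5
  let t := x 6
  let lam := x 7
  let g := x 8
  let i := x 9
  let acc := x 10
  let stk := x 11
  let mm := x 12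
  if x 0 ≠ 0 then x
  else if x 3 = 0 then ![0, B + 1, 0, 9, 0, 0, 0, 0, 0, 0, 0, 0, 0]
  else if x 3 = 9 then
    (if 1 ≤ P.u ∧ r < P.u ^ 2 then
      ![0, B, r, 1, nodeP P 0 (P.u + 1), 1, 0, 0, 0, 0, 0, 0, 0]
    else ![0, B, r, 0, 0, 0, 0, 0, 0, 0, 0, 0, 0])
  else if x 3 = 1 then
    (if R.leaf v = true then
      ![0, B, r, 8, v, c, t, lam, g, i, acc, stk, addN B R.p R.W mm t c (R.lval v)]
    else ![0, B, r, 1, R.al v, Cat.inv R.p 1, (t + 1) % 3, 0, 0, 0, 0,
      pushS bs stk (frameN bs 1 v c t 1 0 0), mm])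
  else if x 3 = 2 then
    ![0, B, r, 3, v, c, t, lam, 0, i, acc, stk, copyN B R.p R.W mm t c (R.cp v) lam]
  else if x 3 = 3 then
    (if g < R.G v then ![0, B, r, 4, v, c, t, lam, g, 0, Cat.neg R.p c, stk, mm]
    else ![0, B, r, 1, R.al v, Cat.neg R.p (Cat.inv R.p lam), (t + 1) % 3, 0, 0, 0, 0,
      pushS bs stk (frameN bs 5 v c t lam 0 0), mm])
  else if x 3 = 4 then
    (if i < R.n v then ![0, B, r, 1, R.be v g i, Cat.inv R.p lam, (t + 2) % 3, 0, 0, 0, 0,
      pushB bs bg stk g (frameN bs 4 v c t lam i acc), mm]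
    else ![0, B, r, 3, v, c, t, lam, g + 1, i, acc, stk, addN B R.p R.W mm t acc (R.out v g)])
  else if x 3 = 5 then
    ![0, B, r, 1, R.be v g i, Cat.neg R.p (Cat.inv R.p lam), (t + 2) % 3, 0, 0, 0, 0,
      pushB bs bg stk g (frameN bs 6 v c t lam i
        (acc * chN B R.p R.W mm t lam (fun a x => R.chi v g i a x) % R.p)), mm]
  else if x 3 = 6 then
    (if lam + 1 < R.p then ![0, B, r, 1, R.al v, Cat.inv R.p (lam + 1), (t + 1) % 3, 0, 0, 0, 0,
      pushS bs stk (frameN bs 1 v c t (lam + 1) 0 0), mm]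
    else ![0, B, r, 8, v, c, t, lam, g, i, acc, stk, mm])
  else if x 3 = 7 then ![0, B, r, 4, v, c, t, lam, g, i + 1, acc, stk, mm]
  else if x 3 = 8 then
    (if stk = 0 then
      ![N.hal ((∑ j ∈ range R.W, dig R.p mm j * cpow B 2 j) % N.nQ), B, r + 1, 9,
        0, 0, 0, 0, 0, 0, 0, 0, 0]
    else if fld bs stk 0 = 4 ∨ fld bs stk 0 = 6 then
      ![0, B, r, fld bs stk 0 + 1, fld bs stk 1, fld bs stk 2, fld bs stk 3, fld bs stk 4,
        stk / bs ^ 7 % bg, fld bs stk 5, fld bs stk 6, stk / bs ^ 7 / bg, mm]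
    else
      ![0, B, r, fld bs stk 0 + 1, fld bs stk 1, fld bs stk 2, fld bs stk 3, fld bs stk 4,
        0, fld bs stk 5, fld bs stk 6, stk / bs ^ 7, mm])
  else x

theorem stepM_eq_stepR (N : NTM) (c0 D : ℕ) {α : Type} (code : α → ℕ) (w : List α)
    (x : Fin 13 → ℕ) :
    stepM N c0 D code w x = stepR N (prm c0 D (x 1) (x 2)) (rulesAt N c0 D code w (x 1) (x 2))
      (bsOf c0 D (x 1)) (bgOf c0 D (x 1)) x := rfl

/-- Encoding with explicit parameters. -/
noncomputable def encR (R : Cat.Rules) (bs bg B r : ℕ) (s : Cat.St R) : Fin 13 → ℕ :=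
  ![0, B, r, s.pc + 1, s.v, s.c, s.t, s.lam, s.g, s.i, s.acc, encStk bs bg s.stk,
    encMem R s.mem]

theorem blk_of_lt {t : ℕ} (ht : t < 3) : (Cat.blk t : ℕ) = t := Nat.mod_eq_of_lt ht

theorem encStk_ret1 (bs bg v c t lam : ℕ) (l : List Cat.Frame) :
    encStk bs bg (⟨1, v, c, t, lam, 0, 0, 0⟩ :: l) =
      pushS bs (encStk bs bg l) (frameN bs 1 v c t lam 0 0) := by
  rw [encStk, if_neg (by simp [Cat.Frame.isBig])]

theorem encStk_ret5 (bs bg v c t lam : ℕ) (l : List Cat.Frame) :
    encStk bs bg (⟨5, v, c, t, lam, 0, 0, 0⟩ :: l) =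
      pushS bs (encStk bs bg l) (frameN bs 5 v c t lam 0 0) := by
  rw [encStk, if_neg (by simp [Cat.Frame.isBig])]

theorem encStk_ret4 (bs bg v c t lam g i acc : ℕ) (l : List Cat.Frame) :
    encStk bs bg (⟨4, v, c, t, lam, g, i, acc⟩ :: l) =
      pushB bs bg (encStk bs bg l) g (frameN bs 4 v c t lam i acc) := by
  rw [encStk, if_pos (by simp [Cat.Frame.isBig])]

theorem encStk_ret6 (bs bg v c t lam g i acc : ℕ) (l : List Cat.Frame) :
    encStk bs bg (⟨6, v, c, t, lam, g, i, acc⟩ :: l) =
      pushB bs bg (encStk bs bg l) g (frameN bs 6 v c t lam i acc) := by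
  rw [encStk, if_pos (by simp [Cat.Frame.isBig])]

theorem stepR_encR (N : NTM) (P : Prm) (R : Cat.Rules) (bs bg B r : ℕ)
    (hp : R.p.Prime) (V Gm n : ℕ) (hbase : BaseOK R V Gm n bs bg)
    (hB : R.p ^ (3 * R.W) ≤ B) (hB2 : 2 ^ R.W ≤ B)
    (s : Cat.St R) (l b : ℕ) (hs : s.Bounded V Gm n l b) (hne : s.pc ≠ 7 ∨ s.stk ≠ []) :
    stepR N P R bs bg (encR R bs bg B r s) = encR R bs bg B r (Cat.step R s) := by
  obtain ⟨pc, v, c, t, lam, g, i, acc, stk, mem⟩ := s
  obtain ⟨hpc, hv, hc, ht, hlam, hg, hi, hacc, hstk, hlen, hbig⟩ := hs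
  simp only at hpc hv hc ht hlam hg hi hacc hstk hlen hbig hne
  have hx : encR R bs bg B r ⟨pc, v, c, t, lam, g, i, acc, stk, mem⟩ =
    ![0, B, r, pc + 1, v, c, t, lam, g, i, acc, encStk bs bg stk, encMem R mem] := rfl
  rw [hx]
  set x : Fin 13 → ℕ :=
    ![0, B, r, pc + 1, v, c, t, lam, g, i, acc, encStk bs bg stk, encMem R mem] with hxd
  have x0 : x 0 = 0 := rfl
  have x1 : x 1 = B := rfl
  have x2 : x 2 = r := rfl
  have x3 : x 3 = pc + 1 := rfl
  have x4 : x 4 = v := rfl
  have x5 : x 5 = c := rfl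
  have x6 : x 6 = t := rfl
  have x7 : x 7 = lam := rfl
  have x8 : x 8 = g := rfl
  have x9 : x 9 = i := rfl
  have x10 : x 10 = acc := rfl
  have x11 : x 11 = encStk bs bg stk := rfl
  have x12 : x 12 = encMem R mem := rfl
  unfold stepR
  simp only [x0, x1, x2, x3, x4, x5, x6, x7, x8, x9, x10, x11, x12]
  rw [if_neg (by decide : ¬ ((0 : ℕ) ≠ 0)), if_neg (Nat.succ_ne_zero pc)]
  interval_cases pc
  · -- enter
    simp only [Cat.step]
    rw [if_neg (by decide), if_pos (by decide)]
    by_cases hl : R.leaf v = true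
    · rw [if_pos hl, if_pos hl, addN_encMem R hp mem B t c _ ht hB]
      unfold encR
      rfl
    · rw [if_neg hl, if_neg hl]
      unfold encR
      simp only [encStk_ret1]
  · -- A loaded
    simp only [Cat.step]
    rw [if_neg (by decide), if_neg (by decide), if_pos (by decide)]
    rw [copyN_encMem R hp mem B t c _ lam ht hB]
    rfl
  · -- g loop
    simp only [Cat.step]
    rw [if_neg (by decide), if_neg (by decide), if_neg (by decide), if_pos (by decide)]
    by_cases hl : g < R.G v
    · rw [if_pos hl, if_pos hl]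
      unfold encR
      rfl
    · rw [if_neg hl, if_neg hl]
      unfold encR
      simp only [encStk_ret5]
  · -- i loop
    simp only [Cat.step]
    rw [if_neg (by decide), if_neg (by decide), if_neg (by decide), if_neg (by decide), if_pos (by decide)]
    by_cases hl : i < R.n v
    · rw [if_pos hl, if_pos hl]
      unfold encR
      simp only [encStk_ret4]
    · rw [if_neg hl, if_neg hl, addN_encMem R hp mem B t acc _ ht hB]
      unfold encR
      rfl
  · -- B loaded
    simp only [Cat.step]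
    rw [if_neg (by decide), if_neg (by decide), if_neg (by decide), if_neg (by decide), if_neg (by decide), if_pos (by decide)]
    have hpn : NeZero R.p := ⟨hp.ne_zero⟩
    have e1 : acc * chN B R.p R.W (encMem R mem) t lam (fun a x => R.chi v g i a x) % R.p =
        ((acc : ZMod R.p) * Cat.chiHat R v g i (fun j => lam * mem (Cat.blk (t + 1)) j)
          (fun j => lam * mem (Cat.blk (t + 2)) j)).val := by
      rw [chN_encMem R hp mem B t lam v g i hB2, ZMod.val_mul, ZMod.val_natCast,
        Nat.mod_mul_mod]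
    rw [e1]
    rfl
  · -- A unloaded
    simp only [Cat.step]
    rw [if_neg (by decide), if_neg (by decide), if_neg (by decide), if_neg (by decide), if_neg (by decide), if_neg (by decide), if_pos (by decide)]
    by_cases hl : lam + 1 < R.p
    · rw [if_pos hl, if_pos hl]
      rfl
    · rw [if_neg hl, if_neg hl]
      rfl
  · -- B unloaded
    simp only [Cat.step]
    rw [if_neg (by decide), if_neg (by decide), if_neg (by decide), if_neg (by decide), if_neg (by decide), if_neg (by decide), if_neg (by decide), if_pos (by decide)]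
    rfl
  · -- return
    simp only [Cat.step]
    rw [if_neg (by decide), if_neg (by decide), if_neg (by decide), if_neg (by decide), if_neg (by decide), if_neg (by decide), if_neg (by decide), if_neg (by decide), if_pos (by decide)]
    rcases stk with _ | ⟨f, rest⟩
    · rcases hne with h | h
      · exact absurd rfl h
      · exact absurd rfl h
    have hf : f.Bounded R V Gm n := hstk f (by simp)
    have h0 : encStk bs bg (f :: rest) ≠ 0 := by
      intro h
      have := (encStk_eq_zero_iff (R := R) (V := V) (Gm := Gm) (n := n) (bs := bs) (bg := bg)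
        (f :: rest) hstk).mp h
      exact absurd this (by simp)
    rw [if_neg h0]
    obtain ⟨f0, f1, f2, f3, f4, f5, f6, fb, fs⟩ := encStk_cons hbase f rest hf
    rw [f0, f1, f2, f3, f4, f5, f6]
    by_cases hb : f.isBig = true
    · have hr : f.ret = 4 ∨ f.ret = 6 := by
        unfold Cat.Frame.isBig at hb
        simpa using hb
      rw [if_pos hr, (fb hb).1, (fb hb).2]
      rfl
    · have hb' : f.isBig = false := by simpa using hb
      have hr : ¬ (f.ret = 4 ∨ f.ret = 6) := by
        intro h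
        apply hb
        unfold Cat.Frame.isBig
        simpa using h
      have hg0 : f.g = 0 := hf.2.2.2.2.2.2.2.2.2 hb'
      rw [if_neg hr, fs hb']
      unfold encR
      simp only [hg0]

end Vale.Agent.P312
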